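import Vale.Agent.P092.H885.Final

/-!
ICC groups with property (T): the version of the dichotomy for all finite generating sets.
-/

open scoped InnerProductSpace
open Filter Topology ContinuousLinearMap

namespace Vale.Agent.P092.H051

open Vale.Agent.P092.H160 Vale.Agent.P092.H885

variable {Γ : Type} [Group Γ]

theorem kazhdan_min {Q : Finset Γ} {ε : ℝ} (hK : IsKazhdanPair Γ Q ε) :
    IsKazhdanPair Γ Q (min ε 1) := by
  refine ⟨lt_min hK.1 one_pos, fun H _ _ _ π hπ v => ?_⟩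
  obtain ⟨s, hs, h⟩ := hK.2 H π hπ v
  refine ⟨s, hs, le_trans ?_ h⟩
  exact mul_le_mul_of_nonneg_right (min_le_left _ _) (norm_nonneg _)

theorem icc_gen (hΓ : ∀ g : Γ, g ≠ 1 → Set.Infinite {y : Γ | ∃ h, y = h * g * h⁻¹})
    {Q₀ : Finset Γ} {ε₀ : ℝ} (hK : IsKazhdanPair Γ Q₀ ε₀) {Q : Finset Γ}
    (hgen : Subgroup.closure (Q : Set Γ) = ⊤) :
    ∃ δ : ℝ, 0 < δ ∧ δ < 1 ∧ ∀ {Λ : Type} [Group Λ] (θ : St.StarIso Γ Λ), ¬ St.Canonical θ →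
    (∃ s ∈ Q, fourth (θ.toFun (St.u s)) ≤ 1 - δ) ∧ ∀ (a b : Γ) (k : ℕ),
      (avg Q)^[k] (fun g => fourth (θ.toFun (St.u (a * g * b)))) 1 ≤ (1 - δ) ^ k := by
  have hK1 := kazhdan_min hK
  obtain ⟨ε, hε, hε1, hgap⟩ := gap_of_gen hgen (Q₀ : Set Γ) Q₀.finite_toSet hK1.1
    (min_le_right _ _)
  have hmain : ∀ {Λ : Type} [Group Λ] (θ : St.StarIso Γ Λ), ¬ St.Canonical θ →
      (∃ s ∈ Q, fourth (θ.toFun (St.u s)) ≤ 1 - ε ^ 2 / 2) ∧ ∀ (a b : Γ) (k : ℕ),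
      (avg Q)^[k] (fun g => fourth (θ.toFun (St.u (a * g * b)))) 1 ≤
        (1 - ε ^ 2 / (4 * Q.card)) ^ k := by
    intro Λ _ θ hnc
    have hF := frame_of_iso hΓ (toAlg θ)
    have horth := orth_of_not_canonical hΓ θ hnc
    have hπ := pr_adj hF
    have hmem : (dl 1 : Ell2 (Λ × Λ × Λ)) ∈ (invSub (pr hF))ᗮ :=
      (Submodule.mem_orthogonal _ _).mpr fun η hη => horth η hη
    have hd0 : (dl 1 : Ell2 (Λ × Λ × Λ)) ≠ 0 := by
      intro h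
      have := norm_dl3 (Λ := Λ)
      rw [h, norm_zero] at this
      exact zero_ne_one this
    have hne : ∃ t ∈ Q, ε * ‖(dl 1 : Ell2 (Λ × Λ × Λ))‖ ≤
        ‖pr hF t (dl 1) - (dl 1 : Ell2 (Λ × Λ × Λ))‖ :=
      hgap (pr hF) hπ _ hd0 (kazhdan_moves hπ hK1 hmem)
    obtain ⟨t, ht, -⟩ := id hne
    have hgap' : ∀ v ∈ (invSub (pr hF))ᗮ, ∃ s ∈ Q, ε * ‖v‖ ≤ ‖pr hF s v - v‖ := by
      intro v hv
      rcases eq_or_ne v 0 with rfl | h0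
      · exact ⟨t, ht, by rw [norm_zero, mul_zero]; exact norm_nonneg _⟩
      · exact hgap (pr hF) hπ v h0 (kazhdan_moves hπ hK1 hv)
    simp only [fourth_coeff θ hF]
    exact ⟨gap_one hπ hε.le hne norm_dl3, fun a b k =>
      gap_coeff hπ hε.le ⟨t, ht⟩ _ (fun g v hv => orth_map hπ g hv) hgap' hmem norm_dl3 a b k⟩
  by_cases hQ : Q.Nonempty
  swap
  · refine ⟨1 / 2, by norm_num, by norm_num, fun {Λ} _ θ hnc => ?_⟩
    obtain ⟨⟨s, hs, -⟩, -⟩ := hmain θ hnc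
    exact absurd ⟨s, hs⟩ hQ
  have hc : (1 : ℝ) ≤ Q.card := by exact_mod_cast hQ.card_pos
  have hε2 : ε ^ 2 ≤ 1 := pow_le_one₀ hε.le hε1
  refine ⟨ε ^ 2 / (4 * Q.card), by positivity, ?_, fun {Λ} _ θ hnc => ?_⟩
  · rw [div_lt_one (by positivity)]; nlinarith
  · obtain ⟨⟨s, hs, h5⟩, h6⟩ := hmain θ hnc
    refine ⟨⟨s, hs, h5.trans ?_⟩, h6⟩
    have : ε ^ 2 / (4 * Q.card) ≤ ε ^ 2 / 2 := by
      gcongr
      linarith
    linarith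

end Vale.Agent.P092.H051
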