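import Vale.Agent.P092.H051.Dens
import Vale.Agent.P092.H051.IccT

/-!
Corners, part 6: the dichotomy for isomorphisms of `L(Γ)` onto `pL(Λ)p`.
-/

set_option linter.all false

open scoped InnerProductSpace
open Filter Topology ContinuousLinearMap

namespace Vale.Agent.P092.H051

open Vale.Agent.P092.H160 Vale.Agent.P092.H885

section gapv

variable {Γ : Type} [Group Γ] {H : Type} [NormedAddCommGroup H] [InnerProductSpace ℂ H]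
    [CompleteSpace H] {π : Γ →* (H →L[ℂ] H)}

variable (hπ : ∀ g, adjoint (π g) = π g⁻¹)

include hπ

theorem gap_one' {Q : Finset Γ} {ε : ℝ} (hε : 0 ≤ ε) {ξ : H}
    (gap : ∃ s ∈ Q, ε * ‖ξ‖ ≤ ‖π s ξ - ξ‖) (h0 : ξ ≠ 0) (h1 : ‖ξ‖ ≤ 1)
    (hnn : ∀ g, 0 ≤ (⟪ξ, π g ξ⟫_ℂ).re) :
    ∃ s ∈ Q, (⟪ξ, π s ξ⟫_ℂ).re ≤ 1 - ε ^ 2 / 2 := by
  obtain ⟨s, hs, h2⟩ := gap
  refine ⟨s, hs, ?_⟩
  have h3 := norm_sub_sq (𝕜 := ℂ) (π s ξ) ξ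
  rw [u_norm hπ] at h3
  have h4 : (⟪π s ξ, ξ⟫_ℂ).re = (⟪ξ, π s ξ⟫_ℂ).re := by
    rw [← inner_conj_symm, Complex.conj_re]
  have h5 : ‖π s ξ - ξ‖ ^ 2 = ‖ξ‖ ^ 2 - 2 * (⟪π s ξ, ξ⟫_ℂ).re + ‖ξ‖ ^ 2 := h3
  have h6 : (ε * ‖ξ‖) ^ 2 ≤ ‖π s ξ - ξ‖ ^ 2 := pow_le_pow_left₀ (by positivity) h2 2
  rw [h5, h4] at h6
  have h7 := hnn s
  have h8 : (⟪ξ, π s ξ⟫_ℂ).re ≤ ‖ξ‖ ^ 2 * (1 - ε ^ 2 / 2) := by nlinarith
  have h9 : 0 < ‖ξ‖ ^ 2 := by have := norm_pos_iff.mpr h0; positivity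
  have h10 : 0 ≤ 1 - ε ^ 2 / 2 := by
    by_contra hneg
    push Not at hneg
    nlinarith
  have h11 : ‖ξ‖ ^ 2 ≤ 1 := pow_le_one₀ (norm_nonneg _) h1
  nlinarith

theorem gap_coeff' {Q : Finset Γ} {ε : ℝ} (hε : 0 ≤ ε) (hQ : Q.Nonempty) (K : Submodule ℂ H)
    (hK : ∀ g, ∀ v ∈ K, π g v ∈ K) (gap : ∀ v ∈ K, ∃ s ∈ Q, ε * ‖v‖ ≤ ‖π s v - v‖) {ξ : H}
    (hξ : ξ ∈ K) (h0 : ξ ≠ 0) (h1 : ‖ξ‖ ≤ 1) (a b : Γ) (n : ℕ) :
    (avg Q)^[n] (fun g => (⟪ξ, π (a * g * b) ξ⟫_ℂ).re) 1 ≤ (1 - ε ^ 2 / (4 * Q.card)) ^ n := by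
  have hg := gap_norm hπ hε hQ K hK gap (hK b ξ hξ) n
  rw [u_norm hπ] at hg
  have h9 : 0 < ‖ξ‖ := norm_pos_iff.mpr h0
  have h10 : 0 ≤ (1 - ε ^ 2 / (4 * Q.card)) ^ n := by
    have h11 : 0 ≤ (1 - ε ^ 2 / (4 * Q.card)) ^ n * ‖ξ‖ := (norm_nonneg _).trans hg
    by_contra hneg
    push Not at hneg
    nlinarith
  rw [avg_translate hπ]
  calc _ ≤ ‖⟪π a⁻¹ ξ, (av π Q)^[n] (π b ξ)⟫_ℂ‖ := Complex.re_le_norm _
    _ ≤ ‖π a⁻¹ ξ‖ * ‖(av π Q)^[n] (π b ξ)‖ := norm_inner_le_norm _ _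
    _ ≤ 1 * ((1 - ε ^ 2 / (4 * Q.card)) ^ n * 1) := by
        rw [u_norm hπ]
        refine mul_le_mul h1 (hg.trans ?_) (norm_nonneg _) zero_le_one
        gcongr
    _ = _ := by ring

end gapv

variable {Γ Λ : Type} [Group Γ] [Group Λ] {p : Ell2 Λ →L[ℂ] Ell2 Λ}

theorem fourth_al (θ : St.CornerIso Γ Λ p) (g : Γ) :
    fourth (θ.toFun (St.u g)) =
      (⟪x0 (al θ), ph (al_cf θ) g (x0 (al θ))⟫_ℂ).re := by
  rw [inner_x0, Complex.ofReal_re]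
  exact fourth_eq (⟨al θ g, mem_LG_of_cmm ((al_cf θ).cmm g)⟩ : LG Λ)

theorem p_pos (θ : St.CornerIso Γ Λ p) : 0 < ‖p (dl 1)‖ := by
  rw [norm_pos_iff]
  intro h0
  have hp0 : p = 0 := regRep_rho.ext_cmm (pc θ) (fun g => by rw [zero_mul, mul_zero]) h0
  have h1 : θ.toFun (1 : LG Γ) = θ.toFun (0 : LG Γ) := by
    have h2 : θ.toFun (0 : LG Γ) = 0 := by
      have := th_smul θ 0 (0 : LG Γ)
      rw [zero_smul, zero_smul] at this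
      exact this
    rw [th_one, h2, hp0]
  have h2 : (1 : LG Γ) = 0 := Subtype.ext (by
    rw [← θ.left_inv _ ((inL_iff _).mpr (1 : LG Γ).2), h1,
      θ.left_inv _ ((inL_iff _).mpr (0 : LG Γ).2)])
  have h3 := congrArg (fun T : LG Γ => (T : Ell2 Γ →L[ℂ] Ell2 Γ) (dl 1)) h2
  have h4 : (dl 1 : Ell2 Γ) = 0 := h3
  have h5 := norm_dl (X := Γ) 1
  rw [h4, norm_zero] at h5
  exact zero_ne_one h5

theorem p_lt (θ : St.CornerIso Γ Λ p) (hp : p ≠ 1) : ‖p (dl 1)‖ < 1 := by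
  have hle : ‖p (dl 1)‖ ≤ 1 := by
    have := norm_le_of_pi (U := p) (q := p) (by rw [pa θ, pp θ]) (pp θ) (pa θ) (dl 1)
    rwa [norm_dl] at this
  refine lt_of_le_of_ne hle fun h1 => hp ?_
  refine regRep_rho.ext_cmm (pc θ) Cmm.one ?_
  change p (dl 1) = dl 1
  have h2 : ⟪(dl 1 : Ell2 Λ) - p (dl 1), dl 1 - p (dl 1)⟫_ℂ = 0 := by
    have h3 := inner_p (dl 1 : Ell2 Λ) (pp θ) (pa θ)
    have h4 : ⟪p (dl 1), (dl 1 : Ell2 Λ)⟫_ℂ = ((‖p (dl 1)‖ ^ 2 : ℝ) : ℂ) := by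
      rw [padj (pa θ), h3]
    have h5 : ⟪p (dl 1), p (dl 1)⟫_ℂ = ((‖p (dl 1)‖ ^ 2 : ℝ) : ℂ) := by
      rw [padj (pa θ), ← mul_ap, pp θ, h3]
    rw [inner_sub_left, inner_sub_right, inner_sub_right, h3, h4, h5,
      inner_self_eq_norm_sq_to_K, norm_dl, h1]
    simp
  exact (sub_eq_zero.mp (inner_self_eq_zero.mp h2)).symm

theorem x0_ne (θ : St.CornerIso Γ Λ p) : x0 (al θ) ≠ 0 := by
  intro h0
  have h1 := inner_x0 (al_cf θ) 1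
  rw [h0, inner_zero_left] at h1
  have h2 : (∑' s, ‖(al θ 1 (dl 1) : Ell2 Λ) s‖ ^ 4 : ℝ) = 0 := by exact_mod_cast h1.symm
  have h3 : Summable fun s => ‖(al θ 1 (dl 1) : Ell2 Λ) s‖ ^ 4 := by
    have h4 := summable_sq (al θ 1 (dl 1))
    refine Summable.of_nonneg_of_le (fun _ => by positivity) (fun s => ?_)
      (h4.mul_left (‖al θ 1 (dl 1)‖ ^ 2))
    have h5 := norm_coord_le (al θ 1 (dl 1)) s
    calc ‖(al θ 1 (dl 1) : Ell2 Λ) s‖ ^ 4 =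
        ‖(al θ 1 (dl 1) : Ell2 Λ) s‖ ^ 2 * ‖(al θ 1 (dl 1) : Ell2 Λ) s‖ ^ 2 := by ring
      _ ≤ _ := by gcongr
  have h4 := h3.le_tsum 1 (fun _ _ => by positivity)
  rw [h2, p_coord (al_cf θ), al_one, Complex.norm_real] at h4
  have h5 := p_pos θ
  have h6 : 0 < ‖(‖p (dl 1)‖ ^ 2 : ℝ)‖ ^ 4 := by
    rw [Real.norm_of_nonneg (by positivity)]
    positivity
  linarith

theorem x0_le (θ : St.CornerIso Γ Λ p) : ‖x0 (al θ)‖ ≤ 1 := by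
  have h1 : ‖pq (al θ) 1 (dl 1)‖ ≤ ‖(dl 1 : Ell2 (Λ × Λ × Λ))‖ := by
    refine norm_le_of_pi (q := pq (al θ) 1) ?_ ?_ ?_ _
    · rw [pq_adj (al_cf θ), ← pq_mul (al_cf θ), inv_mul_cancel]
    · rw [← pq_mul (al_cf θ), _root_.one_mul]
    · rw [pq_adj (al_cf θ), inv_one]
  rw [norm_dl] at h1
  exact h1

theorem fourth_nonneg {G : Type} [Group G] (T : St.Op G) : 0 ≤ fourth T :=
  tsum_nonneg fun _ => by positivity

/-- The case of a proper corner, from a gap. -/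
theorem corner_gap (hΓ : ∀ g : Γ, g ≠ 1 → Set.Infinite {y : Γ | ∃ h, y = h * g * h⁻¹})
    (hΛ : ∀ s : Λ, s ≠ 1 → Set.Infinite {y : Λ | ∃ h, y = h * s * h⁻¹})
    (θ : St.CornerIso Γ Λ p) (hp : p ≠ 1) {Q : Finset Γ} {ε : ℝ} (hε : 0 ≤ ε)
    (hgap : ∀ {H : Type} [NormedAddCommGroup H] [InnerProductSpace ℂ H] [CompleteSpace H]
      (π : Γ →* (H →L[ℂ] H)), (∀ g, adjoint (π g) = π g⁻¹) → ∀ v ∈ (invSub π)ᗮ, v ≠ 0 →
      ∃ s ∈ Q, ε * ‖v‖ ≤ ‖π s v - v‖) :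
    (∃ s ∈ Q, fourth (θ.toFun (St.u s)) ≤ 1 - ε ^ 2 / 2) ∧ ∀ (a b : Γ) (k : ℕ),
      (avg Q)^[k] (fun g => fourth (θ.toFun (St.u (a * g * b)))) 1 ≤
        (1 - ε ^ 2 / (4 * Q.card)) ^ k := by
  have hα := al_cf θ
  have h0 : 0 < ‖al θ 1 (dl 1)‖ := by rw [al_one]; exact p_pos θ
  have h1 : ‖al θ 1 (dl 1)‖ < 1 := by rw [al_one]; exact p_lt θ hp
  have horth := orth_corner hα hΛ (fun y hy hc s => gen_al θ hΓ (p_pos θ) y hy hc s) h0 h1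
  have hπ := ph_adj hα
  have hmem : x0 (al θ) ∈ (invSub (ph hα))ᗮ :=
    (Submodule.mem_orthogonal _ _).mpr fun η hη => horth η hη
  have hne := hgap (ph hα) hπ _ hmem (x0_ne θ)
  obtain ⟨t, ht, -⟩ := id hne
  have hgap' : ∀ v ∈ (invSub (ph hα))ᗮ, ∃ s ∈ Q, ε * ‖v‖ ≤ ‖ph hα s v - v‖ := by
    intro v hv
    rcases eq_or_ne v 0 with rfl | hv0
    · exact ⟨t, ht, by rw [norm_zero, mul_zero]; exact norm_nonneg _⟩
    · exact hgap (ph hα) hπ v hv hv0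
  have hF := fourth_al θ
  simp only [hF]
  refine ⟨gap_one' hπ hε hne (x0_ne θ) (x0_le θ) (fun g => ?_), fun a b k =>
    gap_coeff' hπ hε ⟨t, ht⟩ _ (fun g v hv => orth_map hπ g hv) hgap' hmem (x0_ne θ) (x0_le θ) a b k⟩
  rw [← hF]
  exact fourth_nonneg _

theorem corner_soft (hΓ : ∀ g : Γ, g ≠ 1 → Set.Infinite {y : Γ | ∃ h, y = h * g * h⁻¹})
    (hΛ : ∀ s : Λ, s ≠ 1 → Set.Infinite {y : Λ | ∃ h, y = h * s * h⁻¹})
    (θ : St.CornerIso Γ Λ p) (hp : p ≠ 1) {Q : Finset Γ} (hQ : Q.Nonempty)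
    (hgen : Subgroup.closure (Q : Set Γ) = ⊤) (a b : Γ) :
    Tendsto (fun k : ℕ => (avg Q)^[k] (fun g => fourth (θ.toFun (St.u (a * g * b)))) 1)
      atTop (𝓝 0) := by
  have hα := al_cf θ
  have h0 : 0 < ‖al θ 1 (dl 1)‖ := by rw [al_one]; exact p_pos θ
  have h1 : ‖al θ 1 (dl 1)‖ < 1 := by rw [al_one]; exact p_lt θ hp
  have horth := orth_corner hα hΛ (fun y hy hc s => gen_al θ hΓ (p_pos θ) y hy hc s) h0 h1
  simp only [fourth_al θ]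
  exact soft_coeff (ph_adj hα) hQ hgen horth a b

/-- For `p = 1`, an isomorphism onto the corner is an isomorphism onto `L(Λ)`. -/
noncomputable def toStar (θ : St.CornerIso Γ Λ p) (hp : p = 1) : St.StarIso Γ Λ where
  toFun := θ.toFun
  invFun := θ.invFun
  map_mem := θ.map_mem
  inv_mem T hT := θ.inv_mem T hT (by
    change p * T * p = T
    rw [hp, _root_.one_mul, _root_.mul_one])
  left_inv := θ.left_inv
  right_inv T hT := θ.right_inv T hT (by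
    change p * T * p = T
    rw [hp, _root_.one_mul, _root_.mul_one])
  map_add := θ.map_add
  map_smul := θ.map_smul
  map_mul := θ.map_mul
  map_adj := θ.map_adj

theorem u_one : (St.u (1 : Λ) : St.Op Λ) = 1 := lam_one

theorem canonical_toStar (θ : St.CornerIso Γ Λ p) (hp : p = 1)
    (h : St.Canonical (toStar θ hp)) : St.CornerCanonical θ :=
  ⟨by rw [u_one]; exact hp, h⟩

theorem star_of_canonical (θ : St.CornerIso Γ Λ p) (h : St.CornerCanonical θ) :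
    ∃ hp : p = 1, St.Canonical (toStar θ hp) :=
  ⟨by rw [← u_one]; exact h.1, h.2⟩

/-- The dichotomy, with a Kazhdan pair. -/
theorem corner_kazhdan (hΓ : ∀ g : Γ, g ≠ 1 → Set.Infinite {y : Γ | ∃ h, y = h * g * h⁻¹})
    (hΛ : p ≠ St.u 1 → ∀ s : Λ, s ≠ 1 → Set.Infinite {y : Λ | ∃ h, y = h * s * h⁻¹})
    (θ : St.CornerIso Γ Λ p) (hnc : ¬ St.CornerCanonical θ) {Q : Finset Γ} {ε : ℝ}
    (hK : IsKazhdanPair Γ Q ε) :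
    (∃ s ∈ Q, fourth (θ.toFun (St.u s)) ≤ 1 - ε ^ 2 / 2) ∧ ∀ (a b : Γ) (k : ℕ),
      (avg Q)^[k] (fun g => fourth (θ.toFun (St.u (a * g * b)))) 1 ≤
        (1 - ε ^ 2 / (4 * Q.card)) ^ k := by
  by_cases hp : p = 1
  · exact icc_kazhdan hΓ (toStar θ hp) (fun h => hnc (canonical_toStar θ hp h)) hK
  · exact corner_gap hΓ (hΛ (by rw [u_one]; exact hp)) θ hp hK.1.le
      (fun π hπ v hv _ => kazhdan_moves hπ hK hv)

theorem corner_soft' (hΓ : ∀ g : Γ, g ≠ 1 → Set.Infinite {y : Γ | ∃ h, y = h * g * h⁻¹})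
    (hΛ : p ≠ St.u 1 → ∀ s : Λ, s ≠ 1 → Set.Infinite {y : Λ | ∃ h, y = h * s * h⁻¹})
    (θ : St.CornerIso Γ Λ p) (hnc : ¬ St.CornerCanonical θ) {Q : Finset Γ} (hQ : Q.Nonempty)
    (hgen : Subgroup.closure (Q : Set Γ) = ⊤) (a b : Γ) :
    Tendsto (fun k : ℕ => (avg Q)^[k] (fun g => fourth (θ.toFun (St.u (a * g * b)))) 1)
      atTop (𝓝 0) := by
  by_cases hp : p = 1
  · exact icc_soft hΓ (toStar θ hp) (fun h => hnc (canonical_toStar θ hp h)) hQ hgen a b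
  · exact corner_soft hΓ (hΛ (by rw [u_one]; exact hp)) θ hp hQ hgen a b

/-- All finite generating sets. -/
theorem corner_gen (hΓ : ∀ g : Γ, g ≠ 1 → Set.Infinite {y : Γ | ∃ h, y = h * g * h⁻¹})
    {Q₀ : Finset Γ} {ε₀ : ℝ} (hK : IsKazhdanPair Γ Q₀ ε₀) {Q : Finset Γ}
    (hgen : Subgroup.closure (Q : Set Γ) = ⊤) :
    ∃ δ : ℝ, 0 < δ ∧ δ < 1 ∧ ∀ {Λ : Type} [Group Λ] {p : St.Op Λ} (θ : St.CornerIso Γ Λ p),
    (p ≠ St.u 1 → ∀ s : Λ, s ≠ 1 → Set.Infinite {y : Λ | ∃ h, y = h * s * h⁻¹}) →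
    ¬ St.CornerCanonical θ →
    (∃ s ∈ Q, fourth (θ.toFun (St.u s)) ≤ 1 - δ) ∧ ∀ (a b : Γ) (k : ℕ),
      (avg Q)^[k] (fun g => fourth (θ.toFun (St.u (a * g * b)))) 1 ≤ (1 - δ) ^ k := by
  obtain ⟨δ₁, h10, h11, h1⟩ := icc_gen hΓ hK hgen
  have hK1 := kazhdan_min hK
  obtain ⟨ε, hε, hε1, hgap⟩ := gap_of_gen hgen (Q₀ : Set Γ) Q₀.finite_toSet hK1.1
    (min_le_right _ _)
  have hmain : ∀ {Λ : Type} [Group Λ] {p : St.Op Λ} (θ : St.CornerIso Γ Λ p),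
      (∀ s : Λ, s ≠ 1 → Set.Infinite {y : Λ | ∃ h, y = h * s * h⁻¹}) → p ≠ 1 →
      (∃ s ∈ Q, fourth (θ.toFun (St.u s)) ≤ 1 - ε ^ 2 / 2) ∧ ∀ (a b : Γ) (k : ℕ),
      (avg Q)^[k] (fun g => fourth (θ.toFun (St.u (a * g * b)))) 1 ≤
        (1 - ε ^ 2 / (4 * Q.card)) ^ k := fun θ hΛ hp =>
    corner_gap hΓ hΛ θ hp hε.le (fun π hπ v hv h0 => hgap π hπ v h0 (kazhdan_moves hπ hK1 hv))
  by_cases hQ : Q.Nonempty
  swap
  · refine ⟨1 / 2, by norm_num, by norm_num, fun {Λ} _ {p} θ hΛ hnc => ?_⟩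
    by_cases hp : p = 1
    · obtain ⟨⟨s, hs, -⟩, -⟩ := h1 (toStar θ hp) (fun h => hnc (canonical_toStar θ hp h))
      exact absurd ⟨s, hs⟩ hQ
    · obtain ⟨⟨s, hs, -⟩, -⟩ := hmain θ (hΛ (by rw [u_one]; exact hp)) hp
      exact absurd ⟨s, hs⟩ hQ
  have hc : (1 : ℝ) ≤ Q.card := by exact_mod_cast hQ.card_pos
  have hε2 : ε ^ 2 ≤ 1 := pow_le_one₀ hε.le hε1
  have hle : ε ^ 2 / (4 * Q.card) ≤ ε ^ 2 / 2 := by
    gcongr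
    linarith
  have hlt : ε ^ 2 / (4 * Q.card) < 1 := by
    rw [div_lt_one (by positivity)]; nlinarith
  have hδ2 : 0 < ε ^ 2 / (4 * Q.card) := by positivity
  refine ⟨min δ₁ (ε ^ 2 / (4 * Q.card)), lt_min h10 hδ2, min_lt_of_left_lt h11,
    fun {Λ} _ {p} θ hΛ hnc => ?_⟩
  by_cases hp : p = 1
  · obtain ⟨⟨s, hs, h5⟩, h6⟩ := h1 (toStar θ hp) (fun h => hnc (canonical_toStar θ hp h))
    refine ⟨⟨s, hs, h5.trans ?_⟩, fun a b k => (h6 a b k).trans ?_⟩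
    · have := min_le_left δ₁ (ε ^ 2 / (4 * Q.card))
      linarith
    · have := min_le_left δ₁ (ε ^ 2 / (4 * Q.card))
      exact pow_le_pow_left₀ (by linarith) (by linarith) _
  · obtain ⟨⟨s, hs, h5⟩, h6⟩ := hmain θ (hΛ (by rw [u_one]; exact hp)) hp
    refine ⟨⟨s, hs, h5.trans ?_⟩, fun a b k => (h6 a b k).trans ?_⟩
    · have := min_le_right δ₁ (ε ^ 2 / (4 * Q.card))
      linarith
    · have := min_le_right δ₁ (ε ^ 2 / (4 * Q.card))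
      exact pow_le_pow_left₀ (by linarith) (by linarith) _

theorem corner_lower (hΓ : ∀ g : Γ, g ≠ 1 → Set.Infinite {y : Γ | ∃ h, y = h * g * h⁻¹})
    (θ : St.CornerIso Γ Λ p) (h : St.CornerCanonical θ) :
    ∃ c : ℝ, 0 < c ∧ ∀ g : Γ, c ≤ fourth (θ.toFun (St.u g)) := by
  obtain ⟨hp, h'⟩ := star_of_canonical θ h
  exact lower_of_canonical hΓ (toStar θ hp) h'

end Vale.Agent.P092.H051
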