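import Vale.Agent.P092.H051.Kp

/-!
Corners, part 5: the trace of `θ(T)`, and operators which commute with all `Δ(θ(u_g))`.
-/

set_option linter.all false

open scoped InnerProductSpace
open Filter Topology ContinuousLinearMap

namespace Vale.Agent.P092.H051

open Vale.Agent.P092.H160 Vale.Agent.P092.H885

variable {Γ Λ : Type} [Group Γ] [Group Λ]

variable {p : Ell2 Λ →L[ℂ] Ell2 Λ} (θ : St.CornerIso Γ Λ p)

theorem inner_p (v : Ell2 Λ) (hpp : p * p = p) (hpa : adjoint p = p) :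
    ⟪v, p v⟫_ℂ = ((‖p v‖ ^ 2 : ℝ) : ℂ) := by
  have h1 : ⟪p v, p v⟫_ℂ = ⟪v, p v⟫_ℂ := by
    rw [padj hpa, ← mul_ap, hpp]
  rw [← h1, inner_self_eq_norm_sq_to_K]
  push_cast
  rfl

/-- The trace of `θ(T)`. -/
theorem tr_theta (hΓ : ∀ g : Γ, g ≠ 1 → Set.Infinite {y : Γ | ∃ h, y = h * g * h⁻¹})
    (h0 : 0 < ‖p (dl 1)‖) (T : LG Γ) :
    ⟪(dl 1 : Ell2 Λ), θ.toFun T (dl 1)⟫_ℂ = tr T * ((‖p (dl 1)‖ ^ 2 : ℝ) : ℂ) := by
  obtain ⟨S, hS⟩ : ∃ S : LG Γ, S = T + (-tr T) • 1 := ⟨_, rfl⟩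
  have hS0 : tr S = 0 := by
    rw [hS, H108.tr_add, H108.tr_smul, H108.tr_one]
    ring
  obtain ⟨c, hc⟩ : ∃ c : ℝ, c = (‖(S : Ell2 Γ →L[ℂ] Ell2 Γ)‖ + 1)⁻¹ := ⟨_, rfl⟩
  have hn : 0 < ‖(S : Ell2 Γ →L[ℂ] Ell2 Γ)‖ + 1 := by positivity
  have hc0 : 0 < c := by rw [hc]; positivity
  have h1 := tr_zero θ hΓ h0 ((c : ℂ) • S) (by
    change ‖(c : ℂ) • (S : Ell2 Γ →L[ℂ] Ell2 Γ)‖ ≤ 1
    rw [norm_smul, Complex.norm_real, Real.norm_of_nonneg hc0.le, hc, inv_mul_le_iff₀ hn]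
    linarith) (by rw [H108.tr_smul, hS0, mul_zero])
  rw [th_smul] at h1
  have h2 : (c : ℂ) * ⟪(dl 1 : Ell2 Λ), θ.toFun S (dl 1)⟫_ℂ = 0 := by
    rw [← inner_smul_right]
    exact h1
  have h3 : ⟪(dl 1 : Ell2 Λ), θ.toFun S (dl 1)⟫_ℂ = 0 := by
    rcases mul_eq_zero.mp h2 with h | h
    · exact absurd (Complex.ofReal_eq_zero.1 h) hc0.ne'
    · exact h
  rw [hS, th_add, th_smul, th_one] at h3
  have h4 : ⟪(dl 1 : Ell2 Λ), θ.toFun T (dl 1)⟫_ℂ + (-tr T) * ⟪(dl 1 : Ell2 Λ), p (dl 1)⟫_ℂ = 0 := by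
    rw [← inner_smul_right, ← inner_add_right]
    exact h3
  rw [inner_p _ (pp θ) (pa θ)] at h4
  linear_combination h4

theorem norm_th (hΓ : ∀ g : Γ, g ≠ 1 → Set.Infinite {y : Γ | ∃ h, y = h * g * h⁻¹})
    (h0 : 0 < ‖p (dl 1)‖) (T : LG Γ) :
    ‖θ.toFun T (dl 1)‖ = ‖p (dl 1)‖ * ‖(T : Ell2 Γ →L[ℂ] Ell2 Γ) (dl 1)‖ := by
  have h1 := tr_theta θ hΓ h0 (star T * T)
  rw [th_mul, th_star, ← norm_sq_eq_tr, mul_ap, adjoint_inner_right,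
    inner_self_eq_norm_sq_to_K] at h1
  have h2 : ((‖θ.toFun T (dl 1)‖ ^ 2 : ℝ) : ℂ) =
      (((‖p (dl 1)‖ * ‖(T : Ell2 Γ →L[ℂ] Ell2 Γ) (dl 1)‖) ^ 2 : ℝ) : ℂ) := by
    have h3 : ((‖θ.toFun T (dl 1)‖ ^ 2 : ℝ) : ℂ) = ((‖θ.toFun T (dl 1)‖ : ℂ)) ^ 2 := by
      push_cast; rfl
    rw [h3]
    refine h1.trans ?_
    push_cast
    ring
  have h3 := Complex.ofReal_injective h2
  exact (pow_left_inj₀ (norm_nonneg _) (by positivity) two_ne_zero).mp h3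

/-- the linear map `T ↦ Δ(θ(T))` -/
noncomputable def Dth : LG Γ →ₗ[ℂ] (Ell2 (Λ × Λ × Λ) →L[ℂ] Ell2 (Λ × Λ × Λ)) where
  toFun T := Do (θ.toFun T)
  map_add' S T := by rw [th_add, Do_add]
  map_smul' c T := by
    rw [th_smul, Do_smul]
    rfl

theorem norm_Do_dl (a : Ell2 Λ →L[ℂ] Ell2 Λ) : ‖Do a (dl 1)‖ = ‖a (dl 1)‖ := by
  rw [Do_dl, norm_T0]

theorem comm_dense (hΓ : ∀ g : Γ, g ≠ 1 → Set.Infinite {y : Γ | ∃ h, y = h * g * h⁻¹})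
    (h0 : 0 < ‖p (dl 1)‖) {y : Ell2 (Λ × Λ × Λ) →L[ℂ] Ell2 (Λ × Λ × Λ)} (hy : Cmm rhoH y)
    (hc : ∀ g : Γ, y * Do (θ.toFun (St.u g)) = Do (θ.toFun (St.u g)) * y) (a : LG Γ) :
    y * Do (θ.toFun a) = Do (θ.toFun a) * y := by
  set c : Γ → ℂ := fun g => (a : Ell2 Γ →L[ℂ] Ell2 Γ) (dl 1) g with hcdef
  have hfc : ∀ t : Finset Γ, y * Dth θ (fc t c) = Dth θ (fc t c) * y := by
    intro t
    rw [fc, map_sum, Finset.mul_sum, Finset.sum_mul]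
    refine Finset.sum_congr rfl fun g _ => ?_
    rw [map_smul, mul_smul_comm, smul_mul_assoc]
    congr 1
    exact hc g
  have hcm : ∀ e : LG Γ, Cmm rhoH (Dth θ e) := fun e => Do_cmm (th_cmm θ e)
  have hest : ∀ e : LG Γ, ‖(y * Dth θ e - Dth θ e * y) (dl 1)‖ ≤
      2 * ‖y‖ * (‖p (dl 1)‖ * ‖(e : Ell2 Γ →L[ℂ] Ell2 Γ) (dl 1)‖) := by
    intro e
    have e1 : ‖(y * Dth θ e) (dl 1)‖ ≤ ‖y‖ * (‖p (dl 1)‖ * ‖(e : Ell2 Γ →L[ℂ] Ell2 Γ) (dl 1)‖) := by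
      rw [mul_ap]
      refine (le_opNorm _ _).trans ?_
      gcongr
      change ‖Do (θ.toFun e) (dl 1)‖ ≤ _
      rw [norm_Do_dl, norm_th θ hΓ h0]
    have e2 : ‖(Dth θ e * y) (dl 1)‖ ≤ ‖y‖ * (‖p (dl 1)‖ * ‖(e : Ell2 Γ →L[ℂ] Ell2 Γ) (dl 1)‖) := by
      rw [← regRep_rho.norm_adjoint ((hcm e).mul hy), ← star_eq_adjoint, star_mul,
        star_eq_adjoint, star_eq_adjoint, mul_ap]
      refine (le_opNorm _ _).trans ?_
      have h1 : ‖adjoint (Dth θ e) (dl 1)‖ = ‖Dth θ e (dl 1)‖ := regRep_rho.norm_adjoint (hcm e)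
      have h2 : ‖adjoint y‖ = ‖y‖ := by
        rw [← star_eq_adjoint, norm_star]
      rw [h1, h2]
      gcongr
      change ‖Do (θ.toFun e) (dl 1)‖ ≤ _
      rw [norm_Do_dl, norm_th θ hΓ h0]
    rw [sub_apply]
    refine (norm_sub_le _ _).trans ?_
    linarith
  have hzero : (y * Dth θ a - Dth θ a * y) (dl 1) = 0 := by
    rw [← norm_eq_zero]
    refine le_antisymm ?_ (norm_nonneg _)
    refine le_of_forall_pos_le_add fun ε hε => ?_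
    have h5 := hasSum_dl ((a : Ell2 Γ →L[ℂ] Ell2 Γ) (dl 1))
    have hpos : 0 < ε / (2 * ‖y‖ * ‖p (dl 1)‖ + 1) := by positivity
    obtain ⟨t, ht⟩ := (h5.eventually (Metric.ball_mem_nhds _ hpos)).exists
    have h7 : ‖((a - fc t c : LG Γ) : Ell2 Γ →L[ℂ] Ell2 Γ) (dl 1)‖ <
        ε / (2 * ‖y‖ * ‖p (dl 1)‖ + 1) := by
      have h4 : ((a - fc t c : LG Γ) : Ell2 Γ →L[ℂ] Ell2 Γ) (dl 1) =
          (a : Ell2 Γ →L[ℂ] Ell2 Γ) (dl 1) - ∑ g ∈ t, c g • dl g := by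
        rw [← fc_dl]
        rfl
      rw [h4, ← dist_eq_norm, dist_comm]
      exact ht
    have h8 : y * Dth θ a - Dth θ a * y =
        y * Dth θ (a - fc t c) - Dth θ (a - fc t c) * y := by
      rw [map_sub, mul_sub, sub_mul, hfc]
      abel
    rw [h8, zero_add]
    refine (hest _).trans ?_
    calc 2 * ‖y‖ * (‖p (dl 1)‖ * ‖((a - fc t c : LG Γ) : Ell2 Γ →L[ℂ] Ell2 Γ) (dl 1)‖)
        ≤ 2 * ‖y‖ * (‖p (dl 1)‖ * (ε / (2 * ‖y‖ * ‖p (dl 1)‖ + 1))) := by gcongr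
      _ = (2 * ‖y‖ * ‖p (dl 1)‖) / (2 * ‖y‖ * ‖p (dl 1)‖ + 1) * ε := by ring
      _ ≤ 1 * ε := by
          gcongr
          rw [div_le_one (by positivity)]
          linarith
      _ = ε := one_mul _
  have h9 : y * Dth θ a = Dth θ a * y :=
    regRep_rho.ext_cmm (hy.mul (hcm a)) ((hcm a).mul hy) (by
      rw [sub_apply] at hzero
      exact sub_eq_zero.mp hzero)
  exact h9

/-- The images of the canonical unitaries. -/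
noncomputable def al (g : Γ) : Ell2 Λ →L[ℂ] Ell2 Λ := θ.toFun (St.u g)

theorem al_eq (g : Γ) : al θ g = θ.toFun ((uu g : LG Γ) : Ell2 Γ →L[ℂ] Ell2 Γ) := rfl

theorem al_one : al θ 1 = p := by
  rw [al_eq, uu_one, th_one]

theorem al_cf : CF (al θ) where
  mul g h := by rw [al_eq, uu_mul, th_mul]; rfl
  adj g := by rw [al_eq, ← th_star, star_uu]; rfl
  cmm g := th_cmm θ (uu g)

theorem gen_al (hΓ : ∀ g : Γ, g ≠ 1 → Set.Infinite {y : Γ | ∃ h, y = h * g * h⁻¹})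
    (h0 : 0 < ‖p (dl 1)‖) (y : Ell2 (Λ × Λ × Λ) →L[ℂ] Ell2 (Λ × Λ × Λ)) (hy : Cmm rhoH y)
    (hc : ∀ g : Γ, y * Do (al θ g) = Do (al θ g) * y) (s : Λ) :
    y * Do (al θ 1 * lam s * al θ 1) = Do (al θ 1 * lam s * al θ 1) * y := by
  rw [al_one]
  have hm : Cmm rhoH (p * lam s * p) := ((pc θ).mul (cmm_rho_lam s)).mul (pc θ)
  have hcor : p * (p * lam s * p) * p = p * lam s * p := by
    calc p * (p * lam s * p) * p = (p * p) * lam s * (p * p) := by simp only [mul_assoc]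
      _ = _ := by rw [pp θ]
  have hin : St.InL (p * lam s * p) := (inL_iff _).mpr (mem_LG_of_cmm hm)
  have h1 := comm_dense θ hΓ h0 hy hc
    ⟨θ.invFun (p * lam s * p), (inL_iff _).mp (θ.inv_mem _ hin hcor)⟩
  have h2 : θ.toFun (θ.invFun (p * lam s * p)) = p * lam s * p := θ.right_inv _ hin hcor
  change y * Do (θ.toFun (θ.invFun (p * lam s * p))) =
    Do (θ.toFun (θ.invFun (p * lam s * p))) * y at h1
  rw [h2] at h1
  exact h1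

end Vale.Agent.P092.H051
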