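import Vale.Agent.P092.H051.Min

/-!
Corners, part 3: if the trace of `p` is less than one, the minimal vector is zero.
-/

set_option linter.all false

open scoped InnerProductSpace
open Filter Topology ContinuousLinearMap

namespace Vale.Agent.P092.H051

open Vale.Agent.P092.H160 Vale.Agent.P092.H885

variable {Γ Λ : Type} [Group Γ] [Group Λ]

/-- conjugation by `(s,s,s)` on `ℓ²(Λ³)` -/
noncomputable def cs (s : Λ) : Ell2 (Λ × Λ × Λ) →L[ℂ] Ell2 (Λ × Λ × Λ) :=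
  lam (ι3 s) * rho (ι3 s)

theorem cs_apply (s : Λ) (v : Ell2 (Λ × Λ × Λ)) (x : Λ × Λ × Λ) :
    cs s v x = v ((ι3 s)⁻¹ * x * ι3 s) := by
  change lam (ι3 s) (rho (ι3 s) v) x = _
  rw [lam_apply, rho_apply]

theorem cs_norm (s : Λ) (v : Ell2 (Λ × Λ × Λ)) : ‖cs s v‖ = ‖v‖ := by
  change ‖lam (ι3 s) (rho (ι3 s) v)‖ = _
  rw [norm_lam, norm_rho]

theorem cs_mul (s t : Λ) : cs (s * t) = cs s * cs t := by
  ext1 v
  apply ext_inner_dl
  intro x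
  rw [cs_apply, mul_ap, cs_apply, cs_apply, map_mul]
  congr 1
  group

theorem norm_ampR_le {X Y Z : Type} (S : Ell2 Y →L[ℂ] Ell2 Z) (hS : ∀ v, ‖S v‖ ≤ ‖v‖)
    (f : Ell2 (X × Y)) : ‖ampR X S f‖ ≤ ‖f‖ := by
  have h1 : ‖S‖ ≤ 1 := opNorm_le_bound _ zero_le_one fun v => by rw [one_mul]; exact hS v
  have h2 : ‖ampR X S f‖ ≤ ‖S‖ * ‖f‖ := norm_ampF_le S f
  calc _ ≤ ‖S‖ * ‖f‖ := h2
    _ ≤ 1 * ‖f‖ := by gcongr
    _ = _ := one_mul _

/-- A linear relation between the conjugates of two vectors passes to the parts at the identity. -/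
theorem rel_limit (hΛ : ∀ s : Λ, s ≠ 1 → Set.Infinite {y : Λ | ∃ h, y = h * s * h⁻¹})
    (A B : Ell2 (Λ × Λ × Λ) →L[ℂ] Ell2 (Λ × Λ × Λ)) (u w : Ell2 (Λ × Λ × Λ))
    (h : ∀ s : Λ, A (cs s u) = B (cs s w)) : u 1 • A (dl 1) = w 1 • B (dl 1) := by
  set V0 : Ell2 (Bool × (Λ × Λ × Λ)) := tv (dl true) u + tv (dl false) w with hV0
  have hsl : sl V0 true = u ∧ sl V0 false = w := by
    constructor
    · rw [hV0, sl_add, sl_tv, sl_tv, dl_self, dl_ne (by decide), one_smul, zero_smul, add_zero]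
    · rw [hV0, sl_add, sl_tv, sl_tv, dl_self, dl_ne (by decide), one_smul, zero_smul, zero_add]
  set C : Λ → Ell2 (Bool × (Λ × Λ × Λ)) →L[ℂ] Ell2 (Bool × (Λ × Λ × Λ)) :=
    fun s => ampR Bool (cs s) with hC
  have hCsl : ∀ s v b, sl (C s v) b = cs s (sl v b) := fun s v b => sl_ampR _ _ _
  have hCm : ∀ s t v, C s (C t v) = C (s * t) v := by
    intro s t v
    apply ext_inner_dl
    rintro ⟨b, x⟩
    have h1 : sl (C s (C t v)) b = sl (C (s * t) v) b := by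
      rw [hCsl, hCsl, hCsl, cs_mul]; rfl
    exact congrArg (fun z : Ell2 (Λ × Λ × Λ) => z x) h1
  set S := hull (Set.range fun s => C s V0) with hS
  obtain ⟨ω, hω, hfix⟩ := Vale.Agent.P092.H108.exists_min_fixed
    (K := closure S) ⟨_, subset_closure (subset_hull _ ⟨1, rfl⟩)⟩ isClosed_closure
      (Cvx.real (cvx_hull _).closure)
  have hCS : ∀ s, ∀ v ∈ S, C s v ∈ S := by
    intro s v hv
    have hcv : Cvx {v | C s v ∈ S} := by
      intro x hx y hy a b ha hb hab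
      change C s ((a : ℂ) • x + (b : ℂ) • y) ∈ S
      rw [map_add, map_smul, map_smul]
      exact cvx_hull _ _ hx _ hy a b ha hb hab
    refine hull_subset hcv ?_ hv
    rintro _ ⟨t, rfl⟩
    change C s (C t V0) ∈ S
    rw [hCm]
    exact subset_hull _ ⟨s * t, rfl⟩
  have hfix' : ∀ s, C s ω = ω := fun s => hfix (C s)
    (fun v _ => norm_ampR_le _ (fun v => (cs_norm s v).le) v)
    (fun v hv => map_mem_closure (C s).continuous hv (hCS s))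
  -- the relation
  have hrel : A (sl ω true) = B (sl ω false) := by
    have hcl : IsClosed {v : Ell2 (Bool × (Λ × Λ × Λ)) |
        A (slL (Λ × Λ × Λ) true v) = B (slL (Λ × Λ × Λ) false v)} :=
      isClosed_eq (by fun_prop) (by fun_prop)
    have : S ⊆ {v : Ell2 (Bool × (Λ × Λ × Λ)) |
        A (slL (Λ × Λ × Λ) true v) = B (slL (Λ × Λ × Λ) false v)} := by
      refine hull_subset ?_ ?_
      · intro x hx y hy a b ha hb hab
        have hx' : A (slL (Λ × Λ × Λ) true x) = B (slL (Λ × Λ × Λ) false x) := hx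
        have hy' : A (slL (Λ × Λ × Λ) true y) = B (slL (Λ × Λ × Λ) false y) := hy
        change A (slL (Λ × Λ × Λ) true ((a : ℂ) • x + (b : ℂ) • y)) =
          B (slL (Λ × Λ × Λ) false ((a : ℂ) • x + (b : ℂ) • y))
        simp only [map_add, map_smul, hx', hy']
      · rintro _ ⟨s, rfl⟩
        change A (sl (C s V0) true) = B (sl (C s V0) false)
        rw [hCsl, hCsl, hsl.1, hsl.2, h]
    exact closure_minimal this hcl hω
  have hval : ∀ b : Bool, sl ω b 1 = V0 (b, 1) := by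
    intro b
    have hcl : IsClosed {v : Ell2 (Bool × (Λ × Λ × Λ)) |
        ⟪(dl (b, 1) : Ell2 (Bool × (Λ × Λ × Λ))), v⟫_ℂ = V0 (b, 1)} :=
      isClosed_eq (by fun_prop) continuous_const
    have : S ⊆ {v : Ell2 (Bool × (Λ × Λ × Λ)) |
        ⟪(dl (b, 1) : Ell2 (Bool × (Λ × Λ × Λ))), v⟫_ℂ = V0 (b, 1)} := by
      refine hull_subset ?_ ?_
      · intro x hx y hy a c ha hc hac
        have hx' : ⟪(dl (b, 1) : Ell2 (Bool × (Λ × Λ × Λ))), x⟫_ℂ = V0 (b, 1) := hx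
        have hy' : ⟪(dl (b, 1) : Ell2 (Bool × (Λ × Λ × Λ))), y⟫_ℂ = V0 (b, 1) := hy
        change ⟪(dl (b, 1) : Ell2 (Bool × (Λ × Λ × Λ))), (a : ℂ) • x + (c : ℂ) • y⟫_ℂ = _
        rw [inner_add_right, inner_smul_right, inner_smul_right, hx', hy', ← add_mul,
          ← Complex.ofReal_add, hac, Complex.ofReal_one, one_mul]
      · rintro _ ⟨s, rfl⟩
        change ⟪(dl (b, 1) : Ell2 (Bool × (Λ × Λ × Λ))), C s V0⟫_ℂ = V0 (b, 1)
        rw [inner_dl]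
        change sl (C s V0) b 1 = sl V0 b 1
        rw [hCsl, cs_apply, mul_one, inv_mul_cancel]
    have h1 := closure_minimal this hcl hω
    have h2 : ⟪(dl (b, 1) : Ell2 (Bool × (Λ × Λ × Λ))), ω⟫_ℂ = V0 (b, 1) := h1
    rw [inner_dl] at h2
    exact h2
  have hoff : ∀ b : Bool, sl ω b = V0 (b, 1) • dl 1 := by
    intro b
    have hf : ∀ s, cs s (sl ω b) = sl ω b := fun s => by rw [← hCsl, hfix']
    apply ext_inner_dl
    intro x
    change _ = V0 (b, 1) * (dl 1 : Ell2 (Λ × Λ × Λ)) x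
    by_cases hx : x = 1
    · rw [hx, dl_self, mul_one, hval]
    · rw [dl_ne hx, mul_zero]
      refine Vale.Agent.P092.H108.eq_zero_of_infinite (sl ω b) _ _ (ι3_icc hΛ x hx) ?_
      rintro _ ⟨s, rfl⟩
      have h1 := congrArg (fun z : Ell2 (Λ × Λ × Λ) => z x) (hf s⁻¹)
      simp only [cs_apply] at h1
      rw [← h1, map_inv, inv_inv]
  have hV0v : V0 (true, 1) = u 1 ∧ V0 (false, 1) = w 1 :=
    ⟨congrArg (fun z : Ell2 (Λ × Λ × Λ) => z 1) hsl.1,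
      congrArg (fun z : Ell2 (Λ × Λ × Λ) => z 1) hsl.2⟩
  rw [hoff, hoff, hV0v.1, hV0v.2, map_smul, map_smul] at hrel
  exact hrel

theorem T0_coord (v : Ell2 Λ) (s : Λ) : T0 Λ v (s, s, s) = v s := by
  rw [← T0_adj_apply]
  have h : adjoint (T0 Λ) ∘L T0 Λ = ContinuousLinearMap.id ℂ _ := opOf_isometry orth_diag
  have h2 : adjoint (T0 Λ) (T0 Λ v) = v :=
    congrArg (fun L : Ell2 Λ →L[ℂ] Ell2 Λ => L v) h
  rw [h2]

variable {α : Γ → (Ell2 Λ →L[ℂ] Ell2 Λ)}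

theorem p_coord (hα : CF α) : (α 1 (dl 1) : Ell2 Λ) 1 = ((‖α 1 (dl 1)‖ ^ 2 : ℝ) : ℂ) := by
  rw [← inner_dl]
  have h1 : ⟪(dl 1 : Ell2 Λ), α 1 (dl 1)⟫_ℂ = ⟪α 1 (dl 1), α 1 (dl 1)⟫_ℂ := by
    rw [← adjoint_inner_right, hα.one_adj, ← mul_ap, hα.one_mul]
  rw [h1, inner_self_eq_norm_sq_to_K]
  push_cast
  rfl

theorem norm_A3o_dl (a : Ell2 Λ →L[ℂ] Ell2 Λ) : ‖A3o a (dl 1)‖ = ‖a (dl 1)‖ ^ 3 := by
  rw [A3o_dl, norm_tv, norm_tv, norm_cj]; ring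

/-- For a corner of trace in `(0,1)` there is no intertwiner. -/
theorem no_intertwiner (hα : CF α)
    (hΛ : ∀ s : Λ, s ≠ 1 → Set.Infinite {y : Λ | ∃ h, y = h * s * h⁻¹})
    (hgen : ∀ y : Ell2 (Λ × Λ × Λ) →L[ℂ] Ell2 (Λ × Λ × Λ), Cmm rhoH y →
      (∀ g, y * Do (α g) = Do (α g) * y) →
      ∀ s : Λ, y * Do (α 1 * lam s * α 1) = Do (α 1 * lam s * α 1) * y)
    (h0 : 0 < ‖α 1 (dl 1)‖) (h1 : ‖α 1 (dl 1)‖ < 1)
    {T : Ell2 (Λ × Λ × Λ) →L[ℂ] Ell2 (Λ × Λ × Λ)} (hT : Cmm rhoH T)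
    (hTα : ∀ g, A3o (α g) * T = T * Do (α g)) (hTD : T * Do (α 1) = T) : T (dl 1) = 0 := by
  by_contra hne
  set D := Do (α 1) with hD
  have hDD : D * D = D := by rw [hD, ← Do_mul, hα.one_mul]
  have hDa : adjoint D = D := by rw [hD, Do_adj, hα.one_adj]
  have hDc : Cmm rhoH D := Do_cmm (hα.cmm 1)
  have hTa := regRep_rho.cmm_adjoint hT
  set y := adjoint T * T with hy
  have hyc : Cmm rhoH y := hTa.mul hT
  have hTα' : ∀ g, Do (α g) * adjoint T = adjoint T * A3o (α g) := by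
    intro g
    have h2 := congrArg adjoint (hTα g⁻¹)
    rw [← star_eq_adjoint, ← star_eq_adjoint, star_mul, star_mul, star_eq_adjoint,
      star_eq_adjoint, star_eq_adjoint, A3o_adj, Do_adj, hα.adj, inv_inv] at h2
    exact h2.symm
  have hyα : ∀ g, y * Do (α g) = Do (α g) * y := by
    intro g
    rw [hy, mul_assoc, ← hTα, ← mul_assoc, ← hTα', mul_assoc]
  have hyD : y * D = y := by rw [hy, mul_assoc, hTD]
  have hDy : D * y = y := by rw [hD, ← hyα 1, ← hD, hyD]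
  have hrel : ∀ s : Λ, y * lam (ι3 s) * D = D * lam (ι3 s) * y := by
    intro s
    have h2 := hgen y hyc hyα s
    rw [Do_mul, Do_mul, Do_lam, ← hD] at h2
    calc y * lam (ι3 s) * D = (y * D) * lam (ι3 s) * D := by rw [hyD]
      _ = y * (D * lam (ι3 s) * D) := by simp only [mul_assoc]
      _ = D * lam (ι3 s) * D * y := h2
      _ = D * lam (ι3 s) * (D * y) := by simp only [mul_assoc]
      _ = _ := by rw [hDy]
  have hvec : ∀ s : Λ, y (cs s (D (dl 1))) = D (cs s (y (dl 1))) := by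
    intro s
    have e1 : ∀ A : Ell2 (Λ × Λ × Λ) →L[ℂ] Ell2 (Λ × Λ × Λ), Cmm rhoH A →
        cs s (A (dl 1)) = lam (ι3 s) (A (dl (ι3 s)⁻¹)) := by
      intro A hA
      change lam (ι3 s) (rho (ι3 s) (A (dl 1))) = _
      have h3 := hA.apply (ι3 s) (dl 1)
      rw [rhoH_apply, rho_dl, one_mul] at h3
      rw [h3]
    rw [e1 D hDc, e1 y hyc]
    exact congrArg (fun L : Ell2 (Λ × Λ × Λ) →L[ℂ] Ell2 (Λ × Λ × Λ) => L (dl (ι3 s)⁻¹)) (hrel s)
  have hlim := rel_limit hΛ y D _ _ hvec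
  -- the coefficients
  set r : ℝ := ‖α 1 (dl 1)‖ with hr
  set t : ℝ := ‖T (dl 1)‖ with ht
  have ht0 : 0 < t := norm_pos_iff.mpr hne
  have hu1 : (D (dl 1) : Ell2 (Λ × Λ × Λ)) 1 = ((r ^ 2 : ℝ) : ℂ) := by
    rw [hD, Do_dl]
    have h2 := T0_coord (α 1 (dl 1)) 1
    rw [p_coord hα] at h2
    exact h2
  have hw1 : (y (dl 1) : Ell2 (Λ × Λ × Λ)) 1 = ((t ^ 2 : ℝ) : ℂ) := by
    rw [← inner_dl, hy, mul_ap, adjoint_inner_right, inner_self_eq_norm_sq_to_K, ← ht]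
    push_cast
    rfl
  rw [hu1, hw1] at hlim
  have hr0 : ((r ^ 2 : ℝ) : ℂ) ≠ 0 := by
    have : (r ^ 2 : ℝ) ≠ 0 := by positivity
    exact_mod_cast this
  set κ : ℝ := t ^ 2 / r ^ 2 with hκ
  have hyκ : y = (κ : ℂ) • D := by
    refine regRep_rho.ext_cmm hyc (hDc.smul _) ?_
    change y (dl 1) = (κ : ℂ) • D (dl 1)
    have h2 : ((r ^ 2 : ℝ) : ℂ) • y (dl 1) = ((r ^ 2 : ℝ) : ℂ) • (κ : ℂ) • D (dl 1) := by
      rw [hlim, smul_smul]
      congr 1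
      rw [hκ, ← Complex.ofReal_mul]
      congr 1
      field_simp
    exact smul_right_injective _ hr0 h2
  set q := T * adjoint T with hq
  have hqq : q * q = (κ : ℂ) • q := by
    calc q * q = T * (adjoint T * T) * adjoint T := by rw [hq]; simp only [mul_assoc]
      _ = T * ((κ : ℂ) • D) * adjoint T := by rw [← hy, hyκ]
      _ = (κ : ℂ) • (T * D * adjoint T) := by rw [mul_smul_comm, smul_mul_assoc]
      _ = _ := by rw [hTD]
  have hqa : adjoint q = q := by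
    rw [hq, ← star_eq_adjoint, star_mul, star_eq_adjoint, star_eq_adjoint, adjoint_adjoint]
  have hq1 : ⟪(dl 1 : Ell2 (Λ × Λ × Λ)), q (dl 1)⟫_ℂ = ((t ^ 2 : ℝ) : ℂ) := by
    rw [hq, mul_ap, ← adjoint_inner_left, inner_self_eq_norm_sq_to_K]
    have h2 : ‖adjoint T (dl 1)‖ = t := regRep_rho.norm_adjoint hT
    rw [h2]
    push_cast
    rfl
  have hq2 : ‖q (dl 1)‖ ^ 2 = κ * t ^ 2 := by
    have h2 : ⟪q (dl 1), q (dl 1)⟫_ℂ = ((κ * t ^ 2 : ℝ) : ℂ) := by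
      have h3 : ⟪q (dl 1), q (dl 1)⟫_ℂ = ⟪(dl 1 : Ell2 (Λ × Λ × Λ)), (q * q) (dl 1)⟫_ℂ := by
        have h4 := adjoint_inner_left q (q (dl 1)) (dl 1)
        rw [hqa] at h4
        exact h4
      rw [h3, hqq]
      change ⟪(dl 1 : Ell2 (Λ × Λ × Λ)), (κ : ℂ) • q (dl 1)⟫_ℂ = _
      rw [inner_smul_right, hq1]
      push_cast
      rfl
    rw [inner_self_eq_norm_sq_to_K] at h2
    have h4 : ((‖q (dl 1)‖ ^ 2 : ℝ) : ℂ) = ((κ * t ^ 2 : ℝ) : ℂ) := by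
      rw [← h2, Complex.ofReal_pow]; rfl
    exact Complex.ofReal_injective h4
  have hPq : A3o (α 1) * q = q := by
    rw [hq, ← mul_assoc, hTα 1, ← hD, hTD]
  have hle : t ^ 2 ≤ r ^ 3 * ‖q (dl 1)‖ := by
    have h2 : ⟪(dl 1 : Ell2 (Λ × Λ × Λ)), q (dl 1)⟫_ℂ = ⟪A3o (α 1) (dl 1), q (dl 1)⟫_ℂ := by
      conv_lhs => rw [← hPq]
      rw [mul_ap, ← adjoint_inner_left, A3o_adj, hα.one_adj]
    have h3 : ‖⟪A3o (α 1) (dl 1), q (dl 1)⟫_ℂ‖ ≤ ‖A3o (α 1) (dl 1)‖ * ‖q (dl 1)‖ :=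
      norm_inner_le_norm _ _
    rw [← h2, hq1, norm_A3o_dl, Complex.norm_real, Real.norm_of_nonneg (by positivity)] at h3
    exact h3
  have hq3 : (r * ‖q (dl 1)‖) ^ 2 = (t ^ 2) ^ 2 := by
    rw [mul_pow, hq2, hκ]
    field_simp
  have hq4 : r * ‖q (dl 1)‖ = t ^ 2 :=
    (pow_left_inj₀ (by positivity) (by positivity) two_ne_zero).mp hq3
  have h5 : r ^ 3 * ‖q (dl 1)‖ = r ^ 2 * t ^ 2 := by rw [← hq4]; ring
  rw [h5] at hle
  have h6 : 0 < t ^ 2 := by positivity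
  have h7 : r ^ 2 < 1 := by nlinarith
  nlinarith

/-- The base vector is orthogonal to the invariant vectors. -/
theorem orth_corner (hα : CF α)
    (hΛ : ∀ s : Λ, s ≠ 1 → Set.Infinite {y : Λ | ∃ h, y = h * s * h⁻¹})
    (hgen : ∀ y : Ell2 (Λ × Λ × Λ) →L[ℂ] Ell2 (Λ × Λ × Λ), Cmm rhoH y →
      (∀ g, y * Do (α g) = Do (α g) * y) →
      ∀ s : Λ, y * Do (α 1 * lam s * α 1) = Do (α 1 * lam s * α 1) * y)
    (h0 : 0 < ‖α 1 (dl 1)‖) (h1 : ‖α 1 (dl 1)‖ < 1) :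
    ∀ η : Ell2 (Λ × Λ × Λ), (∀ g, ph hα g η = η) → ⟪η, x0 α⟫_ℂ = 0 := by
  intro η hη
  obtain ⟨T, hTc, hTα, hTD, hTη⟩ := exists_minC hα
  rw [← hTη η hη, no_intertwiner hα hΛ hgen h0 h1 hTc hTα hTD, inner_zero_right]

end Vale.Agent.P092.H051
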