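import Vale.Agent.P092.H051.StCorner
import Vale.Agent.P092.H051.Small

/-!
Corners, part 4: the corner as a von Neumann algebra on the range of `p`, and the trace.
-/

set_option linter.all false

open scoped InnerProductSpace
open Filter Topology ContinuousLinearMap

namespace Vale.Agent.P092.H051

open Vale.Agent.P092.H160 Vale.Agent.P092.H885

section kp

variable {H : Type} [NormedAddCommGroup H] [InnerProductSpace ℂ H] [CompleteSpace H]

/-- the range of the projection `p` -/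
def Kp (p : H →L[ℂ] H) : Submodule ℂ H := LinearMap.ker ((1 - p : H →L[ℂ] H) : H →ₗ[ℂ] H)

theorem mem_Kp {p : H →L[ℂ] H} {v : H} : v ∈ Kp p ↔ p v = v := by
  rw [Kp, LinearMap.mem_ker]
  change v - p v = 0 ↔ _
  rw [sub_eq_zero, eq_comm]

instance (p : H →L[ℂ] H) : CompleteSpace (Kp p) :=
  IsClosed.completeSpace_coe (s := (Kp p : Set H)) (hs := by
    have : (Kp p : Set H) = {v | p v = v} := by
      ext v; exact mem_Kp
    rw [this]
    exact isClosed_eq (by fun_prop) continuous_id)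

variable {p : H →L[ℂ] H}

noncomputable def inc (p : H →L[ℂ] H) : Kp p →L[ℂ] H := (Kp p).subtypeL

theorem inc_apply (w : Kp p) : inc p w = (w : H) := rfl

noncomputable def prj (hp : p * p = p) : H →L[ℂ] Kp p :=
  p.codRestrict (Kp p) fun v => mem_Kp.mpr (congrArg (fun L : H →L[ℂ] H => L v) hp)

theorem prj_apply (hp : p * p = p) (v : H) : ((prj hp v : Kp p) : H) = p v := rfl

theorem prj_inc (hp : p * p = p) (w : Kp p) : prj hp (inc p w) = w :=
  Subtype.ext (mem_Kp.mp w.2)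

theorem inc_prj (hp : p * p = p) (v : H) : inc p (prj hp v) = p v := rfl

/-- compression to the range -/
noncomputable def cmp (hp : p * p = p) (b : H →L[ℂ] H) : Kp p →L[ℂ] Kp p :=
  prj hp ∘L b ∘L inc p

/-- extension by zero -/
noncomputable def expd (hp : p * p = p) (x : Kp p →L[ℂ] Kp p) : H →L[ℂ] H :=
  inc p ∘L x ∘L prj hp

theorem cmp_apply (hp : p * p = p) (b : H →L[ℂ] H) (w : Kp p) :
    ((cmp hp b w : Kp p) : H) = p (b w) := rfl

theorem expd_apply (hp : p * p = p) (x : Kp p →L[ℂ] Kp p) (v : H) :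
    expd hp x v = ((x (prj hp v) : Kp p) : H) := rfl

theorem cmp_expd (hp : p * p = p) (x : Kp p →L[ℂ] Kp p) : cmp hp (expd hp x) = x := by
  ext1 w
  apply Subtype.ext
  rw [cmp_apply, expd_apply]
  have : prj hp (w : H) = w := prj_inc hp w
  rw [this]
  exact mem_Kp.mp (x w).2

theorem expd_cmp (hp : p * p = p) (b : H →L[ℂ] H) : expd hp (cmp hp b) = p * b * p := by
  ext1 v
  rfl

theorem expd_mul (hp : p * p = p) (x y : Kp p →L[ℂ] Kp p) :
    expd hp (x * y) = expd hp x * expd hp y := by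
  ext1 v
  rw [mul_ap, expd_apply, expd_apply, expd_apply]
  have : prj hp ((y (prj hp v) : Kp p) : H) = y (prj hp v) := prj_inc hp _
  rw [this]
  rfl

theorem cmp_mul (hp : p * p = p) {a b : H →L[ℂ] H} (hb : p * b = b) :
    cmp hp (a * b) = cmp hp a * cmp hp b := by
  ext1 w
  apply Subtype.ext
  change p (a (b w)) = p (a (p (b w)))
  have : p (b w) = b w := congrArg (fun L : H →L[ℂ] H => L w) hb
  rw [this]

theorem padj (hpa : adjoint p = p) (v w : H) : ⟪p v, w⟫_ℂ = ⟪v, p w⟫_ℂ := by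
  have h := adjoint_inner_left p w v
  rw [hpa] at h
  exact h

theorem adj_inc (hp : p * p = p) (hpa : adjoint p = p) : adjoint (inc p) = prj hp := by
  rw [eq_comm, ContinuousLinearMap.eq_adjoint_iff]
  intro v w
  change ⟪p v, (w : H)⟫_ℂ = ⟪v, (w : H)⟫_ℂ
  rw [padj hpa, mem_Kp.mp w.2]

theorem adj_prj (hp : p * p = p) (hpa : adjoint p = p) : adjoint (prj hp) = inc p := by
  rw [← adj_inc hp hpa, adjoint_adjoint]

theorem expd_adj (hp : p * p = p) (hpa : adjoint p = p) (x : Kp p →L[ℂ] Kp p) :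
    expd hp (adjoint x) = adjoint (expd hp x) := by
  rw [expd, expd, adjoint_comp, adjoint_comp, adj_inc hp hpa, adj_prj hp hpa]
  rfl

theorem cmp_adj (hp : p * p = p) (hpa : adjoint p = p) (b : H →L[ℂ] H) :
    cmp hp (adjoint b) = adjoint (cmp hp b) := by
  rw [cmp, cmp, adjoint_comp, adjoint_comp, adj_inc hp hpa, adj_prj hp hpa]
  rfl

end kp

variable {Γ Λ : Type} [Group Γ] [Group Λ]

/-- the corner as a von Neumann algebra on the range of `p` -/
noncomputable def NN {p : Ell2 Λ →L[ℂ] Ell2 Λ} (hp : p * p = p) :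
    StarSubalgebra ℂ (Kp p →L[ℂ] Kp p) :=
  StarSubalgebra.centralizer ℂ (StarSubalgebra.centralizer ℂ
    {x : Kp p →L[ℂ] Kp p | Cmm rhoH (expd hp x)} : Set (Kp p →L[ℂ] Kp p))

theorem dc_NN {p : Ell2 Λ →L[ℂ] Ell2 Λ} (hp : p * p = p) : Vale.Agent.P092.H108.DC (NN hp) :=
  ⟨_, rfl⟩

theorem mem_NN {p : Ell2 Λ →L[ℂ] Ell2 Λ} (hp : p * p = p) (hpa : adjoint p = p)
    (hpc : Cmm rhoH p) {x : Kp p →L[ℂ] Kp p} : x ∈ NN hp ↔ Cmm rhoH (expd hp x) := by
  constructor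
  · intro hx s
    rw [NN, StarSubalgebra.mem_centralizer_iff] at hx
    set R : Λ → (Kp p →L[ℂ] Kp p) := fun s => cmp hp (rho s) with hR
    have hpr : ∀ s, p * rho s = rho s * p := fun s => hpc s
    have hRS : ∀ s, ∀ z : Kp p →L[ℂ] Kp p, Cmm rhoH (expd hp z) → z * R s = R s * z := by
      intro s z hz
      ext1 w
      apply Subtype.ext
      have h1 := hz s
      rw [rhoH_apply] at h1
      have h2 := congrArg (fun L : Ell2 Λ →L[ℂ] Ell2 Λ => L w) h1
      change expd hp z (rho s w) = rho s (expd hp z w) at h2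
      rw [expd_apply, expd_apply] at h2
      have h3 : prj hp (w : Ell2 Λ) = w := prj_inc hp w
      rw [h3] at h2
      change ((z (prj hp (rho s w)) : Kp p) : Ell2 Λ) = p (rho s (z w))
      rw [h2]
      have h4 : p (rho s (z w)) = rho s (p (z w)) :=
        congrArg (fun L : Ell2 Λ →L[ℂ] Ell2 Λ => L (z w)) (hpr s)
      rw [h4, mem_Kp.mp (z w).2]
    have hRmem : R s ∈ StarSubalgebra.centralizer ℂ
        {x : Kp p →L[ℂ] Kp p | Cmm rhoH (expd hp x)} := by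
      rw [StarSubalgebra.mem_centralizer_iff]
      intro z hz
      refine ⟨hRS s z hz, ?_⟩
      refine hRS s (star z) ?_
      rw [star_eq_adjoint, expd_adj hp hpa]
      exact regRep_rho.cmm_adjoint hz
    have h1 := (hx (R s) hRmem).1
    rw [rhoH_apply]
    ext1 v
    have h2 := congrArg (fun L : Kp p →L[ℂ] Kp p => ((L (prj hp v) : Kp p) : Ell2 Λ)) h1
    change p (rho s (x (prj hp v))) = ((x (R s (prj hp v)) : Kp p) : Ell2 Λ) at h2
    change ((x (prj hp (rho s v)) : Kp p) : Ell2 Λ) = rho s (x (prj hp v))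
    have h3 : R s (prj hp v) = prj hp (rho s v) := by
      apply Subtype.ext
      change p (rho s (p v)) = p (rho s v)
      have h4 : rho s (p v) = p (rho s v) :=
        (congrArg (fun L : Ell2 Λ →L[ℂ] Ell2 Λ => L v) (hpr s)).symm
      rw [h4]
      exact congrArg (fun L : Ell2 Λ →L[ℂ] Ell2 Λ => L (rho s v)) hp
    have h5 : p (rho s (x (prj hp v))) = rho s (p (x (prj hp v))) :=
      congrArg (fun L : Ell2 Λ →L[ℂ] Ell2 Λ => L (x (prj hp v))) (hpr s)
    rw [h3, h5, mem_Kp.mp (x (prj hp v)).2] at h2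
    exact h2.symm
  · intro hx
    rw [NN, StarSubalgebra.mem_centralizer_iff]
    intro y hy
    have hy' : y ∈ StarSubalgebra.centralizer ℂ
        {x : Kp p →L[ℂ] Kp p | Cmm rhoH (expd hp x)} := hy
    have hys : star y ∈ StarSubalgebra.centralizer ℂ
        {x : Kp p →L[ℂ] Kp p | Cmm rhoH (expd hp x)} := star_mem hy'
    rw [StarSubalgebra.mem_centralizer_iff] at hy' hys
    exact ⟨((hy' x hx).1).symm, ((hys x hx).1).symm⟩

section iso

variable {p : Ell2 Λ →L[ℂ] Ell2 Λ} (θ : St.CornerIso Γ Λ p)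

include θ in
theorem pp : p * p = p := θ.proj_sq
include θ in
theorem pa : adjoint p = p := ((isAdj_iff _ _).mp θ.proj_adj).symm
include θ in
theorem pc : Cmm rhoH p := cmm_rho_of_mem ((inL_iff _).mp θ.proj_mem)

theorem th_corner (T : LG Γ) : p * θ.toFun T * p = θ.toFun T :=
  θ.map_corner _ ((inL_iff _).mpr T.2)

theorem th_left (T : LG Γ) : p * θ.toFun T = θ.toFun T := by
  rw [← th_corner θ T, ← mul_assoc, ← mul_assoc, pp θ]

theorem th_right (T : LG Γ) : θ.toFun T * p = θ.toFun T := by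
  rw [← th_corner θ T, mul_assoc, pp θ]

theorem th_cmm (T : LG Γ) : Cmm rhoH (θ.toFun T) :=
  cmm_rho_of_mem ((inL_iff _).mp (θ.map_mem _ ((inL_iff _).mpr T.2)))

theorem th_mul (S T : LG Γ) : θ.toFun (S * T : LG Γ) = θ.toFun S * θ.toFun T :=
  θ.map_mul _ _ ((inL_iff _).mpr S.2) ((inL_iff _).mpr T.2)

theorem th_add (S T : LG Γ) : θ.toFun (S + T : LG Γ) = θ.toFun S + θ.toFun T :=
  θ.map_add _ _ ((inL_iff _).mpr S.2) ((inL_iff _).mpr T.2)

theorem th_smul (c : ℂ) (T : LG Γ) : θ.toFun (c • T : LG Γ) = c • θ.toFun T :=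
  (isSmul_iff _ _ _).mp (θ.map_smul c _ _ ((inL_iff _).mpr T.2)
    ((inL_iff _).mpr (c • T).2) ((isSmul_iff _ _ _).mpr rfl))

theorem th_star (T : LG Γ) : θ.toFun (star T : LG Γ) = adjoint (θ.toFun T) :=
  (isAdj_iff _ _).mp (θ.map_adj _ _ ((inL_iff _).mpr T.2)
    ((inL_iff _).mpr (star T).2) ((isAdj_iff _ _).mpr rfl))

/-- `θ` as an isomorphism onto the von Neumann algebra `NN`. -/
noncomputable def thN : LG Γ ≃⋆ₐ[ℂ] NN (pp θ) where
  toFun T := ⟨cmp (pp θ) (θ.toFun T), (mem_NN (pp θ) (pa θ) (pc θ)).mpr (by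
    rw [expd_cmp, th_corner]; exact th_cmm θ T)⟩
  invFun x := ⟨θ.invFun (expd (pp θ) x), (inL_iff _).mp (θ.inv_mem _
    ((inL_iff _).mpr (mem_LG_of_cmm ((mem_NN (pp θ) (pa θ) (pc θ)).mp x.2))) (by
      change p * expd (pp θ) x * p = expd (pp θ) x
      rw [← expd_cmp (pp θ), cmp_expd]))⟩
  left_inv T := Subtype.ext (by
    change θ.invFun (expd (pp θ) (cmp (pp θ) (θ.toFun T))) = T
    rw [expd_cmp, th_corner]
    exact θ.left_inv _ ((inL_iff _).mpr T.2))
  right_inv x := Subtype.ext (by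
    change cmp (pp θ) (θ.toFun (θ.invFun (expd (pp θ) x))) = x
    have h1 : θ.toFun (θ.invFun (expd (pp θ) x)) = expd (pp θ) x := by
      refine θ.right_inv _ ((inL_iff _).mpr
        (mem_LG_of_cmm ((mem_NN (pp θ) (pa θ) (pc θ)).mp x.2))) ?_
      change p * expd (pp θ) x * p = expd (pp θ) x
      rw [← expd_cmp (pp θ), cmp_expd]
    rw [h1, cmp_expd])
  map_mul' S T := Subtype.ext (by
    change cmp (pp θ) (θ.toFun (S * T : LG Γ)) = cmp (pp θ) (θ.toFun S) * cmp (pp θ) (θ.toFun T)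
    rw [th_mul, cmp_mul (pp θ) (th_left θ T)])
  map_add' S T := Subtype.ext (by
    change cmp (pp θ) (θ.toFun (S + T : LG Γ)) = cmp (pp θ) (θ.toFun S) + cmp (pp θ) (θ.toFun T)
    rw [th_add]
    ext1 w
    apply Subtype.ext
    change p (θ.toFun S w + θ.toFun T w) = p (θ.toFun S w) + p (θ.toFun T w)
    rw [map_add])
  map_star' T := Subtype.ext (by
    change cmp (pp θ) (θ.toFun (star T : LG Γ)) = star (cmp (pp θ) (θ.toFun T))
    rw [th_star, cmp_adj (pp θ) (pa θ)]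
    rfl)
  map_smul' c T := Subtype.ext (by
    change cmp (pp θ) (θ.toFun (c • T : LG Γ)) = c • cmp (pp θ) (θ.toFun T)
    rw [th_smul]
    ext1 w
    apply Subtype.ext
    change p (c • θ.toFun T w) = c • p (θ.toFun T w)
    rw [map_smul])

theorem thN_apply (T : LG Γ) (w : Kp p) :
    (((thN θ T : NN (pp θ)) : Kp p →L[ℂ] Kp p) w : Ell2 Λ) = θ.toFun T w := by
  change p (θ.toFun T w) = θ.toFun T w
  exact congrArg (fun L : Ell2 Λ →L[ℂ] Ell2 Λ => L w) (th_left θ T)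

theorem th_one : θ.toFun (1 : LG Γ) = p := by
  obtain ⟨x, hx⟩ : ∃ x : LG Γ, θ.toFun x = p := by
    have hc : St.mul (St.mul p p) p = p := by
      change p * p * p = p
      rw [pp θ, pp θ]
    exact ⟨⟨θ.invFun p, (inL_iff _).mp (θ.inv_mem _ θ.proj_mem hc)⟩,
      θ.right_inv _ θ.proj_mem hc⟩
  have h1 : θ.toFun (1 * x : LG Γ) = θ.toFun (1 : LG Γ) * θ.toFun x := th_mul θ 1 x
  rw [one_mul, hx, th_right] at h1
  exact h1.symm

/-- the trace vector -/
noncomputable def fv (p : Ell2 Λ →L[ℂ] Ell2 Λ) (hp : p * p = p) : Kp p := prj hp (dl 1)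

theorem tr_zero (hΓ : ∀ g : Γ, g ≠ 1 → Set.Infinite {y : Γ | ∃ h, y = h * g * h⁻¹})
    (h0 : 0 < ‖p (dl 1)‖) (T : LG Γ)
    (h1 : ‖(T : Ell2 Γ →L[ℂ] Ell2 Γ)‖ ≤ 1) (hT : tr T = 0) :
    ⟪(dl 1 : Ell2 Λ), θ.toFun T (dl 1)⟫_ℂ = 0 := by
  set r : ℝ := ‖p (dl 1)‖ with hr
  set f : Kp p := ((r⁻¹ : ℝ) : ℂ) • fv p (pp θ) with hf
  have hfn : ‖f‖ = 1 := by
    have h2 : ‖fv p (pp θ)‖ = r := rfl
    rw [hf, norm_smul, h2, Complex.norm_real, Real.norm_of_nonneg (by positivity)]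
    field_simp
  have hin : ∀ x : Kp p →L[ℂ] Kp p, inner ℂ f (x f) =
      ((r⁻¹ : ℝ) : ℂ) * (((r⁻¹ : ℝ) : ℂ) * ⟪(dl 1 : Ell2 Λ), expd (pp θ) x (dl 1)⟫_ℂ) := by
    intro x
    rw [hf, map_smul, inner_smul_left, inner_smul_right, Complex.conj_ofReal]
    congr 2
    change ⟪p (dl 1), ((x (prj (pp θ) (dl 1)) : Kp p) : Ell2 Λ)⟫_ℂ =
      ⟪(dl 1 : Ell2 Λ), ((x (prj (pp θ) (dl 1)) : Kp p) : Ell2 Λ)⟫_ℂ
    rw [padj (pa θ), mem_Kp.mp (x (prj (pp θ) (dl 1))).2]
  have key := Vale.Agent.P092.H108.trace_aux (M := LG Γ) (N := NN (pp θ))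
    Vale.Agent.P092.H108.dc_LG (dc_NN (pp θ)) (thN θ) (dl 1)
    (fun T hT h => Vale.Agent.P092.H108.eq_zero_of_dl hT h) f hfn
    (G := Γ) uu Vale.Agent.P092.H108.star_uu_mul (fun g h => uu_mul g h)
    (fun g x => lam g (rho g x))
    (fun g => (lam g).continuous.comp (rho g).continuous)
    (fun g x => le_of_eq ((norm_rei _ _).trans (norm_rei _ _))) (fun g y => ?_)
    (fun ζ hζ hζ1 => Vale.Agent.P092.H108.fixed_eq_zero hΓ hζ ((inner_dl 1 ζ).symm.trans hζ1))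
    (fun x y => ?_) T h1 (fun g => ?_)
  · rw [hin] at key
    have h3 : expd (pp θ) ((thN θ T : NN (pp θ)) : Kp p →L[ℂ] Kp p) = θ.toFun T := by
      change expd (pp θ) (cmp (pp θ) (θ.toFun T)) = _
      rw [expd_cmp, th_corner]
    rw [h3] at key
    have h4 : ((r⁻¹ : ℝ) : ℂ) ≠ 0 := by
      have : (r⁻¹ : ℝ) ≠ 0 := by positivity
      exact_mod_cast this
    rcases mul_eq_zero.mp key with h | h
    · exact absurd h h4
    · rcases mul_eq_zero.mp h with h | h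
      · exact absurd h h4
      · exact h
  · change lam g (rho g ((y : Ell2 Γ →L[ℂ] Ell2 Γ) (dl 1))) =
      lam g ((y : Ell2 Γ →L[ℂ] Ell2 Γ) ((star (lam g) : Ell2 Γ →L[ℂ] Ell2 Γ) (dl 1)))
    have h3 : (y : Ell2 Γ →L[ℂ] Ell2 Γ) (rho g (dl 1)) =
      rho g ((y : Ell2 Γ →L[ℂ] Ell2 Γ) (dl 1)) :=
        DFunLike.congr_fun (Vale.Agent.P092.H108.mem_LG_rho y.2 g) _
    rw [star_lam, ← h3, rho_dl, lam_dl, one_mul, mul_one]
  · have e1 : ∀ x y : NN (pp θ), inner ℂ f (((x * y : NN (pp θ)) : Kp p →L[ℂ] Kp p) f) =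
        ((r⁻¹ : ℝ) : ℂ) * (((r⁻¹ : ℝ) : ℂ) *
          ⟪(dl 1 : Ell2 Λ), expd (pp θ) x (expd (pp θ) y (dl 1))⟫_ℂ) := by
      intro x y
      rw [hin]
      change _ * (_ * ⟪(dl 1 : Ell2 Λ), expd (pp θ) ((x : Kp p →L[ℂ] Kp p) *
        (y : Kp p →L[ℂ] Kp p)) (dl 1)⟫_ℂ) = _
      rw [expd_mul]
      rfl
    rw [e1, e1, regRep_rho.trace_comm ((mem_NN (pp θ) (pa θ) (pc θ)).mp x.2)
      ((mem_NN (pp θ) (pa θ) (pc θ)).mp y.2)]
  · change tr (uu g * T * star (uu g)) = 0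
    rw [Vale.Agent.P092.H108.tr_comm, ← mul_assoc, Vale.Agent.P092.H108.star_uu_mul, one_mul, hT]

end iso

end Vale.Agent.P092.H051
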