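import Vale.Agent.P092.H051.MOps

/-!
Matrix corners, part 2: if the trace of `p` is larger than one, there is no intertwiner.
-/

set_option linter.all false

open scoped InnerProductSpace
open Filter Topology ContinuousLinearMap

namespace Vale.Agent.P092.H051

open Vale.Agent.P092.H160 Vale.Agent.P092.H885

variable {ι Γ Λ : Type} [Fintype ι] [Group Γ] [Group Λ]

theorem cj_sub {X : Type} (u v : Ell2 X) : cj (u - v) = cj u - cj v := by
  apply ext_inner_dl; intro x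
  change (starRingEnd ℂ) (u x - v x) = (starRingEnd ℂ) (u x) - (starRingEnd ℂ) (v x)
  rw [map_sub]

theorem cj_cont {X : Type} : Continuous (cj : Ell2 X → Ell2 X) := by
  have : Isometry (cj : Ell2 X → Ell2 X) := by
    refine Isometry.of_dist_eq fun u v => ?_
    rw [dist_eq_norm, dist_eq_norm, ← cj_sub, norm_cj]
  exact this.continuous

/-! ### the inner products of the operators `B3` -/

theorem inner_B3 (a b c a' b' c' : Ell2 (ι × Λ) →L[ℂ] Ell2 (ι × Λ)) :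
    ⟪hv (B3 a b c), hv (B3 a' b' c')⟫_ℂ =
      ⟪hv a, hv a'⟫_ℂ * (⟪hv b', hv b⟫_ℂ * ⟪hv c, hv c'⟫_ℂ) := by
  rw [hv_inner, hv_inner, hv_inner, hv_inner, Fintype.sum_prod_type]
  simp only [Fintype.sum_prod_type]
  rw [Finset.sum_mul]
  refine Finset.sum_congr rfl fun i _ => ?_
  rw [Finset.sum_mul, Finset.mul_sum]
  refine Finset.sum_congr rfl fun j _ => ?_
  rw [Finset.mul_sum, Finset.mul_sum]
  refine Finset.sum_congr rfl fun k _ => ?_
  have e1 : ∀ a b c : Ell2 (ι × Λ) →L[ℂ] Ell2 (ι × Λ), B3 a b c (dl ((i, j, k), (1 : L3 Λ))) =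
      rei (e3 ι Λ) (tv (a (dl (i, 1))) (tv (cj (b (dl (j, 1)))) (c (dl (k, 1))))) :=
    fun a b c => B3_dl a b c i j k 1 1 1
  rw [e1, e1, inner_rei, inner_tv, inner_tv, inner_cj]

variable {α : Γ → (Ell2 (ι × Λ) →L[ℂ] Ell2 (ι × Λ))}

theorem inner_al (hα : CFm α) (g h : Γ) :
    ⟪hv (α g), hv (α h)⟫_ℂ = ⟪hv (α 1), hv (α (g⁻¹ * h))⟫_ℂ := by
  rw [hv_inner, hv_inner]
  refine Finset.sum_congr rfl fun i _ => ?_
  have e1 : α h (dl (i, 1)) = α g (α (g⁻¹ * h) (dl (i, 1))) ∨ True := Or.inr trivial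
  have h1 : ⟪α g (dl (i, 1)), α h (dl (i, 1))⟫_ℂ =
      ⟪(dl (i, 1) : Ell2 (ι × Λ)), α (g⁻¹ * h) (dl (i, 1))⟫_ℂ := by
    rw [← adjoint_inner_right, hα.adj, ← mul_ap, ← hα.mul]
  have h2 : ⟪α 1 (dl (i, 1)), α (g⁻¹ * h) (dl (i, 1))⟫_ℂ =
      ⟪(dl (i, 1) : Ell2 (ι × Λ)), α (g⁻¹ * h) (dl (i, 1))⟫_ℂ := by
    rw [← adjoint_inner_right, hα.one_adj, ← mul_ap, hα.one_mul]
  rw [h1, h2]

/-- the vectors `α(g) ⊗ conj α(h) ⊗ α(k)` -/
noncomputable def bb (α : Γ → (Ell2 (ι × Λ) →L[ℂ] Ell2 (ι × Λ))) (x : Γ × Γ × Γ) :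
    Ell2 (J3 ι × L3 Λ) →L[ℂ] Ell2 (J3 ι × L3 Λ) := B3 (α x.1) (α x.2.1) (α x.2.2)

theorem bb_Hm (hα : CFm α) (x : Γ × Γ × Γ) : Hm (bb α x) :=
  B3_Hm (hα.hm _) (hα.hm _) (hα.hm _)

theorem bb_mul (hα : CFm α) (x y : Γ × Γ × Γ) : bb α (x * y) = bb α x * bb α y := by
  rw [bb, bb, bb, ← B3_mul, ← hα.mul, ← hα.mul, ← hα.mul]
  rfl

theorem bb_orth (hα : CFm α) (htr : ∀ g : Γ, g ≠ 1 → ⟪hv (α 1), hv (α g)⟫_ℂ = 0)
    {x y : Γ × Γ × Γ} (hne : x ≠ y) : ⟪hv (bb α x), hv (bb α y)⟫_ℂ = 0 := by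
  have h0 : ∀ g h : Γ, g ≠ h → ⟪hv (α g), hv (α h)⟫_ℂ = 0 := fun g h hgh => by
    rw [inner_al hα, htr _ (fun h1 => hgh (inv_mul_eq_one.mp h1))]
  rw [bb, bb, inner_B3]
  by_cases h1 : x.1 = y.1
  · by_cases h2 : x.2.1 = y.2.1
    · by_cases h3 : x.2.2 = y.2.2
      · exact absurd (Prod.ext h1 (Prod.ext h2 h3)) hne
      · rw [h0 _ _ h3, mul_zero, mul_zero]
    · rw [h0 _ _ (Ne.symm h2), zero_mul, mul_zero]
  · rw [h0 _ _ h1, zero_mul]

theorem bb_norm (hα : CFm α) (x : Γ × Γ × Γ) :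
    ⟪hv (bb α x), hv (bb α x)⟫_ℂ = (((‖hv (α 1)‖ ^ 2) ^ 3 : ℝ) : ℂ) := by
  have h0 : ∀ g : Γ, ⟪hv (α g), hv (α g)⟫_ℂ = ((‖hv (α 1)‖ ^ 2 : ℝ) : ℂ) := fun g => by
    rw [inner_al hα, inv_mul_cancel, inner_self_eq_norm_sq_to_K]
    push_cast
    rfl
  rw [bb, inner_B3, h0, h0, h0]
  push_cast
  ring

/-! ### the trilinear form -/

noncomputable def Ps (ρ : Ell2 (J3 ι × (J3 ι × L3 Λ))) (u v w : Ell2 (ι × (ι × Λ))) : ℂ :=
  ∑ x : J3 ι, ⟪rei (e3 ι Λ) (tv (slL (ι × Λ) x.1 u) (tv (cj (slL (ι × Λ) x.2.1 v))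
    (slL (ι × Λ) x.2.2 w))), sl ρ x⟫_ℂ

theorem Ps_hv (r : Ell2 (J3 ι × L3 Λ) →L[ℂ] Ell2 (J3 ι × L3 Λ))
    (a b c : Ell2 (ι × Λ) →L[ℂ] Ell2 (ι × Λ)) :
    Ps (hv r) (hv a) (hv b) (hv c) = ⟪hv (B3 a b c), hv r⟫_ℂ := by
  rw [Ps, hv_inner]
  refine Finset.sum_congr rfl fun x _ => ?_
  obtain ⟨i, j, k⟩ := x
  rw [slL_apply, slL_apply, slL_apply, sl_hv, sl_hv, sl_hv, sl_hv]
  congr 1
  exact (B3_dl a b c i j k 1 1 1).symm

noncomputable def Z1 (ρ : Ell2 (J3 ι × (J3 ι × L3 Λ))) (v w : Ell2 (ι × (ι × Λ))) :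
    Submodule ℂ (Ell2 (ι × (ι × Λ))) where
  carrier := {u | Ps ρ u v w = 0}
  add_mem' := fun {a b} ha hb => by
    have ha' : Ps ρ a v w = 0 := ha
    have hb' : Ps ρ b v w = 0 := hb
    change Ps ρ (a + b) v w = 0
    have h : Ps ρ (a + b) v w = Ps ρ a v w + Ps ρ b v w := by
      rw [Ps, Ps, Ps, ← Finset.sum_add_distrib]
      refine Finset.sum_congr rfl fun x _ => ?_
      rw [map_add, tv_add_left, map_add, inner_add_left]
    rw [h, ha', hb', add_zero]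
  zero_mem' := by
    change Ps ρ 0 v w = 0
    rw [Ps]
    refine Finset.sum_eq_zero fun x _ => ?_
    rw [map_zero, tv_zero_left, map_zero, inner_zero_left]
  smul_mem' := fun c u hu => by
    have hu' : Ps ρ u v w = 0 := hu
    change Ps ρ (c • u) v w = 0
    have : Ps ρ (c • u) v w = (starRingEnd ℂ) c * Ps ρ u v w := by
      rw [Ps, Ps, Finset.mul_sum]
      refine Finset.sum_congr rfl fun x _ => ?_
      rw [map_smul, tv_smul_left, map_smul, inner_smul_left]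
    rw [this, hu', mul_zero]

theorem Z1_closed (ρ : Ell2 (J3 ι × (J3 ι × L3 Λ))) (v w : Ell2 (ι × (ι × Λ))) :
    IsClosed (Z1 ρ v w : Set (Ell2 (ι × (ι × Λ)))) := by
  have : (Z1 ρ v w : Set (Ell2 (ι × (ι × Λ)))) = {u | ∑ x : J3 ι, ⟪rei (e3 ι Λ)
      (tvl (tv (cj (slL (ι × Λ) x.2.1 v)) (slL (ι × Λ) x.2.2 w))
        (slL (ι × Λ) x.1 u)), sl ρ x⟫_ℂ = 0} := rfl
  rw [this]
  exact isClosed_eq (by fun_prop) continuous_const

noncomputable def Z2 (ρ : Ell2 (J3 ι × (J3 ι × L3 Λ))) (u w : Ell2 (ι × (ι × Λ))) :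
    Submodule ℂ (Ell2 (ι × (ι × Λ))) where
  carrier := {v | Ps ρ u v w = 0}
  add_mem' := fun {a b} ha hb => by
    have ha' : Ps ρ u a w = 0 := ha
    have hb' : Ps ρ u b w = 0 := hb
    change Ps ρ u (a + b) w = 0
    have h : Ps ρ u (a + b) w = Ps ρ u a w + Ps ρ u b w := by
      rw [Ps, Ps, Ps, ← Finset.sum_add_distrib]
      refine Finset.sum_congr rfl fun x _ => ?_
      rw [map_add, cj_add, tv_add_left, tv_add_right, map_add, inner_add_left]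
    rw [h, ha', hb', add_zero]
  zero_mem' := by
    change Ps ρ u 0 w = 0
    rw [Ps]
    refine Finset.sum_eq_zero fun x _ => ?_
    have h0 : cj (0 : Ell2 (ι × Λ)) = 0 := by
      have := cj_smul (0 : ℂ) (0 : Ell2 (ι × Λ))
      simpa using this
    rw [map_zero, h0, tv_zero_left, tv_zero_right, map_zero, inner_zero_left]
  smul_mem' := fun c v hv => by
    have hv' : Ps ρ u v w = 0 := hv
    change Ps ρ u (c • v) w = 0
    have : Ps ρ u (c • v) w = c * Ps ρ u v w := by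
      rw [Ps, Ps, Finset.mul_sum]
      refine Finset.sum_congr rfl fun x _ => ?_
      rw [map_smul, cj_smul, tv_smul_left, tv_smul_right, map_smul, inner_smul_left,
        Complex.conj_conj]
    rw [this, hv', mul_zero]

theorem Z2_closed (ρ : Ell2 (J3 ι × (J3 ι × L3 Λ))) (u w : Ell2 (ι × (ι × Λ))) :
    IsClosed (Z2 ρ u w : Set (Ell2 (ι × (ι × Λ)))) := by
  have : (Z2 ρ u w : Set (Ell2 (ι × (ι × Λ)))) = {v | ∑ x : J3 ι, ⟪rei (e3 ι Λ)
      (tvr (slL (ι × Λ) x.1 u) (tvl (slL (ι × Λ) x.2.2 w)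
        (cj (slL (ι × Λ) x.2.1 v)))), sl ρ x⟫_ℂ = 0} := rfl
  rw [this]
  refine isClosed_eq ?_ continuous_const
  refine continuous_finsetSum _ fun x _ => ?_
  have h1 : Continuous fun v : Ell2 (ι × (ι × Λ)) => cj (slL (ι × Λ) x.2.1 v) :=
    cj_cont.comp (slL (ι × Λ) x.2.1).continuous
  fun_prop

noncomputable def Z3 (ρ : Ell2 (J3 ι × (J3 ι × L3 Λ))) (u v : Ell2 (ι × (ι × Λ))) :
    Submodule ℂ (Ell2 (ι × (ι × Λ))) where
  carrier := {w | Ps ρ u v w = 0}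
  add_mem' := fun {a b} ha hb => by
    have ha' : Ps ρ u v a = 0 := ha
    have hb' : Ps ρ u v b = 0 := hb
    change Ps ρ u v (a + b) = 0
    have h : Ps ρ u v (a + b) = Ps ρ u v a + Ps ρ u v b := by
      rw [Ps, Ps, Ps, ← Finset.sum_add_distrib]
      refine Finset.sum_congr rfl fun x _ => ?_
      rw [map_add, tv_add_right, tv_add_right, map_add, inner_add_left]
    rw [h, ha', hb', add_zero]
  zero_mem' := by
    change Ps ρ u v 0 = 0
    rw [Ps]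
    refine Finset.sum_eq_zero fun x _ => ?_
    rw [map_zero, tv_zero_right, tv_zero_right, map_zero, inner_zero_left]
  smul_mem' := fun c w hw => by
    have hw' : Ps ρ u v w = 0 := hw
    change Ps ρ u v (c • w) = 0
    have : Ps ρ u v (c • w) = (starRingEnd ℂ) c * Ps ρ u v w := by
      rw [Ps, Ps, Finset.mul_sum]
      refine Finset.sum_congr rfl fun x _ => ?_
      rw [map_smul, tv_smul_right, tv_smul_right, map_smul, inner_smul_left]
    rw [this, hw', mul_zero]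

theorem Z3_closed (ρ : Ell2 (J3 ι × (J3 ι × L3 Λ))) (u v : Ell2 (ι × (ι × Λ))) :
    IsClosed (Z3 ρ u v : Set (Ell2 (ι × (ι × Λ)))) := by
  have : (Z3 ρ u v : Set (Ell2 (ι × (ι × Λ)))) = {w | ∑ x : J3 ι, ⟪rei (e3 ι Λ)
      (tvr (slL (ι × Λ) x.1 u) (tvr (cj (slL (ι × Λ) x.2.1 v))
        (slL (ι × Λ) x.2.2 w))), sl ρ x⟫_ℂ = 0} := rfl
  rw [this]
  exact isClosed_eq (by fun_prop) continuous_const

/-! ### elementary operators -/

noncomputable def El (i i' : ι) (s : Λ) : Ell2 (ι × Λ) →L[ℂ] Ell2 (ι × Λ) :=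
  tens ((innerSL ℂ (dl i : Ell2 ι)).smulRight (dl i')) (lam s)

omit [Fintype ι] in
theorem El_dl (i i' : ι) (s : Λ) (j : ι) (x : Λ) :
    El i i' s (dl (j, x)) = (dl j : Ell2 ι) i • dl (i', s * x) := by
  rw [El, tens_dl, lam_dl]
  change tv (⟪(dl i : Ell2 ι), dl j⟫_ℂ • (dl i' : Ell2 ι)) (dl (s * x)) = _
  rw [inner_dl, tv_smul_left, ← dl_prod]

omit [Fintype ι] in
theorem El_Hm (i i' : ι) (s : Λ) : Hm (El i i' s) := by
  intro t
  apply op_ext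
  rintro ⟨j, x⟩
  rw [comp_apply, comp_apply, rr_dl, El_dl, El_dl, map_smul, rr_dl, mul_assoc]

/-- An operator orthogonal to all the `B3 E E' E''` is zero. -/
theorem zero_of_El {r : Ell2 (J3 ι × L3 Λ) →L[ℂ] Ell2 (J3 ι × L3 Λ)} (hr : Hm r)
    (h : ∀ a b c : Ell2 (ι × Λ) →L[ℂ] Ell2 (ι × Λ), Hm a → Hm b → Hm c →
      ⟪hv (B3 a b c), hv r⟫_ℂ = 0) : r = 0 := by
  classical
  refine hr.ext (fun s => by rw [zero_comp, comp_zero]) ?_
  rintro ⟨i, j, k⟩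
  rw [ContinuousLinearMap.zero_apply]
  refine eq_zero_of_inner_dl ?_
  rintro ⟨⟨i', j', k'⟩, ⟨x, y, z⟩⟩
  have h1 := h (El i i' x) (El j j' y) (El k k' z) (El_Hm _ _ _) (El_Hm _ _ _) (El_Hm _ _ _)
  rw [hv_inner, Finset.sum_eq_single (i, j, k)] at h1
  · have e1 : B3 (El i i' x) (El j j' y) (El k k' z) (dl ((i, j, k), (1 : L3 Λ))) =
        dl ((i', j', k'), (x, y, z)) := by
      refine (B3_dl _ _ _ i j k 1 1 1).trans ?_
      rw [El_dl, El_dl, El_dl, dl_self, dl_self, dl_self, one_smul, one_smul, one_smul, cj_dl,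
        ← dl_prod, ← dl_prod, rei_dl, mul_one, mul_one, mul_one]
      rfl
    rw [e1, inner_dl] at h1
    exact h1
  · rintro ⟨a, b, c⟩ _ hne
    have e1 : B3 (El i i' x) (El j j' y) (El k k' z) (dl ((a, b, c), (1 : L3 Λ))) = 0 := by
      refine (B3_dl _ _ _ a b c 1 1 1).trans ?_
      rw [El_dl, El_dl, El_dl]
      by_cases h1 : i = a
      · by_cases h2 : j = b
        · by_cases h3 : k = c
          · exact absurd (by rw [h1, h2, h3]) hne
          · rw [dl_ne (x := c) (y := k) h3, zero_smul, tv_zero_right, tv_zero_right, map_zero]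
        · rw [dl_ne (x := b) (y := j) h2, zero_smul]
          have h0 : cj (0 : Ell2 (ι × Λ)) = 0 := by
            have := cj_smul (0 : ℂ) (0 : Ell2 (ι × Λ))
            simpa using this
          rw [h0, tv_zero_left, tv_zero_right, map_zero]
      · rw [dl_ne (x := a) (y := i) h1, zero_smul, tv_zero_left, map_zero]
    rw [e1, inner_zero_left]
  · intro h2; exact absurd (Finset.mem_univ _) h2

end Vale.Agent.P092.H051
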