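import Vale.Agent.P092.H051.MKp
import Vale.Agent.P092.H051.Corner

/-!
Matrix corners, part 5: the decay for isomorphisms of `L(Γ)` onto a corner of trace larger than one.
-/

set_option linter.all false

open scoped InnerProductSpace
open Filter Topology ContinuousLinearMap

namespace Vale.Agent.P092.H051

open Vale.Agent.P092.H160 Vale.Agent.P092.H885

section gapv

variable {Γ : Type} [Group Γ] {H : Type} [NormedAddCommGroup H] [InnerProductSpace ℂ H]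
    [CompleteSpace H] {π : Γ →* (H →L[ℂ] H)}

variable (hπ : ∀ g, adjoint (π g) = π g⁻¹)

include hπ

theorem gap_one2 {Q : Finset Γ} {ε : ℝ} (hε : 0 ≤ ε) {ξ : H}
    (gap : ∃ s ∈ Q, ε * ‖ξ‖ ≤ ‖π s ξ - ξ‖) :
    ∃ s ∈ Q, (⟪ξ, π s ξ⟫_ℂ).re ≤ (1 - ε ^ 2 / 2) * ‖ξ‖ ^ 2 := by
  obtain ⟨s, hs, h2⟩ := gap
  refine ⟨s, hs, ?_⟩
  have h3 := norm_sub_sq (𝕜 := ℂ) (π s ξ) ξ
  rw [u_norm hπ] at h3
  have h4 : (⟪π s ξ, ξ⟫_ℂ).re = (⟪ξ, π s ξ⟫_ℂ).re := by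
    rw [← inner_conj_symm, Complex.conj_re]
  have h5 : ‖π s ξ - ξ‖ ^ 2 = ‖ξ‖ ^ 2 - 2 * (⟪π s ξ, ξ⟫_ℂ).re + ‖ξ‖ ^ 2 := h3
  have h6 : (ε * ‖ξ‖) ^ 2 ≤ ‖π s ξ - ξ‖ ^ 2 := pow_le_pow_left₀ (by positivity) h2 2
  rw [h5, h4] at h6
  nlinarith

theorem gap_coeff2 {Q : Finset Γ} {ε : ℝ} (hε : 0 ≤ ε) (hQ : Q.Nonempty) (K : Submodule ℂ H)
    (hK : ∀ g, ∀ v ∈ K, π g v ∈ K) (gap : ∀ v ∈ K, ∃ s ∈ Q, ε * ‖v‖ ≤ ‖π s v - v‖) {ξ : H}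
    (hξ : ξ ∈ K) (a b : Γ) (n : ℕ) :
    (avg Q)^[n] (fun g => (⟪ξ, π (a * g * b) ξ⟫_ℂ).re) 1 ≤
      (1 - ε ^ 2 / (4 * Q.card)) ^ n * ‖ξ‖ ^ 2 := by
  have hg := gap_norm hπ hε hQ K hK gap (hK b ξ hξ) n
  rw [u_norm hπ] at hg
  rw [avg_translate hπ]
  calc _ ≤ ‖⟪π a⁻¹ ξ, (av π Q)^[n] (π b ξ)⟫_ℂ‖ := Complex.re_le_norm _
    _ ≤ ‖π a⁻¹ ξ‖ * ‖(av π Q)^[n] (π b ξ)‖ := norm_inner_le_norm _ _
    _ ≤ ‖ξ‖ * ((1 - ε ^ 2 / (4 * Q.card)) ^ n * ‖ξ‖) := by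
        rw [u_norm hπ]
        gcongr
    _ = _ := by ring

end gapv

variable {Γ Λ : Type} [Group Γ] [Group Λ] {m : ℕ} {p : Ell2 (Fin m × Λ) →L[ℂ] Ell2 (Fin m × Λ)}

theorem rtM_eq (s : Λ) : St.rtM m s = ampR (Fin m) (rho s⁻¹) := by
  apply op_ext
  rintro ⟨i, x⟩
  rw [rr_dl, inv_inv, St.rtM, rei_dl]
  rfl

theorem inM_iff (T : St.Op (Fin m × Λ)) : St.InM T ↔ Hm T := by
  constructor
  · intro h s
    have h1 := h s⁻¹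
    rw [rtM_eq, inv_inv] at h1
    exact h1
  · intro h s
    have h1 := h s⁻¹
    rw [← rtM_eq] at h1
    exact h1

/-- The internal form. -/
noncomputable def toM (θ : St.MCornerIso Γ Λ m p) : MIso (Fin m) Γ Λ p where
  f T := θ.toFun T
  fi a := by
    classical
    exact if h : Hm a ∧ p * a * p = a then
      ⟨θ.invFun a, (inL_iff _).mp (θ.inv_mem a ((inM_iff _).mpr h.1) h.2)⟩ else 0
  ph := (inM_iff _).mp θ.proj_mem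
  pp := θ.proj_sq
  pa := by
    have h := (ContinuousLinearMap.eq_adjoint_iff p p).mpr θ.proj_adj
    exact h.symm
  hm T := (inM_iff _).mp (θ.map_mem _ ((inL_iff _).mpr T.2))
  cor T := θ.map_corner _ ((inL_iff _).mpr T.2)
  li T := by
    have h : Hm (θ.toFun T) ∧ p * θ.toFun T * p = θ.toFun T :=
      ⟨(inM_iff _).mp (θ.map_mem _ ((inL_iff _).mpr T.2)), θ.map_corner _ ((inL_iff _).mpr T.2)⟩
    rw [dif_pos h]
    exact Subtype.ext (θ.left_inv _ ((inL_iff _).mpr T.2))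
  ri a h1 h2 := by
    rw [dif_pos ⟨h1, h2⟩]
    exact θ.right_inv _ ((inM_iff _).mpr h1) h2
  add S T := θ.map_add _ _ ((inL_iff _).mpr S.2) ((inL_iff _).mpr T.2)
  smul c T := by
    have h := θ.map_smul c _ _ ((inL_iff _).mpr T.2)
      ((inL_iff _).mpr (c • T).2) ((isSmul_iff _ _ _).mpr rfl)
    ext1 ξ
    exact h ξ
  mul S T := θ.map_mul _ _ ((inL_iff _).mpr S.2) ((inL_iff _).mpr T.2)
  star T := by
    have h := θ.map_adj _ _ ((inL_iff _).mpr T.2)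
      ((inL_iff _).mpr (star T).2) ((isAdj_iff _ _).mpr rfl)
    have h2 := (ContinuousLinearMap.eq_adjoint_iff _ _).mpr h
    rw [h2, adjoint_adjoint]

theorem trM_eq (θ : St.MCornerIso Γ Λ m p) : St.trM p = ((‖hv p‖ ^ 2 : ℝ) : ℂ) := by
  have h1 : St.trM p = ⟪hv (1 : Ell2 (Fin m × Λ) →L[ℂ] Ell2 (Fin m × Λ)), hv p⟫_ℂ := by
    rw [hv_inner]
    rfl
  have h2 : ampR (Fin m) p (hv (1 : Ell2 (Fin m × Λ) →L[ℂ] Ell2 (Fin m × Λ))) = hv p := by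
    rw [← hv_comp]; rfl
  rw [h1]
  have := inner_pg (p := ampR (Fin m) p) (hv (1 : Ell2 (Fin m × Λ) →L[ℂ] Ell2 (Fin m × Λ)))
    (p2p (toM θ)) (p2a (toM θ))
  rw [h2] at this
  exact this

theorem fourthM_eq (T : Ell2 (Fin m × Λ) →L[ℂ] Ell2 (Fin m × Λ)) :
    St.fourthM T = ∑ j, ∑' x, ‖(T (dl (j, 1)) : Ell2 (Fin m × Λ)) x‖ ^ 4 := by
  unfold St.fourthM
  refine Finset.sum_congr rfl fun j _ => ?_
  congr 1
  funext x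
  congr 2
  exact inner_dl x _

/-- the base vector -/
noncomputable def xM (θ : St.MCornerIso Γ Λ m p) : Ell2 (Fin m × (J3 (Fin m) × L3 Λ)) :=
  Pq (alM (toM θ)) 1 (hv (T0m (Fin m) Λ))

theorem fourth_xM (θ : St.MCornerIso Γ Λ m p) (g : Γ) :
    St.fourthM (θ.toFun (St.u g)) =
      (⟪xM θ, (Pq_rep (alM_cf (toM θ))).rep g (xM θ)⟫_ℂ).re := by
  rw [xM, (Pq_rep (alM_cf (toM θ))).coeff]
  have h1 := coeff_m (alM_cf (toM θ)) g⁻¹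
  rw [inv_inv] at h1
  have h2 : ⟪hv (T0m (Fin m) Λ), Pq (alM (toM θ)) g (hv (T0m (Fin m) Λ))⟫_ℂ =
      (starRingEnd ℂ) ⟪hv (T0m (Fin m) Λ), Pq (alM (toM θ)) g⁻¹ (hv (T0m (Fin m) Λ))⟫_ℂ := by
    rw [inner_conj_symm, ← (Pq_rep (alM_cf (toM θ))).adj, adjoint_inner_left]
  rw [h2, h1, Complex.conj_ofReal, Complex.ofReal_re, fourthM_eq]
  rfl

theorem th_u_one (θ : St.MCornerIso Γ Λ m p) : θ.toFun (St.u 1) = p := by
  have h1 := (toM θ).one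
  have h2 : (St.u (1 : Γ) : St.Op Γ) = ((1 : LG Γ) : Ell2 Γ →L[ℂ] Ell2 Γ) := lam_one
  rw [h2]
  exact h1

theorem norm_xM (θ : St.MCornerIso Γ Λ m p) : ‖xM θ‖ ^ 2 = St.fourthM p := by
  have h1 := fourth_xM θ 1
  rw [th_u_one, map_one] at h1
  rw [h1]
  change _ = (⟪xM θ, xM θ⟫_ℂ).re
  rw [inner_self_eq_norm_sq_to_K]
  have : ((‖xM θ‖ : ℂ)) ^ 2 = ((‖xM θ‖ ^ 2 : ℝ) : ℂ) := by push_cast; rfl
  change _ = (((‖xM θ‖ : ℂ)) ^ 2).re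
  rw [this, Complex.ofReal_re]

theorem xM_ne (θ : St.MCornerIso Γ Λ m p) (h0 : 0 < ‖hv p‖) : xM θ ≠ 0 := by
  intro hx
  have h1 := norm_xM θ
  rw [hx, norm_zero, fourthM_eq] at h1
  have hnn : ∀ j : Fin m, 0 ≤ ∑' x, ‖(p (dl (j, 1)) : Ell2 (Fin m × Λ)) x‖ ^ 4 :=
    fun j => tsum_nonneg fun _ => by positivity
  have h2 : ∑ j : Fin m, ∑' x, ‖(p (dl (j, 1)) : Ell2 (Fin m × Λ)) x‖ ^ 4 = 0 := by
    rw [← h1]; norm_num
  have h3 := (Finset.sum_eq_zero_iff_of_nonneg (fun j _ => hnn j)).mp h2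
  have h4 : hv p = 0 := by
    refine ext_sl fun j => ?_
    rw [sl_hv]
    have h5 := h3 j (Finset.mem_univ j)
    have hsum : Summable fun x => ‖(p (dl (j, 1)) : Ell2 (Fin m × Λ)) x‖ ^ 4 := by
      have h6 := summable_sq (p (dl (j, 1)))
      refine Summable.of_nonneg_of_le (fun _ => by positivity) (fun s => ?_)
        (h6.mul_left (‖p (dl (j, 1))‖ ^ 2))
      have h7 := norm_coord_le (p (dl (j, 1))) s
      calc ‖(p (dl (j, 1)) : Ell2 (Fin m × Λ)) s‖ ^ 4 =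
          ‖(p (dl (j, 1)) : Ell2 (Fin m × Λ)) s‖ ^ 2 *
            ‖(p (dl (j, 1)) : Ell2 (Fin m × Λ)) s‖ ^ 2 := by ring
        _ ≤ _ := by gcongr
    have h8 : p (dl (j, 1)) = 0 := by
      refine eq_zero_of_inner_dl fun x => ?_
      have h9 := hsum.le_tsum x (fun _ _ => by positivity)
      rw [h5] at h9
      have h10 : ‖(p (dl (j, 1)) : Ell2 (Fin m × Λ)) x‖ ^ 4 = 0 :=
        le_antisymm h9 (by positivity)
      exact norm_eq_zero.mp ((pow_eq_zero_iff four_ne_zero).mp h10)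
    rw [h8]; rfl
  rw [h4, norm_zero] at h0
  exact lt_irrefl _ h0

theorem norm_hv_gt (θ : St.MCornerIso Γ Λ m p) (hd : 1 < (St.trM p).re) : 1 < ‖hv p‖ := by
  rw [trM_eq θ, Complex.ofReal_re] at hd
  by_contra hle
  push Not at hle
  have : ‖hv p‖ ^ 2 ≤ 1 := pow_le_one₀ (norm_nonneg _) hle
  linarith

theorem fin_of_gt {p : Ell2 (Fin m × Λ) →L[ℂ] Ell2 (Fin m × Λ)} (h : 1 < ‖hv p‖) :
    Nonempty (Fin m) := by
  by_contra hne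
  rw [not_nonempty_iff] at hne
  have : hv p = 0 := by
    refine ext_sl fun i => (hne.false i).elim
  rw [this, norm_zero] at h
  linarith

theorem orth_xM (hΓ : ∀ g : Γ, g ≠ 1 → Set.Infinite {y : Γ | ∃ h, y = h * g * h⁻¹})
    (θ : St.MCornerIso Γ Λ m p) (hd : 1 < (St.trM p).re) :
    ∀ η, (∀ g, (Pq_rep (alM_cf (toM θ))).rep g η = η) → ⟪η, xM θ⟫_ℂ = 0 := by
  have h1 := norm_hv_gt θ hd
  obtain ⟨i₀⟩ := fin_of_gt h1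
  exact orthM (toM θ) i₀ hΓ h1

theorem mcorner_gap (hΓ : ∀ g : Γ, g ≠ 1 → Set.Infinite {y : Γ | ∃ h, y = h * g * h⁻¹})
    (θ : St.MCornerIso Γ Λ m p) (hd : 1 < (St.trM p).re) {Q : Finset Γ} {ε : ℝ} (hε : 0 ≤ ε)
    (hgap : ∀ {H : Type} [NormedAddCommGroup H] [InnerProductSpace ℂ H] [CompleteSpace H]
      (π : Γ →* (H →L[ℂ] H)), (∀ g, adjoint (π g) = π g⁻¹) → ∀ v ∈ (invSub π)ᗮ, v ≠ 0 →
      ∃ s ∈ Q, ε * ‖v‖ ≤ ‖π s v - v‖) :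
    (∃ s ∈ Q, St.fourthM (θ.toFun (St.u s)) ≤ (1 - ε ^ 2 / 2) * St.fourthM p) ∧
      ∀ (a b : Γ) (k : ℕ),
      (avg Q)^[k] (fun g => St.fourthM (θ.toFun (St.u (a * g * b)))) 1 ≤
        (1 - ε ^ 2 / (4 * Q.card)) ^ k * St.fourthM p := by
  have h0 : 0 < ‖hv p‖ := lt_trans zero_lt_one (norm_hv_gt θ hd)
  have hq := Pq_rep (alM_cf (toM θ))
  have hπ := hq.rep_adj
  have horth := orth_xM hΓ θ hd
  have hmem : xM θ ∈ (invSub hq.rep)ᗮ :=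
    (Submodule.mem_orthogonal _ _).mpr fun η hη => horth η hη
  have hne := hgap hq.rep hπ _ hmem (xM_ne θ h0)
  obtain ⟨t, ht, -⟩ := id hne
  have hgap' : ∀ v ∈ (invSub hq.rep)ᗮ, ∃ s ∈ Q, ε * ‖v‖ ≤ ‖hq.rep s v - v‖ := by
    intro v hv
    rcases eq_or_ne v 0 with rfl | hv0
    · exact ⟨t, ht, by rw [norm_zero, mul_zero]; exact norm_nonneg _⟩
    · exact hgap hq.rep hπ v hv hv0
  have hF := fourth_xM θ
  simp only [hF, ← norm_xM θ]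
  exact ⟨gap_one2 hπ hε hne, fun a b k =>
    gap_coeff2 hπ hε ⟨t, ht⟩ _ (fun g v hv => orth_map hπ g hv) hgap' hmem a b k⟩

theorem mcorner_kazhdan (hΓ : ∀ g : Γ, g ≠ 1 → Set.Infinite {y : Γ | ∃ h, y = h * g * h⁻¹})
    (θ : St.MCornerIso Γ Λ m p) (hd : 1 < (St.trM p).re) {Q : Finset Γ} {ε : ℝ}
    (hK : IsKazhdanPair Γ Q ε) :
    (∃ s ∈ Q, St.fourthM (θ.toFun (St.u s)) ≤ (1 - ε ^ 2 / 2) * St.fourthM p) ∧
      ∀ (a b : Γ) (k : ℕ),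
      (avg Q)^[k] (fun g => St.fourthM (θ.toFun (St.u (a * g * b)))) 1 ≤
        (1 - ε ^ 2 / (4 * Q.card)) ^ k * St.fourthM p :=
  mcorner_gap hΓ θ hd hK.1.le (fun π hπ v hv _ => kazhdan_moves hπ hK hv)

theorem mcorner_soft (hΓ : ∀ g : Γ, g ≠ 1 → Set.Infinite {y : Γ | ∃ h, y = h * g * h⁻¹})
    (θ : St.MCornerIso Γ Λ m p) (hd : 1 < (St.trM p).re) {Q : Finset Γ} (hQ : Q.Nonempty)
    (hgen : Subgroup.closure (Q : Set Γ) = ⊤) (a b : Γ) :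
    Tendsto (fun k : ℕ => (avg Q)^[k] (fun g => St.fourthM (θ.toFun (St.u (a * g * b)))) 1)
      atTop (𝓝 0) := by
  simp only [fourth_xM θ]
  exact soft_coeff (Pq_rep (alM_cf (toM θ))).rep_adj hQ hgen (orth_xM hΓ θ hd) a b

theorem mcorner_gen (hΓ : ∀ g : Γ, g ≠ 1 → Set.Infinite {y : Γ | ∃ h, y = h * g * h⁻¹})
    {Q₀ : Finset Γ} {ε₀ : ℝ} (hK : IsKazhdanPair Γ Q₀ ε₀) {Q : Finset Γ} (hQ : Q.Nonempty)
    (hgen : Subgroup.closure (Q : Set Γ) = ⊤) :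
    ∃ δ : ℝ, 0 < δ ∧ δ < 1 ∧ ∀ {Λ : Type} [Group Λ] {m : ℕ} {p : St.Op (Fin m × Λ)}
      (θ : St.MCornerIso Γ Λ m p), 1 < (St.trM p).re →
    (∃ s ∈ Q, St.fourthM (θ.toFun (St.u s)) ≤ (1 - δ) * St.fourthM p) ∧
      ∀ (a b : Γ) (k : ℕ),
      (avg Q)^[k] (fun g => St.fourthM (θ.toFun (St.u (a * g * b)))) 1 ≤
        (1 - δ) ^ k * St.fourthM p := by
  have hK1 := kazhdan_min hK
  obtain ⟨ε, hε, hε1, hgap⟩ := gap_of_gen hgen (Q₀ : Set Γ) Q₀.finite_toSet hK1.1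
    (min_le_right _ _)
  have hc : (1 : ℝ) ≤ Q.card := by exact_mod_cast hQ.card_pos
  have hε2 : ε ^ 2 ≤ 1 := pow_le_one₀ hε.le hε1
  have hle : ε ^ 2 / (4 * Q.card) ≤ ε ^ 2 / 2 := by
    gcongr
    linarith
  refine ⟨ε ^ 2 / (4 * Q.card), by positivity, ?_, fun {Λ} _ {m} {p} θ hd => ?_⟩
  · rw [div_lt_one (by positivity)]; nlinarith
  · obtain ⟨⟨s, hs, h5⟩, h6⟩ := mcorner_gap hΓ θ hd hε.le
      (fun π hπ v hv h0 => hgap π hπ v h0 (kazhdan_moves hπ hK1 hv))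
    have hnn : 0 ≤ St.fourthM p := by rw [← norm_xM θ]; positivity
    refine ⟨⟨s, hs, h5.trans ?_⟩, h6⟩
    gcongr

end Vale.Agent.P092.H051
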