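import Vale.Agent.P092.H051.MBig

/-!
Matrix corners, part 3: if the trace of `p` is larger than one, there is no intertwiner.
-/

set_option linter.all false

open scoped InnerProductSpace
open Filter Topology ContinuousLinearMap

namespace Vale.Agent.P092.H051

open Vale.Agent.P092.H160 Vale.Agent.P092.H885

variable {ι Γ Λ : Type} [Fintype ι] [Group Γ] [Group Λ]
variable {α : Γ → (Ell2 (ι × Λ) →L[ℂ] Ell2 (ι × Λ))}

/-- `⟪A B C, y⟫ = ⟪B, A* y C*⟫` -/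
theorem hv_move {A B C y : Ell2 (J3 ι × L3 Λ) →L[ℂ] Ell2 (J3 ι × L3 Λ)}
    (hA : Hm A) (hB : Hm B) (hC : Hm C) (hy : Hm y) :
    ⟪hv (A * B * C), hv y⟫_ℂ = ⟪hv B, hv (adjoint A * y * adjoint C)⟫_ℂ := by
  have e1 : hv (A * B * C) = ampR (J3 ι) A (hv (B * C)) := by
    rw [mul_assoc]; exact hv_comp A (B * C)
  have e2 : hv (B * C) = Rt (J3 ι) (adjoint C) (hv B) := by
    rw [Rt_hv hC.adj hB, adjoint_adjoint]; rfl
  have e3 : ampR (J3 ι) (adjoint A) (hv y) = hv (adjoint A * y) := (hv_comp _ _).symm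
  have e4 : Rt (J3 ι) C (hv (adjoint A * y)) = hv (adjoint A * y * adjoint C) :=
    Rt_hv hC (hA.adj.comp hy)
  rw [e1, ← adjoint_inner_right, ampR_adj, e3, e2, ← adjoint_inner_right, Rt_adj,
    adjoint_adjoint, e4]

/-- Operators which commute with all `α(g) ⊗ conj α(g) ⊗ α(g)` are scalar on the corner. -/
theorem scalar_of_comm (hα : CFm α)
    (hΓ : ∀ g : Γ, g ≠ 1 → Set.Infinite {y : Γ | ∃ h, y = h * g * h⁻¹})
    (htr : ∀ g : Γ, g ≠ 1 → ⟪hv (α 1), hv (α g)⟫_ℂ = 0) (h0 : 0 < ‖hv (α 1)‖)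
    (hdens : ∀ Z : Submodule ℂ (Ell2 (ι × (ι × Λ))), IsClosed (Z : Set (Ell2 (ι × (ι × Λ)))) →
      (∀ g, hv (α g) ∈ Z) → ∀ a, Hm a → α 1 * a * α 1 = a → hv a ∈ Z)
    {y : Ell2 (J3 ι × L3 Λ) →L[ℂ] Ell2 (J3 ι × L3 Λ)} (hy : Hm y)
    (hyc : ∀ g, Am α g * y = y * Am α g) (hyP : Am α 1 * y = y) :
    ∃ κ : ℂ, y = κ • Am α 1 := by
  classical
  have hA := Am_rep hα
  have hyP' : y * Am α 1 = y := by rw [← hyc, hyP]
  set r : ℝ := ‖hv (α 1)‖ with hr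
  set N : ℝ := (r ^ 2) ^ 3 with hN
  have hN0 : 0 < N := by positivity
  have hs0 : 0 < Real.sqrt N := Real.sqrt_pos.mpr hN0
  have hss : Real.sqrt N * Real.sqrt N = N := Real.mul_self_sqrt hN0.le
  set e : Γ × Γ × Γ → Ell2 (J3 ι × (J3 ι × L3 Λ)) :=
    fun x => (((Real.sqrt N)⁻¹ : ℝ) : ℂ) • hv (bb α x) with he
  have hortho : Orthonormal ℂ e := by
    refine ⟨fun x => ?_, fun x x' hne => ?_⟩
    · have h1 : ⟪e x, e x⟫_ℂ = 1 := by
        rw [he]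
        simp only
        rw [inner_smul_left, inner_smul_right, Complex.conj_ofReal, bb_norm hα,
          ← Complex.ofReal_mul, ← Complex.ofReal_mul, ← hr, ← hN]
        have : (Real.sqrt N)⁻¹ * ((Real.sqrt N)⁻¹ * N) = 1 := by
          rw [← mul_assoc, ← mul_inv, hss, inv_mul_cancel₀ hN0.ne']
        rw [this, Complex.ofReal_one]
      rw [inner_self_eq_norm_sq_to_K] at h1
      have h1' : ((‖e x‖ ^ 2 : ℝ) : ℂ) = ((1 : ℝ) : ℂ) := by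
        rw [Complex.ofReal_pow, Complex.ofReal_one]; exact h1
      have h2 : ‖e x‖ ^ 2 = 1 ^ 2 := by rw [one_pow]; exact Complex.ofReal_injective h1'
      exact (pow_left_inj₀ (norm_nonneg _) zero_le_one two_ne_zero).mp h2
    · change ⟪e x, e x'⟫_ℂ = 0
      rw [he]
      simp only
      rw [inner_smul_left, inner_smul_right, bb_orth hα htr hne, mul_zero, mul_zero]
  -- the coefficients
  set f : Γ × Γ × Γ → ℂ := fun x => ⟪e x, hv y⟫_ℂ with hf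
  have hsum : Summable fun x => ‖f x‖ ^ 2 := hortho.inner_products_summable (hv y)
  have hfe : ∀ x, f x = (((Real.sqrt N)⁻¹ : ℝ) : ℂ) * ⟪hv (bb α x), hv y⟫_ℂ := by
    intro x
    rw [hf, he]
    simp only
    rw [inner_smul_left, Complex.conj_ofReal]
  have hbb : ∀ g : Γ, bb α (ι3 g) = Am α g := fun g => rfl
  have hfc : ∀ (g : Γ) (x : Γ × Γ × Γ), f (ι3 g * x * (ι3 g)⁻¹) = f x := by
    intro g x
    rw [hfe, hfe]
    congr 1
    rw [bb_mul hα, bb_mul hα, ← map_inv, hbb, hbb,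
      hv_move (Am_Hm hα g) (bb_Hm hα x) (Am_Hm hα g⁻¹) hy]
    congr 2
    rw [hA.adj, hA.adj, inv_inv, hyc, mul_assoc, hA.inv_mul, hyP']
  have hf0 : ∀ x : Γ × Γ × Γ, x ≠ 1 → f x = 0 := by
    intro x hx
    refine Vale.Agent.P092.H108.eq_zero_of_infinite (mk2 f hsum) _ _ (ι3_icc hΓ x hx) ?_
    rintro _ ⟨s, rfl⟩
    rw [mk2_apply, hfc]
  have hg0 : ∀ x : Γ × Γ × Γ, x ≠ 1 → ⟪hv (bb α x), hv y⟫_ℂ = 0 := by
    intro x hx
    have h1 := hf0 x hx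
    rw [hfe] at h1
    rcases mul_eq_zero.mp h1 with h2 | h2
    · exact absurd (Complex.ofReal_eq_zero.mp h2) (inv_ne_zero hs0.ne')
    · exact h2
  set κ : ℂ := ⟪hv (bb α 1), hv y⟫_ℂ / (N : ℂ) with hκ
  have hN0' : (N : ℂ) ≠ 0 := by exact_mod_cast hN0.ne'
  have hb1 : bb α 1 = Am α 1 := rfl
  refine ⟨κ, ?_⟩
  set q := y + (-κ) • Am α 1 with hq
  have hqH : Hm q := hy.add ((Am_Hm hα 1).smul _)
  have hqb : ∀ x, ⟪hv (bb α x), hv q⟫_ℂ = 0 := by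
    intro x
    rw [hq, hv_add, hv_smul, inner_add_right, inner_smul_right]
    by_cases hx : x = 1
    · subst hx
      rw [← hb1, bb_norm hα, ← hr, ← hN, hκ]
      field_simp
      ring
    · rw [hg0 x hx, ← hb1, bb_orth hα htr hx, mul_zero, add_zero]
  have hPP : Am α 1 * Am α 1 = Am α 1 := hA.one_mul 1
  have hqP : Am α 1 * q * Am α 1 = q := by
    rw [hq, mul_add, add_mul, hyP, hyP', mul_smul_comm, smul_mul_assoc, hPP, hPP]
  -- density in the three variables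
  have hP : ∀ g h k : Γ, Ps (hv q) (hv (α g)) (hv (α h)) (hv (α k)) = 0 := by
    intro g h k
    rw [Ps_hv]
    exact hqb (g, h, k)
  have s1 : ∀ a, Hm a → α 1 * a * α 1 = a → ∀ h k : Γ,
      Ps (hv q) (hv a) (hv (α h)) (hv (α k)) = 0 := fun a ha hac h k =>
    hdens (Z1 (hv q) (hv (α h)) (hv (α k))) (Z1_closed _ _ _) (fun g => hP g h k) a ha hac
  have s2 : ∀ a, Hm a → α 1 * a * α 1 = a → ∀ b, Hm b → α 1 * b * α 1 = b → ∀ k : Γ,
      Ps (hv q) (hv a) (hv b) (hv (α k)) = 0 := fun a ha hac b hb hbc k =>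
    hdens (Z2 (hv q) (hv a) (hv (α k))) (Z2_closed _ _ _) (fun h => s1 a ha hac h k) b hb hbc
  have s3 : ∀ a, Hm a → α 1 * a * α 1 = a → ∀ b, Hm b → α 1 * b * α 1 = b →
      ∀ c, Hm c → α 1 * c * α 1 = c → Ps (hv q) (hv a) (hv b) (hv c) = 0 :=
    fun a ha hac b hb hbc c hc hcc =>
    hdens (Z3 (hv q) (hv a) (hv b)) (Z3_closed _ _ _) (fun k => s2 a ha hac b hb hbc k) c hc hcc
  have hq0 : q = 0 := by
    refine zero_of_El hqH fun a b c ha hb hc => ?_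
    have hcor : ∀ z : Ell2 (ι × Λ) →L[ℂ] Ell2 (ι × Λ), α 1 * (α 1 * z * α 1) * α 1 =
        α 1 * z * α 1 := by
      intro z
      have h1 : α 1 * α 1 = α 1 := hα.one_mul 1
      calc α 1 * (α 1 * z * α 1) * α 1 = (α 1 * α 1) * z * (α 1 * α 1) := by
            simp only [mul_assoc]
        _ = _ := by rw [h1]
    have hHc : ∀ z : Ell2 (ι × Λ) →L[ℂ] Ell2 (ι × Λ), Hm z → Hm (α 1 * z * α 1) := fun z hz =>
      ((hα.hm 1).comp hz).comp (hα.hm 1)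
    have h1 := s3 _ (hHc a ha) (hcor a) _ (hHc b hb) (hcor b) _ (hHc c hc) (hcor c)
    rw [Ps_hv, B3_mul, B3_mul] at h1
    have h2 := hv_move (Am_Hm hα 1) (B3_Hm ha hb hc) (Am_Hm hα 1) hqH
    rw [hA.one_adj, hqP] at h2
    rw [← h2]
    exact h1
  have h1 : y + (-κ) • Am α 1 = 0 := hq0
  rw [neg_smul, ← sub_eq_add_neg, sub_eq_zero] at h1
  exact h1

theorem hv_Dm (a : Ell2 (ι × Λ) →L[ℂ] Ell2 (ι × Λ)) : ‖hv (Dm a)‖ = ‖hv a‖ := by
  have h1 : ⟪hv (Dm a), hv (Dm a)⟫_ℂ = ⟪hv a, hv a⟫_ℂ := by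
    rw [hv_inner, hv_inner]
    refine Finset.sum_congr rfl fun i _ => ?_
    have e1 : Dm a (dl (i, (1 : L3 Λ))) = Em ι Λ (a (dl (i, 1))) := Dm_dl a i
    rw [e1, Em_inner]
  rw [inner_self_eq_norm_sq_to_K, inner_self_eq_norm_sq_to_K] at h1
  have h3 : ‖hv (Dm a)‖ ^ 2 = ‖hv a‖ ^ 2 := by exact_mod_cast h1
  exact (pow_left_inj₀ (norm_nonneg _) (norm_nonneg _) two_ne_zero).mp h3

/-- For a corner of trace larger than one there is no intertwiner. -/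
theorem no_intertwinerM (hα : CFm α)
    (hΓ : ∀ g : Γ, g ≠ 1 → Set.Infinite {y : Γ | ∃ h, y = h * g * h⁻¹})
    (htr : ∀ g : Γ, g ≠ 1 → ⟪hv (α 1), hv (α g)⟫_ℂ = 0) (h1 : 1 < ‖hv (α 1)‖)
    (hdens : ∀ Z : Submodule ℂ (Ell2 (ι × (ι × Λ))), IsClosed (Z : Set (Ell2 (ι × (ι × Λ)))) →
      (∀ g, hv (α g) ∈ Z) → ∀ a, Hm a → α 1 * a * α 1 = a → hv a ∈ Z)
    {T : Ell2 (ι × L3 Λ) →L[ℂ] Ell2 (J3 ι × L3 Λ)} (hT : Hm T)
    (hTD : T ∘L Dm (α 1) = T) (hTα : ∀ g, Am α g ∘L T = T ∘L Dm (α g)) : hv T = 0 := by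
  by_contra hne
  have h0 : 0 < ‖hv (α 1)‖ := lt_trans zero_lt_one h1
  have hA := Am_rep hα
  have hPT : Am α 1 ∘L T = T := by rw [hTα, hTD]
  have hTa : ∀ g, adjoint T ∘L Am α g = Dm (α g) ∘L adjoint T := by
    intro g
    have h2 := congrArg adjoint (hTα g⁻¹)
    rw [adjoint_comp, adjoint_comp, hA.adj, Dm_adj, hα.adj, inv_inv] at h2
    exact h2
  set y : Ell2 (J3 ι × L3 Λ) →L[ℂ] Ell2 (J3 ι × L3 Λ) := T ∘L adjoint T with hy
  have hyH : Hm y := hT.comp hT.adj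
  have hyc : ∀ g, Am α g * y = y * Am α g := by
    intro g
    change Am α g ∘L (T ∘L adjoint T) = (T ∘L adjoint T) ∘L Am α g
    rw [← ContinuousLinearMap.comp_assoc, hTα, ContinuousLinearMap.comp_assoc,
      ContinuousLinearMap.comp_assoc, hTa]
  have hyP : Am α 1 * y = y := by
    change Am α 1 ∘L (T ∘L adjoint T) = T ∘L adjoint T
    rw [← ContinuousLinearMap.comp_assoc, hPT]
  obtain ⟨κ, hκ⟩ := scalar_of_comm hα hΓ htr h0 hdens hyH hyc hyP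
  set r : ℝ := ‖hv (α 1)‖ with hr
  set t : ℝ := ‖hv T‖ with ht
  have ht0 : 0 < t := norm_pos_iff.mpr hne
  -- `t² = κ d³`
  have e1 : ((t ^ 2 : ℝ) : ℂ) = κ * (((r ^ 2) ^ 3 : ℝ) : ℂ) := by
    have h2 : ⟪hv (Am α 1), hv y⟫_ℂ = κ * (((r ^ 2) ^ 3 : ℝ) : ℂ) := by
      rw [hκ, hv_smul, inner_smul_right]
      have h3 := bb_norm hα 1
      rw [← hr] at h3
      rw [← h3]
      rfl
    rw [← h2, hv_inner]
    have h4 : ∀ x : J3 ι, ⟪Am α 1 (dl (x, 1)), y (dl (x, 1))⟫_ℂ =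
        ⟪adjoint T (dl (x, 1)), adjoint T (dl (x, 1))⟫_ℂ := by
      intro x
      have h5 : ⟪Am α 1 (dl (x, 1)), y (dl (x, 1))⟫_ℂ = ⟪dl (x, 1), (Am α 1 * y) (dl (x, 1))⟫_ℂ := by
        have h6 := adjoint_inner_left (Am α 1) (y (dl (x, 1))) (dl (x, 1))
        rw [hA.one_adj] at h6
        exact h6
      rw [h5, hyP, hy, comp_apply, adjoint_inner_left]
    rw [Finset.sum_congr rfl fun x _ => h4 x, ← hv_inner, inner_self_eq_norm_sq_to_K,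
      hv_norm_adj hT, ← ht]
    push_cast
    rfl
  have hr0 : (((r ^ 2) ^ 3 : ℝ) : ℂ) ≠ 0 := by
    have : ((r ^ 2) ^ 3 : ℝ) ≠ 0 := by positivity
    exact_mod_cast this
  set k : ℝ := t ^ 2 / (r ^ 2) ^ 3 with hk
  have hκk : κ = (k : ℂ) := by
    rw [hk, Complex.ofReal_div, eq_div_iff hr0, e1]
  -- `z = T* T`
  set z : Ell2 (ι × L3 Λ) →L[ℂ] Ell2 (ι × L3 Λ) := adjoint T ∘L T with hz
  have e2 : ‖hv z‖ ^ 2 = k * t ^ 2 := by
    have h2 : ⟪hv z, hv z⟫_ℂ = ((k * t ^ 2 : ℝ) : ℂ) := by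
      rw [hv_inner]
      have h3 : ∀ i : ι, ⟪z (dl (i, 1)), z (dl (i, 1))⟫_ℂ =
          (k : ℂ) * ⟪T (dl (i, 1)), T (dl (i, 1))⟫_ℂ := by
        intro i
        have h4 : ⟪z (dl (i, 1)), z (dl (i, 1))⟫_ℂ =
            ⟪T (dl (i, 1)), y (T (dl (i, 1)))⟫_ℂ := by
          rw [hz, comp_apply, adjoint_inner_left]
          rfl
        have h5 : y (T (dl (i, 1))) = (k : ℂ) • T (dl (i, 1)) := by
          rw [hκ, hκk]
          change (k : ℂ) • (Am α 1 ∘L T) (dl (i, 1)) = _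
          rw [hPT]
        rw [h4, h5, inner_smul_right]
      rw [Finset.sum_congr rfl fun i _ => h3 i, ← Finset.mul_sum, ← hv_inner,
        inner_self_eq_norm_sq_to_K, ← ht]
      push_cast
      rfl
    rw [inner_self_eq_norm_sq_to_K] at h2
    have h4 : ((‖hv z‖ ^ 2 : ℝ) : ℂ) = ((k * t ^ 2 : ℝ) : ℂ) := by
      rw [← h2, Complex.ofReal_pow]; rfl
    exact Complex.ofReal_injective h4
  have e3 : t ^ 2 ≤ r * ‖hv z‖ := by
    have h2 : ⟪hv (Dm (α 1)), hv z⟫_ℂ = ((t ^ 2 : ℝ) : ℂ) := by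
      rw [hv_inner]
      have h3 : ∀ i : ι, ⟪Dm (α 1) (dl (i, 1)), z (dl (i, 1))⟫_ℂ =
          ⟪T (dl (i, 1)), T (dl (i, 1))⟫_ℂ := by
        intro i
        have h4 : T (Dm (α 1) (dl (i, 1))) = T (dl (i, 1)) :=
          congrArg (fun L : Ell2 (ι × L3 Λ) →L[ℂ] Ell2 (J3 ι × L3 Λ) => L (dl (i, 1))) hTD
        rw [hz, comp_apply, adjoint_inner_right, h4]
      rw [Finset.sum_congr rfl fun i _ => h3 i, ← hv_inner, inner_self_eq_norm_sq_to_K, ← ht]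
      push_cast
      rfl
    have h3 : ‖⟪hv (Dm (α 1)), hv z⟫_ℂ‖ ≤ ‖hv (Dm (α 1))‖ * ‖hv z‖ := norm_inner_le_norm _ _
    rw [h2, hv_Dm, ← hr, Complex.norm_real, Real.norm_of_nonneg (by positivity)] at h3
    exact h3
  -- conclusion
  have h5 : (t ^ 2) ^ 2 ≤ r ^ 2 * (k * t ^ 2) := by
    calc (t ^ 2) ^ 2 ≤ (r * ‖hv z‖) ^ 2 := pow_le_pow_left₀ (by positivity) e3 2
      _ = r ^ 2 * ‖hv z‖ ^ 2 := by ring
      _ = _ := by rw [e2]
  have h6 : r ^ 2 * (k * t ^ 2) = (t ^ 2) ^ 2 / (r ^ 2) ^ 2 := by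
    rw [hk]
    field_simp
  rw [h6, le_div_iff₀ (by positivity)] at h5
  have h7 : 1 < (r ^ 2) ^ 2 := by
    have : 1 < r ^ 2 := by nlinarith
    nlinarith
  have h8 : 0 < (t ^ 2) ^ 2 := by positivity
  nlinarith

end Vale.Agent.P092.H051
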