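import Vale.Agent.P092.H051.StMCorner
import Vale.Agent.P092.H051.Dens
import Vale.Agent.P092.H051.MNo

/-!
Matrix corners, part 4: the corner as a von Neumann algebra, and the trace.
-/

set_option linter.all false

open scoped InnerProductSpace
open Filter Topology ContinuousLinearMap

namespace Vale.Agent.P092.H051

open Vale.Agent.P092.H160 Vale.Agent.P092.H885

section gen

variable {H : Type} [NormedAddCommGroup H] [InnerProductSpace ℂ H] [CompleteSpace H]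
  {p : H →L[ℂ] H}

theorem adj_mul (A B : H →L[ℂ] H) : adjoint (A * B) = adjoint B * adjoint A := adjoint_comp A B

theorem inner_pg (v : H) (hpp : p * p = p) (hpa : adjoint p = p) :
    ⟪v, p v⟫_ℂ = ((‖p v‖ ^ 2 : ℝ) : ℂ) := by
  have h1 : ⟪p v, p v⟫_ℂ = ⟪v, p v⟫_ℂ := by
    rw [padj hpa, ← mul_ap, hpp]
  rw [← h1, inner_self_eq_norm_sq_to_K]
  push_cast
  rfl

theorem comm_iff (hp : p * p = p) {z : H →L[ℂ] H} (hz : p * z = z * p)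
    (x : Kp p →L[ℂ] Kp p) :
    x * cmp hp z = cmp hp z * x ↔ expd hp x * z = z * expd hp x := by
  have h3 : ∀ v, cmp hp z (prj hp v) = prj hp (z v) := by
    intro v
    apply Subtype.ext
    change p (z (p v)) = p (z v)
    have h4 : z (p v) = p (z v) := (congrArg (fun L : H →L[ℂ] H => L v) hz).symm
    rw [h4]
    exact congrArg (fun L : H →L[ℂ] H => L (z v)) hp
  have h5 : ∀ w : Kp p, p (z (w : H)) = z w := by
    intro w
    have h4 : p (z (w : H)) = z (p w) := congrArg (fun L : H →L[ℂ] H => L (w : H)) hz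
    rw [h4, mem_Kp.mp w.2]
  constructor
  · intro h
    ext1 v
    have h2 := congrArg (fun L : Kp p →L[ℂ] Kp p => ((L (prj hp v) : Kp p) : H)) h
    change ((x (cmp hp z (prj hp v)) : Kp p) : H) = p (z (x (prj hp v))) at h2
    change ((x (prj hp (z v)) : Kp p) : H) = z (x (prj hp v))
    rw [h3, h5] at h2
    exact h2
  · intro h
    ext1 w
    apply Subtype.ext
    have h2 := congrArg (fun L : H →L[ℂ] H => L (w : H)) h
    change ((x (prj hp (z w)) : Kp p) : H) = z (x (prj hp w)) at h2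
    have h6 : prj hp (w : H) = w := prj_inc hp w
    rw [h6] at h2
    change ((x (prj hp (z w)) : Kp p) : H) = p (z (x w))
    rw [h2, h5]

/-- the operators on the range of `p` whose extensions by zero commute with a set `𝒢` -/
noncomputable def NG (hp : p * p = p) (𝒢 : Set (H →L[ℂ] H)) :
    StarSubalgebra ℂ (Kp p →L[ℂ] Kp p) :=
  StarSubalgebra.centralizer ℂ (StarSubalgebra.centralizer ℂ
    {x : Kp p →L[ℂ] Kp p | ∀ z ∈ 𝒢, expd hp x * z = z * expd hp x} : Set (Kp p →L[ℂ] Kp p))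

theorem dc_NG (hp : p * p = p) (𝒢 : Set (H →L[ℂ] H)) :
    Vale.Agent.P092.H108.DC (NG hp 𝒢) := ⟨_, rfl⟩

theorem mem_NG (hp : p * p = p) (hpa : adjoint p = p) {𝒢 : Set (H →L[ℂ] H)}
    (h𝒢 : ∀ z ∈ 𝒢, p * z = z * p) (h𝒢a : ∀ z ∈ 𝒢, adjoint z ∈ 𝒢) {x : Kp p →L[ℂ] Kp p} :
    x ∈ NG hp 𝒢 ↔ ∀ z ∈ 𝒢, expd hp x * z = z * expd hp x := by
  constructor
  · intro hx z hz
    rw [NG, StarSubalgebra.mem_centralizer_iff] at hx
    have hRmem : cmp hp z ∈ StarSubalgebra.centralizer ℂ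
        {x : Kp p →L[ℂ] Kp p | ∀ z ∈ 𝒢, expd hp x * z = z * expd hp x} := by
      rw [StarSubalgebra.mem_centralizer_iff]
      intro w hw
      refine ⟨(comm_iff hp (h𝒢 z hz) w).mpr (hw z hz), ?_⟩
      refine (comm_iff hp (h𝒢 z hz) (star w)).mpr ?_
      rw [star_eq_adjoint, expd_adj hp hpa]
      have h1 := congrArg adjoint (hw (adjoint z) (h𝒢a z hz))
      rw [adj_mul, adj_mul, adjoint_adjoint] at h1
      exact h1.symm
    have h1 := (hx (cmp hp z) hRmem).1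
    exact (comm_iff hp (h𝒢 z hz) x).mp h1.symm
  · intro hx
    rw [NG, StarSubalgebra.mem_centralizer_iff]
    intro y hy
    have hy' : y ∈ StarSubalgebra.centralizer ℂ
        {x : Kp p →L[ℂ] Kp p | ∀ z ∈ 𝒢, expd hp x * z = z * expd hp x} := hy
    have hys : star y ∈ StarSubalgebra.centralizer ℂ
        {x : Kp p →L[ℂ] Kp p | ∀ z ∈ 𝒢, expd hp x * z = z * expd hp x} := star_mem hy'
    rw [StarSubalgebra.mem_centralizer_iff] at hy' hys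
    exact ⟨((hy' x hx).1).symm, ((hys x hx).1).symm⟩

end gen

section mat

variable {ι Λ : Type} [Fintype ι] [Group Λ]

/-- the commutant of the amplified matrices over `L(Λ)` -/
def GG (ι Λ : Type) [Group Λ] : Set (Ell2 (ι × (ι × Λ)) →L[ℂ] Ell2 (ι × (ι × Λ))) :=
  {z | ∀ b : Ell2 (ι × Λ) →L[ℂ] Ell2 (ι × Λ), Hm b → z * ampR ι b = ampR ι b * z}

omit [Fintype ι] in
theorem GG_adj {z : Ell2 (ι × (ι × Λ)) →L[ℂ] Ell2 (ι × (ι × Λ))} (hz : z ∈ GG ι Λ) :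
    adjoint z ∈ GG ι Λ := by
  intro b hb
  have h1 := congrArg adjoint (hz (adjoint b) hb.adj)
  rw [adj_mul, adj_mul, ampR_adj, adjoint_adjoint] at h1
  exact h1.symm

omit [Fintype ι] in
theorem GG_E (i j : ι) : (tvr (dl i) ∘L slL (ι × Λ) j :
    Ell2 (ι × (ι × Λ)) →L[ℂ] Ell2 (ι × (ι × Λ))) ∈ GG ι Λ := by
  intro b hb
  ext1 v
  change tv (dl i) (sl (ampR ι b v) j) = ampR ι b (tv (dl i) (sl v j))
  rw [sl_ampR, ampR_tv]

omit [Fintype ι] in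
theorem GG_rr (s : Λ) : ampR ι (ampR ι (rho s)) ∈ GG ι Λ := by
  intro b hb
  rw [← ampR_mul, ← ampR_mul]
  congr 1
  exact (hb s).symm

omit [Fintype ι] in
/-- operators commuting with the commutant are amplified matrices -/
theorem amp_of_comm (i₀ : ι) {X : Ell2 (ι × (ι × Λ)) →L[ℂ] Ell2 (ι × (ι × Λ))}
    (hX : ∀ z ∈ GG ι Λ, X * z = z * X) :
    X = ampR ι (slL (ι × Λ) i₀ ∘L X ∘L tvr (dl i₀)) ∧
      Hm (slL (ι × Λ) i₀ ∘L X ∘L tvr (dl i₀)) := by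
  constructor
  · apply op_ext
    rintro ⟨i, x⟩
    have h1 := congrArg (fun L : Ell2 (ι × (ι × Λ)) →L[ℂ] Ell2 (ι × (ι × Λ)) =>
      L (tv (dl i₀) (dl x))) (hX _ (GG_E i i₀))
    change X (tv (dl i) (sl (tv (dl i₀) (dl x)) i₀)) =
      tv (dl i) (sl (X (tv (dl i₀) (dl x))) i₀) at h1
    rw [sl_tv, dl_self, one_smul] at h1
    rw [dl_prod, h1, ampR_tv]
    rfl
  · intro s
    ext1 v
    have h1 := congrArg (fun L : Ell2 (ι × (ι × Λ)) →L[ℂ] Ell2 (ι × (ι × Λ)) =>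
      L (tv (dl i₀) v)) (hX _ (GG_rr s))
    change X (ampR ι (ampR ι (rho s)) (tv (dl i₀) v)) =
      ampR ι (ampR ι (rho s)) (X (tv (dl i₀) v)) at h1
    rw [ampR_tv] at h1
    change sl (X (tv (dl i₀) (ampR ι (rho s) v))) i₀ =
      ampR ι (rho s) (sl (X (tv (dl i₀) v)) i₀)
    rw [h1, sl_ampR]

omit [Fintype ι] in
theorem blk_amp (i₀ : ι) (b : Ell2 (ι × Λ) →L[ℂ] Ell2 (ι × Λ)) :
    slL (ι × Λ) i₀ ∘L ampR ι b ∘L tvr (dl i₀) = b := by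
  ext1 v
  change sl (ampR ι b (tv (dl i₀) v)) i₀ = b v
  rw [sl_ampR, sl_tv, dl_self, one_smul]

end mat

/-! ### isomorphisms onto matrix corners (internal form) -/

structure MIso (ι Γ Λ : Type) [Group Γ] [Group Λ] (p : Ell2 (ι × Λ) →L[ℂ] Ell2 (ι × Λ)) where
  f : LG Γ → (Ell2 (ι × Λ) →L[ℂ] Ell2 (ι × Λ))
  fi : (Ell2 (ι × Λ) →L[ℂ] Ell2 (ι × Λ)) → LG Γ
  ph : Hm p
  pp : p * p = p
  pa : adjoint p = p
  hm : ∀ T, Hm (f T)
  cor : ∀ T, p * f T * p = f T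
  li : ∀ T, fi (f T) = T
  ri : ∀ a, Hm a → p * a * p = a → f (fi a) = a
  add : ∀ S T, f (S + T) = f S + f T
  smul : ∀ (c : ℂ) T, f (c • T) = c • f T
  mul : ∀ S T, f (S * T) = f S * f T
  star : ∀ T, f (star T) = adjoint (f T)

section iso

variable {ι Γ Λ : Type} [Group Γ] [Group Λ] {p : Ell2 (ι × Λ) →L[ℂ] Ell2 (ι × Λ)}
  (θ : MIso ι Γ Λ p)

theorem MIso.left (T : LG Γ) : p * θ.f T = θ.f T := by
  rw [← θ.cor T, ← mul_assoc, ← mul_assoc, θ.pp]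

theorem MIso.right (T : LG Γ) : θ.f T * p = θ.f T := by
  rw [← θ.cor T, mul_assoc, θ.pp]

theorem MIso.one : θ.f 1 = p := by
  have hc : p * p * p = p := by rw [θ.pp, θ.pp]
  have h1 := θ.mul 1 (θ.fi p)
  rw [θ.ri p θ.ph hc, one_mul, θ.ri p θ.ph hc, θ.right] at h1
  exact h1.symm

include θ in
theorem p2p : ampR ι p * ampR ι p = ampR ι p := by rw [← ampR_mul, θ.pp]
include θ in
theorem p2a : adjoint (ampR ι p) = ampR ι p := by rw [ampR_adj, θ.pa]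
include θ in
theorem p2G : ∀ z ∈ GG ι Λ, ampR ι p * z = z * ampR ι p := fun z hz => (hz p θ.ph).symm

theorem mem_NGm {x : Kp (ampR ι p) →L[ℂ] Kp (ampR ι p)} :
    x ∈ NG (p2p θ) (GG ι Λ) ↔ ∀ z ∈ GG ι Λ, expd (p2p θ) x * z = z * expd (p2p θ) x :=
  mem_NG (p2p θ) (p2a θ) (p2G θ) (fun z hz => GG_adj hz)

/-- the entry of an element of the algebra -/
noncomputable def ent (i₀ : ι) (x : Kp (ampR ι p) →L[ℂ] Kp (ampR ι p)) :
    Ell2 (ι × Λ) →L[ℂ] Ell2 (ι × Λ) :=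
  slL (ι × Λ) i₀ ∘L expd (p2p θ) x ∘L tvr (dl i₀)

theorem ent_spec (i₀ : ι) {x : Kp (ampR ι p) →L[ℂ] Kp (ampR ι p)}
    (hx : x ∈ NG (p2p θ) (GG ι Λ)) : expd (p2p θ) x = ampR ι (ent θ i₀ x) ∧ Hm (ent θ i₀ x) :=
  amp_of_comm i₀ ((mem_NGm θ).mp hx)

theorem ent_corner (i₀ : ι) {x : Kp (ampR ι p) →L[ℂ] Kp (ampR ι p)}
    (hx : x ∈ NG (p2p θ) (GG ι Λ)) : p * ent θ i₀ x * p = ent θ i₀ x := by
  have h1 : ampR ι (p * ent θ i₀ x * p) = ampR ι (ent θ i₀ x) := by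
    rw [ampR_mul, ampR_mul, ← (ent_spec θ i₀ hx).1, ← expd_cmp (p2p θ), cmp_expd]
  have h2 := congrArg (fun X : Ell2 (ι × (ι × Λ)) →L[ℂ] Ell2 (ι × (ι × Λ)) =>
    slL (ι × Λ) i₀ ∘L X ∘L tvr (dl i₀)) h1
  simp only [blk_amp] at h2
  exact h2

theorem expd_f (T : LG Γ) : expd (p2p θ) (cmp (p2p θ) (ampR ι (θ.f T))) = ampR ι (θ.f T) := by
  rw [expd_cmp, ← ampR_mul, ← ampR_mul, θ.cor]

noncomputable def thM (i₀ : ι) : LG Γ ≃⋆ₐ[ℂ] NG (p2p θ) (GG ι Λ) where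
  toFun T := ⟨cmp (p2p θ) (ampR ι (θ.f T)), (mem_NGm θ).mpr (fun z hz => by
    rw [expd_f]; exact (hz _ (θ.hm T)).symm)⟩
  invFun x := θ.fi (ent θ i₀ x)
  left_inv T := by
    change θ.fi (ent θ i₀ (cmp (p2p θ) (ampR ι (θ.f T)))) = T
    rw [ent, expd_f, blk_amp, θ.li]
  right_inv x := Subtype.ext (by
    change cmp (p2p θ) (ampR ι (θ.f (θ.fi (ent θ i₀ x)))) = x
    rw [θ.ri _ (ent_spec θ i₀ x.2).2 (ent_corner θ i₀ x.2), ← (ent_spec θ i₀ x.2).1, cmp_expd])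
  map_mul' S T := Subtype.ext (by
    change cmp (p2p θ) (ampR ι (θ.f (S * T))) =
      cmp (p2p θ) (ampR ι (θ.f S)) * cmp (p2p θ) (ampR ι (θ.f T))
    rw [θ.mul, ampR_mul, cmp_mul (p2p θ)]
    rw [← ampR_mul, θ.left])
  map_add' S T := Subtype.ext (by
    change cmp (p2p θ) (ampR ι (θ.f (S + T))) =
      cmp (p2p θ) (ampR ι (θ.f S)) + cmp (p2p θ) (ampR ι (θ.f T))
    rw [θ.add, ampR_add]
    ext1 w
    apply Subtype.ext
    change ampR ι p (ampR ι (θ.f S) w + ampR ι (θ.f T) w) =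
      ampR ι p (ampR ι (θ.f S) w) + ampR ι p (ampR ι (θ.f T) w)
    rw [map_add])
  map_star' T := Subtype.ext (by
    change cmp (p2p θ) (ampR ι (θ.f (star T))) = star (cmp (p2p θ) (ampR ι (θ.f T)))
    rw [θ.star, ← ampR_adj, cmp_adj (p2p θ) (p2a θ)]
    rfl)
  map_smul' c T := Subtype.ext (by
    change cmp (p2p θ) (ampR ι (θ.f (c • T))) = c • cmp (p2p θ) (ampR ι (θ.f T))
    rw [θ.smul, ampR_smul]
    ext1 w
    apply Subtype.ext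
    change ampR ι p (c • ampR ι (θ.f T) w) = c • ampR ι p (ampR ι (θ.f T) w)
    rw [map_smul])

variable [Fintype ι]

theorem tr_zeroM (i₀ : ι)
    (hΓ : ∀ g : Γ, g ≠ 1 → Set.Infinite {y : Γ | ∃ h, y = h * g * h⁻¹})
    (h0 : 0 < ‖hv p‖) (T : LG Γ)
    (h1 : ‖(T : Ell2 Γ →L[ℂ] Ell2 Γ)‖ ≤ 1) (hT : tr T = 0) :
    ⟪hv (1 : Ell2 (ι × Λ) →L[ℂ] Ell2 (ι × Λ)), hv (θ.f T)⟫_ℂ = 0 := by
  set r : ℝ := ‖hv p‖ with hr
  set o : Ell2 (ι × (ι × Λ)) := hv (1 : Ell2 (ι × Λ) →L[ℂ] Ell2 (ι × Λ)) with ho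
  have hob : ∀ b : Ell2 (ι × Λ) →L[ℂ] Ell2 (ι × Λ), ampR ι b o = hv b := fun b => by
    rw [ho, ← hv_comp]; rfl
  set F : Kp (ampR ι p) := ((r⁻¹ : ℝ) : ℂ) • prj (p2p θ) o with hF
  have hfn : ‖F‖ = 1 := by
    have h2 : ‖prj (p2p θ) o‖ = r := by
      change ‖ampR ι p o‖ = r
      rw [hob]
    rw [hF, norm_smul, h2, Complex.norm_real, Real.norm_of_nonneg (by positivity)]
    field_simp
  have hin : ∀ x : Kp (ampR ι p) →L[ℂ] Kp (ampR ι p), inner ℂ F (x F) =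
      ((r⁻¹ : ℝ) : ℂ) * (((r⁻¹ : ℝ) : ℂ) * ⟪o, expd (p2p θ) x o⟫_ℂ) := by
    intro x
    rw [hF, map_smul, inner_smul_left, inner_smul_right, Complex.conj_ofReal]
    congr 2
    change ⟪ampR ι p o, ((x (prj (p2p θ) o) : Kp (ampR ι p)) : Ell2 (ι × (ι × Λ)))⟫_ℂ =
      ⟪o, ((x (prj (p2p θ) o) : Kp (ampR ι p)) : Ell2 (ι × (ι × Λ)))⟫_ℂ
    rw [padj (p2a θ), mem_Kp.mp (x (prj (p2p θ) o)).2]
  have key := Vale.Agent.P092.H108.trace_aux (M := LG Γ) (N := NG (p2p θ) (GG ι Λ))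
    Vale.Agent.P092.H108.dc_LG (dc_NG (p2p θ) _) (thM θ i₀) (dl 1)
    (fun T hT h => Vale.Agent.P092.H108.eq_zero_of_dl hT h) F hfn
    (G := Γ) uu Vale.Agent.P092.H108.star_uu_mul (fun g h => uu_mul g h)
    (fun g x => lam g (rho g x))
    (fun g => (lam g).continuous.comp (rho g).continuous)
    (fun g x => le_of_eq ((norm_rei _ _).trans (norm_rei _ _))) (fun g y => ?_)
    (fun ζ hζ hζ1 => Vale.Agent.P092.H108.fixed_eq_zero hΓ hζ ((inner_dl 1 ζ).symm.trans hζ1))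
    (fun x y => ?_) T h1 (fun g => ?_)
  · rw [hin] at key
    have h3 : expd (p2p θ) ((thM θ i₀ T : NG (p2p θ) (GG ι Λ)) :
        Kp (ampR ι p) →L[ℂ] Kp (ampR ι p)) = ampR ι (θ.f T) := expd_f θ T
    rw [h3, hob] at key
    have h4 : ((r⁻¹ : ℝ) : ℂ) ≠ 0 := by
      have : (r⁻¹ : ℝ) ≠ 0 := by positivity
      exact_mod_cast this
    rcases mul_eq_zero.mp key with h | h
    · exact absurd h h4
    · rcases mul_eq_zero.mp h with h | h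
      · exact absurd h h4
      · exact h
  · change lam g (rho g ((y : Ell2 Γ →L[ℂ] Ell2 Γ) (dl 1))) =
      lam g ((y : Ell2 Γ →L[ℂ] Ell2 Γ) ((star (lam g) : Ell2 Γ →L[ℂ] Ell2 Γ) (dl 1)))
    have h3 : (y : Ell2 Γ →L[ℂ] Ell2 Γ) (rho g (dl 1)) =
      rho g ((y : Ell2 Γ →L[ℂ] Ell2 Γ) (dl 1)) :=
        DFunLike.congr_fun (Vale.Agent.P092.H108.mem_LG_rho y.2 g) _
    rw [star_lam, ← h3, rho_dl, lam_dl, one_mul, mul_one]
  · have e1 : ∀ x y : NG (p2p θ) (GG ι Λ), inner ℂ F (((x * y : NG (p2p θ) (GG ι Λ)) :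
        Kp (ampR ι p) →L[ℂ] Kp (ampR ι p)) F) =
        ((r⁻¹ : ℝ) : ℂ) * (((r⁻¹ : ℝ) : ℂ) *
          ⟪hv (adjoint (ent θ i₀ x)), hv (ent θ i₀ y)⟫_ℂ) := by
      intro x y
      rw [hin]
      have e2 : expd (p2p θ) (((x * y : NG (p2p θ) (GG ι Λ)) :
          Kp (ampR ι p) →L[ℂ] Kp (ampR ι p))) =
          ampR ι (ent θ i₀ x) * ampR ι (ent θ i₀ y) := by
        rw [← (ent_spec θ i₀ x.2).1, ← (ent_spec θ i₀ y.2).1, ← expd_mul]
        rfl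
      rw [e2, mul_ap, hob, ← adjoint_inner_left, ampR_adj, hob]
    rw [e1, e1]
    congr 2
    have h2 := hv_swap (ent_spec θ i₀ x.2).2 (ent_spec θ i₀ y.2).2.adj
    rw [adjoint_adjoint] at h2
    exact h2
  · change tr (uu g * T * star (uu g)) = 0
    rw [Vale.Agent.P092.H108.tr_comm, ← mul_assoc, Vale.Agent.P092.H108.star_uu_mul, one_mul, hT]

/-- `⟪1, θ(T)⟫ = τ(T) Tr(p)`. -/
theorem tr_thetaM (i₀ : ι)
    (hΓ : ∀ g : Γ, g ≠ 1 → Set.Infinite {y : Γ | ∃ h, y = h * g * h⁻¹})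
    (h0 : 0 < ‖hv p‖) (T : LG Γ) :
    ⟪hv (1 : Ell2 (ι × Λ) →L[ℂ] Ell2 (ι × Λ)), hv (θ.f T)⟫_ℂ =
      tr T * ((‖hv p‖ ^ 2 : ℝ) : ℂ) := by
  set o : Ell2 (ι × (ι × Λ)) := hv (1 : Ell2 (ι × Λ) →L[ℂ] Ell2 (ι × Λ)) with ho
  have hob : ∀ b : Ell2 (ι × Λ) →L[ℂ] Ell2 (ι × Λ), ampR ι b o = hv b := fun b => by
    rw [ho, ← hv_comp]; rfl
  obtain ⟨S, hS⟩ : ∃ S : LG Γ, S = T + (-tr T) • 1 := ⟨_, rfl⟩
  have hS0 : tr S = 0 := by
    rw [hS, Vale.Agent.P092.H108.tr_add, Vale.Agent.P092.H108.tr_smul,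
      Vale.Agent.P092.H108.tr_one]
    ring
  obtain ⟨c, hc⟩ : ∃ c : ℝ, c = (‖(S : Ell2 Γ →L[ℂ] Ell2 Γ)‖ + 1)⁻¹ := ⟨_, rfl⟩
  have hn : 0 < ‖(S : Ell2 Γ →L[ℂ] Ell2 Γ)‖ + 1 := by positivity
  have hc0 : 0 < c := by rw [hc]; positivity
  have h1 := tr_zeroM θ i₀ hΓ h0 ((c : ℂ) • S) (by
    change ‖(c : ℂ) • (S : Ell2 Γ →L[ℂ] Ell2 Γ)‖ ≤ 1
    rw [norm_smul, Complex.norm_real, Real.norm_of_nonneg hc0.le, hc, inv_mul_le_iff₀ hn]
    linarith) (by rw [Vale.Agent.P092.H108.tr_smul, hS0, mul_zero])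
  rw [θ.smul, hv_smul, inner_smul_right] at h1
  have h3 : ⟪o, hv (θ.f S)⟫_ℂ = 0 := by
    rcases mul_eq_zero.mp h1 with h | h
    · exact absurd (Complex.ofReal_eq_zero.1 h) hc0.ne'
    · exact h
  rw [hS, θ.add, θ.smul, θ.one, hv_add, hv_smul, inner_add_right, inner_smul_right] at h3
  have h5 : ⟪o, hv p⟫_ℂ = ((‖hv p‖ ^ 2 : ℝ) : ℂ) := by
    have := inner_pg (p := ampR ι p) o (p2p θ) (p2a θ)
    rw [hob] at this
    exact this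
  rw [h5] at h3
  linear_combination h3

theorem norm_thM (i₀ : ι)
    (hΓ : ∀ g : Γ, g ≠ 1 → Set.Infinite {y : Γ | ∃ h, y = h * g * h⁻¹})
    (h0 : 0 < ‖hv p‖) (T : LG Γ) :
    ‖hv (θ.f T)‖ = ‖hv p‖ * ‖(T : Ell2 Γ →L[ℂ] Ell2 Γ) (dl 1)‖ := by
  have h1 := tr_thetaM θ i₀ hΓ h0 (star T * T)
  have e1 : hv (θ.f (star T * T)) = ampR ι (adjoint (θ.f T)) (hv (θ.f T)) := by
    rw [θ.mul, θ.star, ← hv_comp]; rfl
  have e2 : ampR ι (θ.f T) (hv (1 : Ell2 (ι × Λ) →L[ℂ] Ell2 (ι × Λ))) = hv (θ.f T) := by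
    rw [← hv_comp]; rfl
  rw [e1, ← ampR_adj, adjoint_inner_right, e2, ← norm_sq_eq_tr, inner_self_eq_norm_sq_to_K] at h1
  have h2 : ((‖hv (θ.f T)‖ ^ 2 : ℝ) : ℂ) =
      (((‖hv p‖ * ‖(T : Ell2 Γ →L[ℂ] Ell2 Γ) (dl 1)‖) ^ 2 : ℝ) : ℂ) := by
    have h3 : ((‖hv (θ.f T)‖ ^ 2 : ℝ) : ℂ) = ((‖hv (θ.f T)‖ : ℂ)) ^ 2 := by
      push_cast; rfl
    rw [h3]
    refine h1.trans ?_
    push_cast
    ring
  have h3 := Complex.ofReal_injective h2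
  exact (pow_left_inj₀ (norm_nonneg _) (by positivity) two_ne_zero).mp h3

/-- Density. -/
theorem densM (i₀ : ι)
    (hΓ : ∀ g : Γ, g ≠ 1 → Set.Infinite {y : Γ | ∃ h, y = h * g * h⁻¹})
    (h0 : 0 < ‖hv p‖) (Z : Submodule ℂ (Ell2 (ι × (ι × Λ))))
    (hZ : IsClosed (Z : Set (Ell2 (ι × (ι × Λ))))) (hZu : ∀ g : Γ, hv (θ.f (uu g)) ∈ Z)
    (b : Ell2 (ι × Λ) →L[ℂ] Ell2 (ι × Λ)) (hb : Hm b) (hbc : p * b * p = b) : hv b ∈ Z := by
  set a : LG Γ := θ.fi b with ha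
  have hab : θ.f a = b := θ.ri b hb hbc
  set c : Γ → ℂ := fun g => (a : Ell2 Γ →L[ℂ] Ell2 Γ) (dl 1) g with hcdef
  -- `hv ∘ θ` is linear
  set Φ : LG Γ →ₗ[ℂ] Ell2 (ι × (ι × Λ)) :=
    { toFun := fun T => hv (θ.f T)
      map_add' := fun S T => by rw [θ.add, hv_add]
      map_smul' := fun c T => by rw [θ.smul, hv_smul]; rfl } with hΦ
  have hfc : ∀ t : Finset Γ, Φ (fc t c) ∈ Z := by
    intro t
    rw [fc, map_sum]
    refine Z.sum_mem fun g _ => ?_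
    rw [map_smul]
    exact Z.smul_mem _ (hZu g)
  have hcl : hv b ∈ closure (Z : Set (Ell2 (ι × (ι × Λ)))) := by
    rw [Metric.mem_closure_iff]
    intro ε hε
    have h5 := hasSum_dl ((a : Ell2 Γ →L[ℂ] Ell2 Γ) (dl 1))
    have hpos : 0 < ε / (‖hv p‖ + 1) := by positivity
    obtain ⟨t, ht⟩ := (h5.eventually (Metric.ball_mem_nhds _ hpos)).exists
    refine ⟨Φ (fc t c), hfc t, ?_⟩
    have h7 : ‖((a - fc t c : LG Γ) : Ell2 Γ →L[ℂ] Ell2 Γ) (dl 1)‖ < ε / (‖hv p‖ + 1) := by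
      have h4 : ((a - fc t c : LG Γ) : Ell2 Γ →L[ℂ] Ell2 Γ) (dl 1) =
          (a : Ell2 Γ →L[ℂ] Ell2 Γ) (dl 1) - ∑ g ∈ t, c g • dl g := by
        rw [← fc_dl]
        rfl
      rw [h4, ← dist_eq_norm, dist_comm]
      exact ht
    have h8 : hv b - Φ (fc t c) = hv (θ.f (a - fc t c)) := by
      have h9 : hv b = Φ a := by rw [← hab]; rfl
      rw [h9, ← map_sub]
      rfl
    rw [dist_eq_norm, h8, norm_thM θ i₀ hΓ h0]
    calc ‖hv p‖ * ‖((a - fc t c : LG Γ) : Ell2 Γ →L[ℂ] Ell2 Γ) (dl 1)‖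
        ≤ ‖hv p‖ * (ε / (‖hv p‖ + 1)) := by gcongr
      _ = (‖hv p‖ / (‖hv p‖ + 1)) * ε := by ring
      _ < 1 * ε := by
          refine mul_lt_mul_of_pos_right ?_ hε
          rw [div_lt_one (by positivity)]
          linarith
      _ = ε := one_mul _
  rw [hZ.closure_eq] at hcl
  exact hcl

/-- The images of the canonical unitaries. -/
noncomputable def alM (g : Γ) : Ell2 (ι × Λ) →L[ℂ] Ell2 (ι × Λ) := θ.f (uu g)

theorem alM_one : alM θ 1 = p := by rw [alM, uu_one, θ.one]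

theorem alM_cf : CFm (alM θ) where
  mul g h := by rw [alM, uu_mul, θ.mul]; rfl
  adj g := by rw [alM, ← θ.star, star_uu]; rfl
  hm g := θ.hm _

theorem alM_tr (i₀ : ι)
    (hΓ : ∀ g : Γ, g ≠ 1 → Set.Infinite {y : Γ | ∃ h, y = h * g * h⁻¹})
    (h0 : 0 < ‖hv p‖) (g : Γ) (hg : g ≠ 1) : ⟪hv (alM θ 1), hv (alM θ g)⟫_ℂ = 0 := by
  have h1 := tr_thetaM θ i₀ hΓ h0 (uu g)
  have h2 : tr (uu g : LG Γ) = 0 := by
    rw [tr_eq]
    change ⟪(dl 1 : Ell2 Γ), lam g (dl 1)⟫_ℂ = 0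
    rw [lam_dl, mul_one, inner_dl, dl_ne (Ne.symm hg)]
  rw [h2, zero_mul] at h1
  have e1 : hv (alM θ 1) = ampR ι (alM θ 1) (hv (1 : Ell2 (ι × Λ) →L[ℂ] Ell2 (ι × Λ))) := by
    rw [← hv_comp]; rfl
  have e2 : ampR ι (alM θ 1) (hv (alM θ g)) = hv (alM θ g) := by
    rw [← hv_comp]
    congr 1
    exact (alM_cf θ).one_mul g
  rw [e1, ← adjoint_inner_right, ampR_adj, (alM_cf θ).one_adj, e2]
  exact h1

/-- The base vector is orthogonal to the invariant vectors. -/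
theorem orthM (i₀ : ι)
    (hΓ : ∀ g : Γ, g ≠ 1 → Set.Infinite {y : Γ | ∃ h, y = h * g * h⁻¹})
    (h1 : 1 < ‖hv p‖) : ∀ η, (∀ g, (Pq_rep (alM_cf θ)).rep g η = η) →
      ⟪η, Pq (alM θ) 1 (hv (T0m ι Λ))⟫_ℂ = 0 := by
  intro η hη
  have h0 : 0 < ‖hv p‖ := lt_trans zero_lt_one h1
  obtain ⟨T, hT, hTD, hTα, hTη⟩ := exists_minM (alM_cf θ)
  have h2 : hv T = 0 := by
    refine no_intertwinerM (alM_cf θ) hΓ (alM_tr θ i₀ hΓ h0) (by rw [alM_one]; exact h1)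
      (fun Z hZ hu a ha hac => ?_) hT hTD hTα
    rw [alM_one] at hac
    exact densM θ i₀ hΓ h0 Z hZ hu a ha hac
  rw [← hTη η hη, h2, inner_zero_right]

end iso

end Vale.Agent.P092.H051
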