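import Vale.Agent.P092.H051.Min

/-!
Homomorphisms into the unitary group of a corner of `B(H)`: the associated unitary representation
and the minimal vector.
-/

set_option linter.all false

open scoped InnerProductSpace
open Filter Topology ContinuousLinearMap

namespace Vale.Agent.P092.H051

open Vale.Agent.P092.H160 Vale.Agent.P092.H885

variable {Γ : Type} [Group Γ] {H : Type} [NormedAddCommGroup H] [InnerProductSpace ℂ H]
    [CompleteSpace H]

structure PRep (q : Γ → (H →L[ℂ] H)) : Prop where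
  mul : ∀ g h, q (g * h) = q g * q h
  adj : ∀ g, adjoint (q g) = q g⁻¹

variable {q : Γ → (H →L[ℂ] H)} (hq : PRep q)

include hq

theorem PRep.one_mul (g : Γ) : q 1 * q g = q g := by rw [← hq.mul, _root_.one_mul]
theorem PRep.mul_one (g : Γ) : q g * q 1 = q g := by rw [← hq.mul, _root_.mul_one]
theorem PRep.inv_mul (g : Γ) : q g⁻¹ * q g = q 1 := by rw [← hq.mul, inv_mul_cancel]
theorem PRep.mul_inv (g : Γ) : q g * q g⁻¹ = q 1 := by rw [← hq.mul, mul_inv_cancel]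
theorem PRep.one_adj : adjoint (q 1) = q 1 := by rw [hq.adj, inv_one]

theorem PRep.le (g : Γ) (v : H) : ‖q g v‖ ≤ ‖v‖ := by
  refine norm_le_of_pi (q := q 1) ?_ ?_ ?_ v
  · rw [hq.adj, hq.inv_mul]
  · rw [hq.one_mul]
  · rw [hq.one_adj]

/-- the unitary representation, trivial off the corner -/
noncomputable def PRep.rep : Γ →* (H →L[ℂ] H) where
  toFun g := q g + (1 - q 1)
  map_one' := by abel
  map_mul' g h := by
    have e1 := hq.mul_one g
    have e2 := hq.one_mul h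
    have e3 := hq.one_mul 1
    rw [hq.mul]
    have : (q g + (1 - q 1)) * (q h + (1 - q 1)) =
        q g * q h + (q g - q g * q 1) + (q h - q 1 * q h) +
          (1 - q 1 - q 1 + q 1 * q 1) := by noncomm_ring
    rw [this, e1, e2, e3]
    abel

theorem PRep.rep_apply (g : Γ) : hq.rep g = q g + (1 - q 1) := rfl

theorem PRep.rep_adj (g : Γ) : adjoint (hq.rep g) = hq.rep g⁻¹ := by
  rw [hq.rep_apply, hq.rep_apply, ← star_eq_adjoint, star_add, star_sub, star_one,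
    star_eq_adjoint, star_eq_adjoint, hq.adj, hq.adj, inv_one]

theorem PRep.rep_vec (g : Γ) (ξ : H) : hq.rep g (q 1 ξ) = q g ξ := by
  rw [hq.rep_apply]
  change q g (q 1 ξ) + (q 1 ξ - q 1 (q 1 ξ)) = _
  rw [← mul_ap, ← mul_ap, hq.mul_one, hq.one_mul, sub_self, add_zero]

theorem PRep.coeff (g : Γ) (ξ : H) : ⟪q 1 ξ, hq.rep g (q 1 ξ)⟫_ℂ = ⟪ξ, q g ξ⟫_ℂ := by
  rw [hq.rep_vec]
  have h := adjoint_inner_left (q 1) (q g ξ) ξ
  rw [hq.one_adj, ← mul_ap, hq.one_mul] at h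
  exact h

/-- The minimal vector. -/
theorem PRep.exists_min {B : Set H} (hB : IsClosed B) (hBc : Cvx B) {ξ : H}
    (hξ : ∀ g, q g ξ ∈ B) : ∃ ω ∈ B, (∀ g, q g ω = ω) ∧
      ∀ η, (∀ g, hq.rep g η = η) → ⟪η, ω⟫_ℂ = ⟪η, q 1 ξ⟫_ℂ := by
  set S : Set H := hull (Set.range fun g => q g ξ) with hS
  have hcl : Cvx (closure S) := (cvx_hull _).closure
  obtain ⟨ω, hω, hfix⟩ := Vale.Agent.P092.H108.exists_min_fixed
    (K := closure S) ⟨_, subset_closure (subset_hull _ ⟨1, rfl⟩)⟩ isClosed_closure (Cvx.real hcl)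
  have hSB : closure S ⊆ B := closure_minimal (hull_subset hBc (by
    rintro _ ⟨g, rfl⟩
    exact hξ g)) hB
  have hpqS : ∀ g, ∀ v ∈ S, q g v ∈ S := by
    intro g v hv
    have hcv : Cvx {v : H | q g v ∈ S} := by
      intro x hx y hy a b ha hb hab
      change q g ((a : ℂ) • x + (b : ℂ) • y) ∈ S
      rw [map_add, map_smul, map_smul]
      exact cvx_hull _ _ hx _ hy a b ha hb hab
    refine hull_subset hcv ?_ hv
    rintro _ ⟨h, rfl⟩
    change q g (q h ξ) ∈ S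
    rw [← mul_ap, ← hq.mul]
    exact subset_hull _ ⟨g * h, rfl⟩
  refine ⟨ω, hSB hω, fun g => hfix (q g) (fun v _ => hq.le g v)
    (fun v hv => map_mem_closure (q g).continuous hv (hpqS g)), fun η hη => ?_⟩
  have hcl2 : IsClosed {v : H | ⟪η, v⟫_ℂ = ⟪η, q 1 ξ⟫_ℂ} :=
    isClosed_eq (by fun_prop) continuous_const
  refine closure_minimal ?_ hcl2 hω
  have hcv : Cvx {v : H | ⟪η, v⟫_ℂ = ⟪η, q 1 ξ⟫_ℂ} := by
    intro x hx y hy a b ha hb hab
    have hx' : ⟪η, x⟫_ℂ = ⟪η, q 1 ξ⟫_ℂ := hx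
    have hy' : ⟪η, y⟫_ℂ = ⟪η, q 1 ξ⟫_ℂ := hy
    change ⟪η, (a : ℂ) • x + (b : ℂ) • y⟫_ℂ = _
    rw [inner_add_right, inner_smul_right, inner_smul_right, hx', hy', ← add_mul,
      ← Complex.ofReal_add, hab, Complex.ofReal_one, _root_.one_mul]
  refine hull_subset hcv ?_
  rintro _ ⟨g, rfl⟩
  change ⟪η, q g ξ⟫_ℂ = _
  rw [← hq.rep_vec, ← adjoint_inner_left, hq.rep_adj, hη]

end Vale.Agent.P092.H051
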