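import Vale.Agent.P092.H051.Rect
import Vale.Agent.P092.H051.PRep

/-!
Matrix corners, part 1: the operators `a ⊗ conj b ⊗ c`, `Δ(a)`, the cubic isometry and the
representation.
-/

set_option linter.all false

open scoped InnerProductSpace
open Filter Topology ContinuousLinearMap

namespace Vale.Agent.P092.H051

open Vale.Agent.P092.H160 Vale.Agent.P092.H885

abbrev J3 (ι : Type) : Type := ι × ι × ι
abbrev L3 (Λ : Type) : Type := Λ × Λ × Λ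

variable {ι Γ Λ : Type} [Group Γ] [Group Λ]

def e3 (ι Λ : Type) : (ι × Λ) × (ι × Λ) × (ι × Λ) ≃ J3 ι × L3 Λ where
  toFun x := ((x.1.1, x.2.1.1, x.2.2.1), (x.1.2, x.2.1.2, x.2.2.2))
  invFun y := ((y.1.1, y.2.1), (y.1.2.1, y.2.2.1), (y.1.2.2, y.2.2.2))
  left_inv _ := rfl
  right_inv _ := rfl

noncomputable def B3 (a b c : Ell2 (ι × Λ) →L[ℂ] Ell2 (ι × Λ)) :
    Ell2 (J3 ι × L3 Λ) →L[ℂ] Ell2 (J3 ι × L3 Λ) :=
  rei (e3 ι Λ) ∘L tens a (tens (bar b) c) ∘L rei (e3 ι Λ).symm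

theorem B3_apply (a b c : Ell2 (ι × Λ) →L[ℂ] Ell2 (ι × Λ)) (v : Ell2 (J3 ι × L3 Λ)) :
    B3 a b c v = rei (e3 ι Λ) (tens a (tens (bar b) c) (rei (e3 ι Λ).symm v)) := rfl

theorem B3_mul (a b c a' b' c' : Ell2 (ι × Λ) →L[ℂ] Ell2 (ι × Λ)) :
    B3 (a * a') (b * b') (c * c') = B3 a b c * B3 a' b' c' := by
  ext1 v
  rw [mul_ap, B3_apply, B3_apply, B3_apply, rei_rei (e3 ι Λ), Equiv.self_trans_symm, rei_refl,
    bar_mul, tens_mul, tens_mul]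
  rfl

theorem B3_adj (a b c : Ell2 (ι × Λ) →L[ℂ] Ell2 (ι × Λ)) :
    adjoint (B3 a b c) = B3 (adjoint a) (adjoint b) (adjoint c) := by
  rw [B3, adjoint_comp, adjoint_comp, adjoint_rei, adjoint_rei, adjoint_tens, adjoint_tens,
    adjoint_bar, Equiv.symm_symm]
  rfl

theorem B3_dl (a b c : Ell2 (ι × Λ) →L[ℂ] Ell2 (ι × Λ)) (i j k : ι) (x y z : Λ) :
    B3 a b c (dl ((i, j, k), (x, y, z))) =
      rei (e3 ι Λ) (tv (a (dl (i, x))) (tv (cj (b (dl (j, y)))) (c (dl (k, z))))) := by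
  rw [B3_apply, rei_dl]
  change rei (e3 ι Λ) (tens a (tens (bar b) c) (dl ((i, x), (j, y), (k, z)))) = _
  rw [tens_dl, tens_dl, bar_dl]

theorem rr3 (s : L3 Λ) : rei (e3 ι Λ) ∘L
      tens (ampR ι (rho s.1)) (tens (ampR ι (rho s.2.1)) (ampR ι (rho s.2.2))) =
    ampR (J3 ι) (rho s) ∘L rei (e3 ι Λ) := by
  apply op_ext
  rintro ⟨⟨i, a⟩, ⟨j, b⟩, ⟨k, c⟩⟩
  obtain ⟨x, y, z⟩ := s
  rw [comp_apply, comp_apply, rei_dl]
  change rei (e3 ι Λ) (tens (ampR ι (rho x)) (tens (ampR ι (rho y)) (ampR ι (rho z)))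
    (dl ((i, a), (j, b), (k, c)))) = ampR (J3 ι) (rho (x, y, z)) (dl ((i, j, k), (a, b, c)))
  rw [tens_dl, tens_dl, rr_dl, rr_dl, rr_dl, rr_dl, ← dl_prod, ← dl_prod, rei_dl]
  rfl

theorem bar_Hm {a : Ell2 (ι × Λ) →L[ℂ] Ell2 (ι × Λ)} (ha : Hm a) : Hm (bar a) := by
  intro s
  have h2 := congrArg bar (ha s)
  rw [bar_comp, bar_comp, ampR_bar, bar_rho] at h2
  exact h2

theorem rr3_ap (s : L3 Λ) (u : Ell2 ((ι × Λ) × (ι × Λ) × (ι × Λ))) :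
    rei (e3 ι Λ) (tens (ampR ι (rho s.1)) (tens (ampR ι (rho s.2.1)) (ampR ι (rho s.2.2))) u) =
      ampR (J3 ι) (rho s) (rei (e3 ι Λ) u) := by
  rw [← comp_apply, ← comp_apply, rr3]

theorem rr3_symm (s : L3 Λ) (v : Ell2 (J3 ι × L3 Λ)) :
    rei (e3 ι Λ).symm (ampR (J3 ι) (rho s) v) =
      tens (ampR ι (rho s.1)) (tens (ampR ι (rho s.2.1)) (ampR ι (rho s.2.2)))
        (rei (e3 ι Λ).symm v) := by
  obtain ⟨u, rfl⟩ : ∃ u, v = rei (e3 ι Λ) u :=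
    ⟨rei (e3 ι Λ).symm v, by rw [rei_rei, Equiv.symm_trans_self, rei_refl]⟩
  rw [← rr3_ap, rei_rei (e3 ι Λ), Equiv.self_trans_symm, rei_refl, rei_rei (e3 ι Λ),
    Equiv.self_trans_symm, rei_refl]

theorem B3_Hm {a b c : Ell2 (ι × Λ) →L[ℂ] Ell2 (ι × Λ)} (ha : Hm a) (hb : Hm b) (hc : Hm c) :
    Hm (B3 a b c) := by
  intro s
  have h4 : tens a (tens (bar b) c) ∘L tens (ampR ι (rho s.1))
      (tens (ampR ι (rho s.2.1)) (ampR ι (rho s.2.2))) =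
      tens (ampR ι (rho s.1)) (tens (ampR ι (rho s.2.1)) (ampR ι (rho s.2.2))) ∘L
        tens a (tens (bar b) c) := by
    rw [tens_comp, tens_comp, tens_comp, tens_comp, ha, bar_Hm hb, hc]
  ext1 v
  rw [comp_apply, comp_apply, B3_apply, B3_apply, rr3_symm, ← rr3_ap,
    ← comp_apply (tens a (tens (bar b) c)), h4, comp_apply]

/-! ### comultiplication -/

def edm (ι Λ : Type) [Group Λ] : ι × L3 Λ ≃ (Λ × Λ) × (ι × Λ) where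
  toFun x := ((x.2.1⁻¹ * x.2.2.1, x.2.1⁻¹ * x.2.2.2), (x.1, x.2.1))
  invFun y := (y.2.1, (y.2.2, y.2.2 * y.1.1, y.2.2 * y.1.2))
  left_inv x := by simp
  right_inv y := by simp

noncomputable def Dm (a : Ell2 (ι × Λ) →L[ℂ] Ell2 (ι × Λ)) :
    Ell2 (ι × L3 Λ) →L[ℂ] Ell2 (ι × L3 Λ) :=
  rei (edm ι Λ).symm ∘L ampR (Λ × Λ) a ∘L rei (edm ι Λ)

theorem Dm_apply (a : Ell2 (ι × Λ) →L[ℂ] Ell2 (ι × Λ)) (v : Ell2 (ι × L3 Λ)) :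
    Dm a v = rei (edm ι Λ).symm (ampR (Λ × Λ) a (rei (edm ι Λ) v)) := rfl

theorem Dm_add (a b : Ell2 (ι × Λ) →L[ℂ] Ell2 (ι × Λ)) : Dm (a + b) = Dm a + Dm b := by
  ext1 v
  rw [add_apply, Dm_apply, Dm_apply, Dm_apply, ampR_add, add_apply, map_add]

theorem Dm_smul (c : ℂ) (a : Ell2 (ι × Λ) →L[ℂ] Ell2 (ι × Λ)) : Dm (c • a) = c • Dm a := by
  ext1 v
  rw [smul_apply, Dm_apply, Dm_apply, ampR_smul, smul_apply, map_smul]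

theorem Dm_mul (a b : Ell2 (ι × Λ) →L[ℂ] Ell2 (ι × Λ)) : Dm (a * b) = Dm a * Dm b := by
  ext1 v
  rw [mul_ap, Dm_apply, Dm_apply, Dm_apply, rei_rei (edm ι Λ).symm, Equiv.symm_trans_self,
    rei_refl, ampR_mul]
  rfl

theorem Dm_adj (a : Ell2 (ι × Λ) →L[ℂ] Ell2 (ι × Λ)) : adjoint (Dm a) = Dm (adjoint a) := by
  rw [Dm, adjoint_comp, adjoint_comp, adjoint_rei, adjoint_rei, ampR_adj, Equiv.symm_symm]
  rfl

theorem rrd (s : L3 Λ) : rei (edm ι Λ).symm ∘L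
      tens (rei (mxd s)) (ampR ι (rho s.1)) =
    ampR ι (rho s) ∘L rei (edm ι Λ).symm := by
  apply op_ext
  rintro ⟨⟨a, b⟩, ⟨i, c⟩⟩
  obtain ⟨x, y, z⟩ := s
  rw [comp_apply, comp_apply, rei_dl, tens_dl, rei_dl]
  change rei (edm ι Λ).symm (tv (dl (mxd (x, y, z) (a, b))) (ampR ι (rho x) (dl (i, c)))) =
    ampR ι (rho (x, y, z)) (dl (i, (c, c * a, c * b)))
  rw [rr_dl, rr_dl, ← dl_prod, rei_dl]
  congr 1
  change (i, (c * x⁻¹, c * x⁻¹ * (x * a * y⁻¹), c * x⁻¹ * (x * b * z⁻¹))) =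
    (i, (c * x⁻¹, c * a * y⁻¹, c * b * z⁻¹))
  simp [mul_assoc]

theorem rrd_ap (s : L3 Λ) (u : Ell2 ((Λ × Λ) × (ι × Λ))) :
    rei (edm ι Λ).symm (tens (rei (mxd s)) (ampR ι (rho s.1)) u) =
      ampR ι (rho s) (rei (edm ι Λ).symm u) := by
  rw [← comp_apply, ← comp_apply, rrd]

theorem rrd_symm (s : L3 Λ) (v : Ell2 (ι × L3 Λ)) :
    rei (edm ι Λ) (ampR ι (rho s) v) =
      tens (rei (mxd s)) (ampR ι (rho s.1)) (rei (edm ι Λ) v) := by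
  obtain ⟨u, rfl⟩ : ∃ u, v = rei (edm ι Λ).symm u :=
    ⟨rei (edm ι Λ) v, by rw [rei_rei, Equiv.self_trans_symm, rei_refl]⟩
  rw [← rrd_ap, rei_rei (edm ι Λ).symm, Equiv.symm_trans_self, rei_refl, rei_rei (edm ι Λ).symm,
    Equiv.symm_trans_self, rei_refl]

theorem Dm_Hm {a : Ell2 (ι × Λ) →L[ℂ] Ell2 (ι × Λ)} (ha : Hm a) : Hm (Dm a) := by
  intro s
  have h4 : ampR (Λ × Λ) a ∘L tens (rei (mxd s)) (ampR ι (rho s.1)) =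
      tens (rei (mxd s)) (ampR ι (rho s.1)) ∘L ampR (Λ × Λ) a := by
    rw [← tens_one_left, tens_comp, tens_comp, ha]
    rfl
  ext1 v
  rw [comp_apply, comp_apply, Dm_apply, Dm_apply, rrd_symm, ← rrd_ap,
    ← comp_apply (ampR (Λ × Λ) a), h4, comp_apply]

/-- the diagonal embedding of vectors -/
noncomputable def Em (ι Λ : Type) [Group Λ] : Ell2 (ι × Λ) →L[ℂ] Ell2 (ι × L3 Λ) :=
  rei (edm ι Λ).symm ∘L tvr (dl ((1 : Λ), (1 : Λ)))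

theorem Em_dl (i : ι) (s : Λ) : Em ι Λ (dl (i, s)) = dl (i, (s, s, s)) := by
  rw [Em, comp_apply, tvr_apply, ← dl_prod, rei_dl]
  change dl (i, (s, s * 1, s * 1)) = _
  rw [mul_one]

theorem Dm_dl (a : Ell2 (ι × Λ) →L[ℂ] Ell2 (ι × Λ)) (i : ι) :
    Dm a (dl (i, 1)) = Em ι Λ (a (dl (i, 1))) := by
  have h1 : rei (edm ι Λ) (dl (i, (1 : L3 Λ))) = tv (dl (1, 1)) (dl (i, 1)) := by
    rw [rei_dl, ← dl_prod]
    change dl (((1 : Λ)⁻¹ * 1, (1 : Λ)⁻¹ * 1), (i, (1 : Λ))) = _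
    rw [inv_one, mul_one]
  rw [Dm_apply, h1, ampR_tv]
  rfl

theorem Em_inner (u v : Ell2 (ι × Λ)) : ⟪Em ι Λ u, Em ι Λ v⟫_ℂ = ⟪u, v⟫_ℂ := by
  rw [Em, comp_apply, comp_apply, inner_rei, tvr_apply, tvr_apply, inner_tv,
    inner_self_eq_norm_sq_to_K, norm_dl]
  simp

/-! ### the cubic isometry -/

theorem orthm : Orthonormal ℂ
    (fun q : ι × L3 Λ => (dl ((q.1, q.1, q.1), q.2) : Ell2 (J3 ι × L3 Λ))) := by
  refine ⟨fun s => norm_dl _, fun s t hne => ?_⟩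
  change ⟪(dl ((s.1, s.1, s.1), s.2) : Ell2 (J3 ι × L3 Λ)), dl ((t.1, t.1, t.1), t.2)⟫_ℂ = 0
  rw [inner_dl, dl_ne]
  intro h
  exact hne (Prod.ext_iff.mpr ⟨congrArg (fun z => z.1.1) h, congrArg (fun z => z.2) h⟩)

noncomputable def T0m (ι Λ : Type) [Group Λ] : Ell2 (ι × L3 Λ) →L[ℂ] Ell2 (J3 ι × L3 Λ) :=
  opOf (bes_of_orthonormal (orthm (ι := ι) (Λ := Λ)))

theorem T0m_dl (i : ι) (s : L3 Λ) : T0m ι Λ (dl (i, s)) = dl ((i, i, i), s) := opOf_dl _ _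

theorem T0m_norm (v : Ell2 (ι × L3 Λ)) : ‖T0m ι Λ v‖ = ‖v‖ :=
  norm_of_adj_comp (opOf_isometry orthm) v

theorem T0m_Hm : Hm (T0m ι Λ) := by
  intro s
  apply op_ext
  rintro ⟨i, x⟩
  rw [comp_apply, comp_apply, rr_dl, T0m_dl, T0m_dl, rr_dl]

/-! ### homomorphisms into a corner -/

structure CFm (α : Γ → (Ell2 (ι × Λ) →L[ℂ] Ell2 (ι × Λ))) : Prop where
  mul : ∀ g h, α (g * h) = α g * α h
  adj : ∀ g, adjoint (α g) = α g⁻¹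
  hm : ∀ g, Hm (α g)

variable {α : Γ → (Ell2 (ι × Λ) →L[ℂ] Ell2 (ι × Λ))}

theorem CFm.inv_mul (hα : CFm α) (g : Γ) : α g⁻¹ * α g = α 1 := by
  rw [← hα.mul, inv_mul_cancel]
theorem CFm.mul_inv (hα : CFm α) (g : Γ) : α g * α g⁻¹ = α 1 := by
  rw [← hα.mul, mul_inv_cancel]
theorem CFm.one_mul (hα : CFm α) (g : Γ) : α 1 * α g = α g := by
  rw [← hα.mul, _root_.one_mul]
theorem CFm.mul_one (hα : CFm α) (g : Γ) : α g * α 1 = α g := by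
  rw [← hα.mul, _root_.mul_one]
theorem CFm.one_adj (hα : CFm α) : adjoint (α 1) = α 1 := by
  rw [hα.adj, inv_one]

/-- `α(g) ⊗ conj α(g) ⊗ α(g)` -/
noncomputable def Am (α : Γ → (Ell2 (ι × Λ) →L[ℂ] Ell2 (ι × Λ))) (g : Γ) :
    Ell2 (J3 ι × L3 Λ) →L[ℂ] Ell2 (J3 ι × L3 Λ) := B3 (α g) (α g) (α g)

theorem Am_rep (hα : CFm α) : PRep (Am α) where
  mul g h := by rw [Am, Am, Am, ← B3_mul, hα.mul]
  adj g := by rw [Am, Am, B3_adj, hα.adj]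

theorem Dm_rep (hα : CFm α) : PRep (fun g => Dm (α g)) where
  mul g h := by rw [← Dm_mul, hα.mul]
  adj g := by rw [Dm_adj, hα.adj]

theorem Am_Hm (hα : CFm α) (g : Γ) : Hm (Am α g) := B3_Hm (hα.hm g) (hα.hm g) (hα.hm g)

noncomputable def Pq (α : Γ → (Ell2 (ι × Λ) →L[ℂ] Ell2 (ι × Λ))) (g : Γ) :
    Ell2 (ι × (J3 ι × L3 Λ)) →L[ℂ] Ell2 (ι × (J3 ι × L3 Λ)) :=
  ampR ι (Am α g) * Rt (J3 ι) (Dm (α g))

theorem Pq_comm (hα : CFm α) (g h : Γ) : ampR ι (Am α g) * Rt (J3 ι) (Dm (α h)) =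
    Rt (J3 ι) (Dm (α h)) * ampR ι (Am α g) := by
  ext1 v
  exact LB_comm (Am_Hm hα g) (Rb_lam (Dm_Hm (hα.hm h))) v

theorem Pq_rep (hα : CFm α) : PRep (Pq α) where
  mul g h := by
    calc Pq α (g * h) = ampR ι (Am α g) * ampR ι (Am α h) *
          (Rt (J3 ι) (Dm (α g)) * Rt (J3 ι) (Dm (α h))) := by
          rw [Pq, (Am_rep hα).mul, hα.mul, ampR_mul, Dm_mul, Rt_mul]
      _ = ampR ι (Am α g) * (ampR ι (Am α h) * Rt (J3 ι) (Dm (α g))) *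
          Rt (J3 ι) (Dm (α h)) := by simp only [mul_assoc]
      _ = ampR ι (Am α g) * (Rt (J3 ι) (Dm (α g)) * ampR ι (Am α h)) *
          Rt (J3 ι) (Dm (α h)) := by rw [Pq_comm hα]
      _ = _ := by rw [Pq, Pq]; simp only [mul_assoc]
  adj g := by
    rw [Pq, ← star_eq_adjoint, star_mul, star_eq_adjoint, star_eq_adjoint, ampR_adj, Rt_adj,
      Dm_adj, (Am_rep hα).adj, hα.adj, ← Pq_comm hα]
    rfl

variable [Fintype ι]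

theorem Pq_hv (hα : CFm α) (g : Γ) {T : Ell2 (ι × L3 Λ) →L[ℂ] Ell2 (J3 ι × L3 Λ)} (hT : Hm T) :
    Pq α g (hv T) = hv (Am α g ∘L T ∘L Dm (α g⁻¹)) := by
  rw [Pq, mul_ap, Rt_hv (Dm_Hm (hα.hm g)) hT, ← hv_comp, Dm_adj, hα.adj]

theorem orbit_BVm (hα : CFm α) (g : Γ) : Pq α g (hv (T0m ι Λ)) ∈ BVm ι (J3 ι) (L3 Λ) := by
  rw [Pq_hv hα g T0m_Hm]
  refine ⟨_, ?_, (Am_Hm hα g).comp (T0m_Hm.comp (Dm_Hm (hα.hm g⁻¹))), rfl⟩
  refine opNorm_le_bound _ zero_le_one fun v => ?_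
  rw [_root_.one_mul]
  change ‖Am α g (T0m ι Λ (Dm (α g⁻¹) v))‖ ≤ _
  refine ((Am_rep hα).le g _).trans ?_
  rw [T0m_norm]
  exact (Dm_rep hα).le g⁻¹ v

/-- The minimal intertwiner. -/
theorem exists_minM (hα : CFm α) : ∃ T : Ell2 (ι × L3 Λ) →L[ℂ] Ell2 (J3 ι × L3 Λ),
    Hm T ∧ T ∘L Dm (α 1) = T ∧ (∀ g, Am α g ∘L T = T ∘L Dm (α g)) ∧
    ∀ η, (∀ g, (Pq_rep hα).rep g η = η) → ⟪η, hv T⟫_ℂ = ⟪η, Pq α 1 (hv (T0m ι Λ))⟫_ℂ := by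
  obtain ⟨ω, ⟨T, -, hTm, hTω⟩, hfix, hη⟩ :=
    (Pq_rep hα).exists_min BVm_closed BVm_cvx (fun g => orbit_BVm hα g)
  have key : ∀ g, Am α g ∘L T ∘L Dm (α g⁻¹) = T := by
    intro g
    refine hv_ext ((Am_Hm hα g).comp (hTm.comp (Dm_Hm (hα.hm g⁻¹)))) hTm ?_
    rw [← Pq_hv hα g hTm, hTω, hfix]
  have hDD : ∀ g h, Dm (α g) ∘L Dm (α h) = Dm (α (g * h)) := fun g h => by
    rw [hα.mul, Dm_mul]; rfl
  have h1 : T ∘L Dm (α 1) = T := by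
    conv_lhs => rw [← key 1]
    have := key 1
    rw [inv_one] at this ⊢
    rw [ContinuousLinearMap.comp_assoc, ContinuousLinearMap.comp_assoc, hDD, _root_.one_mul]
    exact this
  refine ⟨T, hTm, h1, fun g => ?_, fun η h => ?_⟩
  · calc Am α g ∘L T = Am α g ∘L (T ∘L Dm (α 1)) := by rw [h1]
      _ = Am α g ∘L (T ∘L (Dm (α g⁻¹) ∘L Dm (α g))) := by rw [hDD, inv_mul_cancel]
      _ = (Am α g ∘L T ∘L Dm (α g⁻¹)) ∘L Dm (α g) := by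
          simp only [ContinuousLinearMap.comp_assoc]
      _ = _ := by rw [key]
  · rw [hTω]; exact hη η h

/-- The coefficient is the fourth power sum. -/
theorem coeff_m (hα : CFm α) (g : Γ) :
    ⟪hv (T0m ι Λ), Pq α g (hv (T0m ι Λ))⟫_ℂ =
      ((∑ i, ∑' x, ‖(α g⁻¹ (dl (i, 1)) : Ell2 (ι × Λ)) x‖ ^ 4 : ℝ) : ℂ) := by
  rw [Pq_hv hα g T0m_Hm, hv_inner, Complex.ofReal_sum]
  refine Finset.sum_congr rfl fun i _ => ?_
  change ⟪T0m ι Λ (dl (i, 1)), Am α g (T0m ι Λ (Dm (α g⁻¹) (dl (i, 1))))⟫_ℂ = _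
  rw [T0m_dl, ← adjoint_inner_left, (Am_rep hα).adj, Dm_dl]
  set v := α g⁻¹ (dl (i, 1)) with hv'
  have e1 : Am α g⁻¹ (dl ((i, i, i), (1 : L3 Λ))) = rei (e3 ι Λ) (tv v (tv (cj v) v)) :=
    B3_dl _ _ _ i i i 1 1 1
  rw [e1]
  set V := T0m ι Λ ∘L Em ι Λ with hV
  have hVdl : ∀ j s, V (dl (j, s)) = dl ((j, j, j), (s, s, s)) := fun j s => by
    rw [hV, comp_apply, Em_dl, T0m_dl]
  have e2 : ∀ w : Ell2 (J3 ι × L3 Λ), ∀ x : ι × Λ,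
      (adjoint V w : Ell2 (ι × Λ)) x = w ((x.1, x.1, x.1), (x.2, x.2, x.2)) := by
    rintro w ⟨j, s⟩
    rw [← inner_dl, adjoint_inner_right, hVdl, inner_dl]
  have e3' : ⟪rei (e3 ι Λ) (tv v (tv (cj v) v)), V v⟫_ℂ =
      ((∑' x, ‖(v : Ell2 (ι × Λ)) x‖ ^ 4 : ℝ) : ℂ) := by
    rw [← adjoint_inner_left, inner_eq, Complex.ofReal_tsum]
    congr 1
    funext x
    rw [e2]
    change v x * (starRingEnd ℂ) (v x * ((starRingEnd ℂ) (v x) * v x)) = _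
    set z := (v : Ell2 (ι × Λ)) x
    rw [map_mul, map_mul, Complex.conj_conj]
    have h2 : z * (starRingEnd ℂ) z = ((‖z‖ ^ 2 : ℝ) : ℂ) := by
      rw [Complex.mul_conj, Complex.normSq_eq_norm_sq]
    calc z * ((starRingEnd ℂ) z * (z * (starRingEnd ℂ) z))
        = (z * (starRingEnd ℂ) z) * (z * (starRingEnd ℂ) z) := by ring
      _ = ((‖z‖ ^ 4 : ℝ) : ℂ) := by
        rw [h2, ← Complex.ofReal_mul]; congr 1; ring
  exact e3'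

end Vale.Agent.P092.H051
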