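import Vale.Agent.P092.H051.Ops

/-!
Corners, part 2: the invariant vector of minimal norm in the closed convex hull of the orbit is the
value at `δ_1` of a contraction in `L(Λ³)`.
-/

set_option linter.all false

open scoped InnerProductSpace
open Filter Topology ContinuousLinearMap

namespace Vale.Agent.P092.H051

open Vale.Agent.P092.H160 Vale.Agent.P092.H885

variable {Γ Λ : Type} [Group Γ] [Group Λ]

/-- the values at `δ_1` of contractions commuting with the right translations -/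
def BV (G : Type) [Group G] : Set (Ell2 G) :=
  {v | ∃ T : Ell2 G →L[ℂ] Ell2 G, ‖T‖ ≤ 1 ∧ Cmm rhoH T ∧ T (dl 1) = v}

theorem BV_cvx (G : Type) [Group G] : Cvx (BV G) := by
  rintro _ ⟨T, hT1, hTc, rfl⟩ _ ⟨S, hS1, hSc, rfl⟩ x y hx hy hxy
  refine ⟨(x : ℂ) • T + (y : ℂ) • S, ?_, (hTc.smul _).add (hSc.smul _), rfl⟩
  calc ‖(x : ℂ) • T + (y : ℂ) • S‖ ≤ ‖(x : ℂ) • T‖ + ‖(y : ℂ) • S‖ := norm_add_le _ _
    _ = x * ‖T‖ + y * ‖S‖ := by
        rw [norm_smul, norm_smul, Complex.norm_real, Complex.norm_real, Real.norm_of_nonneg hx,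
          Real.norm_of_nonneg hy]
    _ ≤ x * 1 + y * 1 := by gcongr
    _ = 1 := by linarith

theorem BV_closed (G : Type) [Group G] : IsClosed (BV G) := by
  refine isClosed_of_closure_subset fun ω hω => ?_
  rw [mem_closure_iff_seq_limit] at hω
  obtain ⟨x, hx, hlim⟩ := hω
  choose T hT1 hTc hTx using hx
  have hTs : ∀ s n, T n (dl s) = rho s⁻¹ (x n) := fun s n => by
    rw [dl_eq_rho]
    have := (hTc n).apply s⁻¹ (dl 1)
    rw [rhoH_apply] at this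
    rw [this, hTx]
  have hlims : ∀ s, Tendsto (fun n => T n (dl s)) atTop (𝓝 (rho s⁻¹ ω)) := by
    intro s
    simp only [hTs]
    exact ((rho s⁻¹).continuous.tendsto ω).comp hlim
  have hb : Bes 1 (fun s : G => rho s⁻¹ ω) := by
    intro s v
    have h1 : Tendsto (fun n => ∑ t ∈ s, ‖⟪T n (dl t), v⟫_ℂ‖ ^ 2) atTop
        (𝓝 (∑ t ∈ s, ‖⟪rho t⁻¹ ω, v⟫_ℂ‖ ^ 2)) :=
      tendsto_finsetSum s fun t _ => (((hlims t).inner tendsto_const_nhds).norm).pow 2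
    refine le_of_tendsto h1 (Eventually.of_forall fun n => ?_)
    exact ((bes_of_op (T n)).mono (norm_nonneg _) (hT1 n)) s v
  have hdl : ∀ s, opOf hb (dl s) = rho s⁻¹ ω := fun s => opOf_dl hb s
  refine ⟨opOf hb, ?_, fun s => ?_, ?_⟩
  · simpa using norm_opOf_le hb
  · apply op_ext
    intro t
    rw [mul_ap, mul_ap, rhoH_apply, rho_dl, hdl, hdl, mul_inv_rev, inv_inv, rho_mul]
    rfl
  · rw [hdl, inv_one, rho_one]; rfl

theorem Cvx.real {F : Type} [NormedAddCommGroup F] [NormedSpace ℂ F] {K : Set F} (h : Cvx K) :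
    Convex ℝ K := by
  intro x hx y hy a b ha hb hab
  have := h x hx y hy a b ha hb hab
  simpa only [Complex.coe_smul] using this

/-- partial isometries are contractions -/
theorem norm_le_of_pi {H : Type} [NormedAddCommGroup H] [InnerProductSpace ℂ H]
    [CompleteSpace H] {U q : H →L[ℂ] H} (h1 : adjoint U * U = q) (h2 : q * q = q)
    (h3 : adjoint q = q) (v : H) : ‖U v‖ ≤ ‖v‖ := by
  have e1 : ⟪U v, U v⟫_ℂ = ⟪q v, q v⟫_ℂ := by
    rw [← adjoint_inner_right, ← mul_ap, h1]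
    conv_lhs => rw [← h2]
    rw [mul_ap, ← adjoint_inner_left, h3]
  have e2 : ‖U v‖ = ‖q v‖ := by
    rw [inner_self_eq_norm_sq_to_K, inner_self_eq_norm_sq_to_K] at e1
    have h3 : ‖U v‖ ^ 2 = ‖q v‖ ^ 2 := by exact_mod_cast e1
    exact (pow_left_inj₀ (norm_nonneg _) (norm_nonneg _) two_ne_zero).mp h3
  rw [e2]
  have e3 : ⟪q v, q v⟫_ℂ = ⟪v, q v⟫_ℂ := by
    rw [← adjoint_inner_right, ← mul_ap, h3, h2]
  have e4 : ‖q v‖ ^ 2 ≤ ‖v‖ * ‖q v‖ := by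
    have h4 : ‖⟪q v, q v⟫_ℂ‖ = ‖q v‖ ^ 2 := by
      rw [inner_self_eq_norm_sq_to_K]
      simp
    rw [← h4, e3]
    exact norm_inner_le_norm _ _
  by_cases h0 : ‖q v‖ = 0
  · rw [h0]; exact norm_nonneg _
  · have h5 : 0 < ‖q v‖ := lt_of_le_of_ne (norm_nonneg _) (Ne.symm h0)
    nlinarith

variable {α : Γ → (Ell2 Λ →L[ℂ] Ell2 Λ)}

theorem CF.inv_mul (hα : CF α) (g : Γ) : α g⁻¹ * α g = α 1 := by
  rw [← hα.mul, inv_mul_cancel]

theorem CF.mul_inv (hα : CF α) (g : Γ) : α g * α g⁻¹ = α 1 := by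
  rw [← hα.mul, mul_inv_cancel]

theorem CF.one_mul (hα : CF α) (g : Γ) : α 1 * α g = α g := by
  rw [← hα.mul, _root_.one_mul]

theorem CF.mul_one (hα : CF α) (g : Γ) : α g * α 1 = α g := by
  rw [← hα.mul, _root_.mul_one]

theorem CF.one_adj (hα : CF α) : adjoint (α 1) = α 1 := by
  rw [hα.adj, inv_one]

/-- The orbit of `δ_1` consists of bounded vectors. -/
theorem orbit_BV (hα : CF α) (g : Γ) : pq α g (dl 1) ∈ BV (Λ × Λ × Λ) := by
  refine ⟨A3o (α g) * Do (α g⁻¹), ?_, (A3o_cmm (hα.cmm g)).mul (Do_cmm (hα.cmm g⁻¹)), ?_⟩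
  · refine opNorm_le_bound _ zero_le_one fun v => ?_
    rw [_root_.one_mul, mul_ap]
    have h1 : ‖A3o (α g) (Do (α g⁻¹) v)‖ ≤ ‖Do (α g⁻¹) v‖ := by
      refine norm_le_of_pi (q := A3o (α 1)) ?_ ?_ ?_ _
      · rw [A3o_adj, hα.adj, ← A3o_mul, hα.inv_mul]
      · rw [← A3o_mul, hα.one_mul]
      · rw [A3o_adj, hα.one_adj]
    have h2 : ‖Do (α g⁻¹) v‖ ≤ ‖v‖ := by
      refine norm_le_of_pi (q := Do (α 1)) ?_ ?_ ?_ _
      · rw [Do_adj, hα.adj, ← Do_mul, inv_inv, hα.mul_inv]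
      · rw [← Do_mul, hα.one_mul]
      · rw [Do_adj, hα.one_adj]
    exact h1.trans h2
  · rw [mul_ap, Do_dl, pq_dl hα]

/-- The minimal vector. -/
theorem exists_minC (hα : CF α) : ∃ T : Ell2 (Λ × Λ × Λ) →L[ℂ] Ell2 (Λ × Λ × Λ),
    Cmm rhoH T ∧ (∀ g, A3o (α g) * T = T * Do (α g)) ∧ T * Do (α 1) = T ∧
    ∀ η : Ell2 (Λ × Λ × Λ), (∀ g, ph hα g η = η) → ⟪η, T (dl 1)⟫_ℂ = ⟪η, x0 α⟫_ℂ := by
  set S : Set (Ell2 (Λ × Λ × Λ)) := hull (Set.range fun g => pq α g (dl 1)) with hS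
  have hcl : Cvx (closure S) := (cvx_hull _).closure
  obtain ⟨ω, hω, hfix⟩ := Vale.Agent.P092.H108.exists_min_fixed
    (K := closure S) ⟨_, subset_closure (subset_hull _ ⟨1, rfl⟩)⟩ isClosed_closure (Cvx.real hcl)
  have hSB : closure S ⊆ BV (Λ × Λ × Λ) := closure_minimal (hull_subset (BV_cvx _) (by
    rintro _ ⟨g, rfl⟩
    exact orbit_BV hα g)) (BV_closed _)
  obtain ⟨T, hT1, hTc, hTω⟩ := hSB hω
  have hpqle : ∀ g v, ‖pq α g v‖ ≤ ‖v‖ := by
    intro g v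
    refine norm_le_of_pi (q := pq α 1) ?_ ?_ ?_ v
    · rw [pq_adj hα, ← pq_mul hα, inv_mul_cancel]
    · rw [← pq_mul hα, _root_.one_mul]
    · rw [pq_adj hα, inv_one]
  have hpqS : ∀ g, ∀ v ∈ S, pq α g v ∈ S := by
    intro g v hv
    have hcv : Cvx {v : Ell2 (Λ × Λ × Λ) | pq α g v ∈ S} := by
      intro x hx y hy a b ha hb hab
      change pq α g ((a : ℂ) • x + (b : ℂ) • y) ∈ S
      rw [map_add, map_smul, map_smul]
      exact cvx_hull _ _ hx _ hy a b ha hb hab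
    refine hull_subset hcv ?_ hv
    rintro _ ⟨h, rfl⟩
    change pq α g (pq α h (dl 1)) ∈ S
    rw [← mul_ap, ← pq_mul hα]
    exact subset_hull _ ⟨g * h, rfl⟩
  have hfix' : ∀ g, pq α g ω = ω := fun g => hfix (pq α g) (fun v _ => hpqle g v)
    (fun v hv => map_mem_closure (pq α g).continuous hv (hpqS g))
  -- `A3o (α g) T Do (α g)* = T`
  have key : ∀ g, A3o (α g) * T * Do (α g⁻¹) = T := by
    intro g
    refine regRep_rho.ext_cmm (((A3o_cmm (hα.cmm g)).mul hTc).mul (Do_cmm (hα.cmm g⁻¹))) hTc ?_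
    have h1 := comm_LR hTc (Ro_lam (hα.cmm g))
    have h2 : Ro (α g) (T (dl 1)) = T (Do (α g⁻¹) (dl 1)) := by
      rw [← hα.adj, ← Ro_dl (hα.cmm g), ← mul_ap, ← mul_ap, h1]
    have h3 := hfix' g
    rw [← hTω, pq, mul_ap, h2] at h3
    exact h3
  have h1 : T * Do (α 1) = T := by
    conv_lhs => rw [← key 1]
    rw [inv_one, mul_assoc, ← Do_mul, hα.one_mul]
    have := key 1
    rw [inv_one] at this
    exact this
  refine ⟨T, hTc, fun g => ?_, h1, fun η hη => ?_⟩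
  · calc A3o (α g) * T = A3o (α g) * (T * Do (α 1)) := by rw [h1]
      _ = A3o (α g) * (T * (Do (α g⁻¹) * Do (α g))) := by rw [← Do_mul, hα.inv_mul]
      _ = (A3o (α g) * T * Do (α g⁻¹)) * Do (α g) := by simp only [mul_assoc]
      _ = _ := by rw [key]
  · have hcl2 : IsClosed {v : Ell2 (Λ × Λ × Λ) | ⟪η, v⟫_ℂ = ⟪η, x0 α⟫_ℂ} :=
      isClosed_eq (by fun_prop) continuous_const
    rw [hTω]
    refine closure_minimal ?_ hcl2 hω
    have hcv : Cvx {v : Ell2 (Λ × Λ × Λ) | ⟪η, v⟫_ℂ = ⟪η, x0 α⟫_ℂ} := by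
      intro x hx y hy a b ha hb hab
      have hx' : ⟪η, x⟫_ℂ = ⟪η, x0 α⟫_ℂ := hx
      have hy' : ⟪η, y⟫_ℂ = ⟪η, x0 α⟫_ℂ := hy
      change ⟪η, (a : ℂ) • x + (b : ℂ) • y⟫_ℂ = _
      rw [inner_add_right, inner_smul_right, inner_smul_right, hx', hy', ← add_mul,
        ← Complex.ofReal_add, hab, Complex.ofReal_one, _root_.one_mul]
    refine hull_subset hcv ?_
    rintro _ ⟨g, rfl⟩
    change ⟪η, pq α g (dl 1)⟫_ℂ = _
    rw [← ph_x0 hα, ← adjoint_inner_left, ph_adj hα, hη]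

end Vale.Agent.P092.H051
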