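import Vale.Agent.P092.H885.Final

/-!
Corners, part 1: the operators `a ⊗ conj a ⊗ a`, the diagonal comultiplication `Δ(a)` and the
right multiplication by `Δ(a)*` on `ℓ²(Λ³)`, and the unitary representation attached to a
homomorphism from `Γ` into the unitary group of a corner `pL(Λ)p`.
-/

set_option linter.all false

open scoped InnerProductSpace
open Filter Topology ContinuousLinearMap

namespace Vale.Agent.P092.H051

open Vale.Agent.P092.H160 Vale.Agent.P092.H885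

variable {Γ Λ : Type} [Group Γ] [Group Λ]

/-! ### `a ⊗ conj a ⊗ a` -/

noncomputable def A3o (a : Ell2 Λ →L[ℂ] Ell2 Λ) :
    Ell2 (Λ × Λ × Λ) →L[ℂ] Ell2 (Λ × Λ × Λ) := tens a (tens (bar a) a)

theorem A3o_mul (a b : Ell2 Λ →L[ℂ] Ell2 Λ) : A3o (a * b) = A3o a * A3o b := by
  rw [A3o, A3o, A3o, bar_mul, tens_mul, tens_mul]

theorem A3o_adj (a : Ell2 Λ →L[ℂ] Ell2 Λ) : adjoint (A3o a) = A3o (adjoint a) := by
  rw [A3o, adjoint_tens, adjoint_tens, adjoint_bar]; rfl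

theorem bar_cmm {a : Ell2 Λ →L[ℂ] Ell2 Λ} (ha : Cmm rhoH a) : Cmm rhoH (bar a) := by
  intro s
  have h := ha s
  rw [rhoH_apply] at h ⊢
  rw [← bar_rho s, ← bar_mul, ← bar_mul, h]

theorem A3o_cmm {a : Ell2 Λ →L[ℂ] Ell2 Λ} (ha : Cmm rhoH a) : Cmm rhoH (A3o a) := by
  rintro ⟨x, y, z⟩
  have h1 := ha x
  have h2 := bar_cmm ha y
  have h3 := ha z
  rw [rhoH_apply] at h1 h2 h3 ⊢
  rw [A3o, ← tens_rho, ← tens_rho, ← tens_mul, ← tens_mul, ← tens_mul, ← tens_mul, h1, h2, h3]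

theorem A3o_dl (a : Ell2 Λ →L[ℂ] Ell2 Λ) :
    A3o a (dl 1) = tv (a (dl 1)) (tv (cj (a (dl 1))) (a (dl 1))) := by
  have h : (dl (1 : Λ × Λ × Λ) : Ell2 (Λ × Λ × Λ)) = dl ((1 : Λ), ((1 : Λ), (1 : Λ))) := rfl
  rw [h, A3o, tens_dl, tens_dl, bar_dl]

/-! ### the comultiplication -/

/-- coordinates adapted to the diagonal left translations -/
def ed (Λ : Type) [Group Λ] : Λ × Λ × Λ ≃ (Λ × Λ) × Λ where
  toFun x := ((x.1⁻¹ * x.2.1, x.1⁻¹ * x.2.2), x.1)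
  invFun y := (y.2, y.2 * y.1.1, y.2 * y.1.2)
  left_inv x := by simp
  right_inv y := by simp

theorem ampR_add {X Y Z : Type} (S T : Ell2 Y →L[ℂ] Ell2 Z) :
    ampR X (S + T) = ampR X S + ampR X T := by
  ext1 f
  apply ext_inner_dl
  rintro ⟨x, z⟩
  rfl

theorem ampR_smul {X Y Z : Type} (c : ℂ) (S : Ell2 Y →L[ℂ] Ell2 Z) :
    ampR X (c • S) = c • ampR X S := by
  ext1 f
  apply ext_inner_dl
  rintro ⟨x, z⟩
  rfl

theorem tens_one_left {X Y Z : Type} (S : Ell2 Y →L[ℂ] Ell2 Z) :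
    tens (1 : Ell2 X →L[ℂ] Ell2 X) S = ampR X S := by
  apply op_ext
  rintro ⟨x, y⟩
  rw [tens_dl, dl_prod, ampR_tv]
  rfl

/-- `Δ(a)`. -/
noncomputable def Do (a : Ell2 Λ →L[ℂ] Ell2 Λ) :
    Ell2 (Λ × Λ × Λ) →L[ℂ] Ell2 (Λ × Λ × Λ) :=
  rei (ed Λ).symm ∘L tens 1 a ∘L rei (ed Λ)

theorem Do_apply (a : Ell2 Λ →L[ℂ] Ell2 Λ) (v : Ell2 (Λ × Λ × Λ)) :
    Do a v = rei (ed Λ).symm (tens 1 a (rei (ed Λ) v)) := rfl

theorem Do_add (a b : Ell2 Λ →L[ℂ] Ell2 Λ) : Do (a + b) = Do a + Do b := by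
  ext1 v
  rw [add_apply, Do_apply, Do_apply, Do_apply, tens_one_left, tens_one_left, tens_one_left,
    ampR_add, add_apply, map_add]

theorem Do_smul (c : ℂ) (a : Ell2 Λ →L[ℂ] Ell2 Λ) : Do (c • a) = c • Do a := by
  ext1 v
  rw [smul_apply, Do_apply, Do_apply, tens_one_left, tens_one_left,
    ampR_smul, smul_apply, map_smul]

theorem Do_mul (a b : Ell2 Λ →L[ℂ] Ell2 Λ) : Do (a * b) = Do a * Do b := by
  have h0 := tens_mul (1 : Ell2 (Λ × Λ) →L[ℂ] Ell2 (Λ × Λ)) 1 b a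
  rw [mul_one] at h0
  ext1 v
  rw [mul_ap, Do_apply, Do_apply, Do_apply, rei_rei (ed Λ).symm, Equiv.symm_trans_self, rei_refl,
    h0]
  rfl

theorem Do_one : Do (1 : Ell2 Λ →L[ℂ] Ell2 Λ) = 1 := by
  ext1 v
  rw [Do_apply, tens_one]
  change rei (ed Λ).symm (rei (ed Λ) v) = v
  rw [rei_rei, Equiv.self_trans_symm, rei_refl]

theorem Do_adj (a : Ell2 Λ →L[ℂ] Ell2 Λ) : adjoint (Do a) = Do (adjoint a) := by
  change adjoint (rei (ed Λ).symm ∘L tens 1 a ∘L rei (ed Λ)) = _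
  rw [adjoint_comp, adjoint_comp, adjoint_rei, adjoint_rei, adjoint_tens,
    Equiv.symm_symm, ← star_eq_adjoint (1 : Ell2 (Λ × Λ) →L[ℂ] Ell2 (Λ × Λ)), star_one]
  rfl

/-- the right translation by `x` in the adapted coordinates -/
def mxd (x : Λ × Λ × Λ) : Λ × Λ ≃ Λ × Λ where
  toFun u := (x.1 * u.1 * x.2.1⁻¹, x.1 * u.2 * x.2.2⁻¹)
  invFun u := (x.1⁻¹ * u.1 * x.2.1, x.1⁻¹ * u.2 * x.2.2)
  left_inv u := by simp [mul_assoc]
  right_inv u := by simp [mul_assoc]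

theorem rho_ed (x : Λ × Λ × Λ) (v : Ell2 (Λ × Λ × Λ)) :
    rho x v = rei (ed Λ).symm (tens (rei (mxd x)) (rho x.1) (rei (ed Λ) v)) := by
  rw [rho, rho, tens_rei, rei_rei, rei_rei]
  congr 1
  congr 1
  ext1 y
  obtain ⟨a, b, c⟩ := x
  obtain ⟨p, q, r⟩ := y
  simp [ed, mxd, mul_assoc]

theorem Do_cmm {a : Ell2 Λ →L[ℂ] Ell2 Λ} (ha : Cmm rhoH a) : Cmm rhoH (Do a) := by
  intro x
  have hx := ha x.1
  rw [rhoH_apply] at hx ⊢
  ext1 v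
  change Do a (rho x v) = rho x (Do a v)
  rw [rho_ed, rho_ed, Do_apply, Do_apply, rei_rei (ed Λ).symm, Equiv.symm_trans_self, rei_refl,
    rei_rei (ed Λ).symm, Equiv.symm_trans_self, rei_refl]
  congr 1
  have h1 : tens 1 a * tens (rei (mxd x)) (rho x.1) =
      tens (rei (mxd x)) (rho x.1) * tens 1 a := by
    rw [← tens_mul, ← tens_mul, one_mul, mul_one, hx]
  exact congrArg (fun L : Ell2 ((Λ × Λ) × Λ) →L[ℂ] Ell2 ((Λ × Λ) × Λ) => L (rei (ed Λ) v)) h1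

theorem Do_lam (s : Λ) : Do (lam s) = lam (ι3 s) := by
  apply op_ext
  rintro ⟨x, y, z⟩
  have h1 : rei (ed Λ) (dl (x, y, z)) = dl ((x⁻¹ * y, x⁻¹ * z), x) := by
    rw [rei_dl]; rfl
  rw [Do_apply, h1, tens_dl, lam_dl, lam_dl]
  change rei (ed Λ).symm (tv (dl (x⁻¹ * y, x⁻¹ * z)) (dl (s * x))) = _
  rw [← dl_prod, rei_dl]
  congr 1
  change (s * x, s * x * (x⁻¹ * y), s * x * (x⁻¹ * z)) = (s * x, s * y, s * z)
  simp [mul_assoc]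

theorem T0_eqd (v : Ell2 Λ) : T0 Λ v = rei (ed Λ).symm (tv (dl (1, 1)) v) := by
  have h : T0 Λ = rei (ed Λ).symm ∘L tvr (dl ((1 : Λ), (1 : Λ))) := by
    apply op_ext
    intro s
    rw [T0_dl, comp_apply, tvr_apply, ← dl_prod, rei_dl]
    change dl (s, s, s) = dl (s, s * 1, s * 1)
    rw [mul_one]
  rw [h]
  rfl

theorem Do_dl (a : Ell2 Λ →L[ℂ] Ell2 Λ) : Do a (dl 1) = T0 Λ (a (dl 1)) := by
  rw [T0_eqd, Do_apply]
  congr 1
  have h1 : rei (ed Λ) (dl (1 : Λ × Λ × Λ)) = tv (dl (1, 1)) (dl 1) := by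
    rw [rei_dl, ← dl_prod]
    change dl (((1 : Λ)⁻¹ * 1, (1 : Λ)⁻¹ * 1), (1 : Λ)) = _
    rw [inv_one, mul_one]
  rw [h1, tens_tv]
  rfl

/-! ### right multiplication by `Δ(a)*` -/

noncomputable def Ro (a : Ell2 Λ →L[ℂ] Ell2 Λ) :
    Ell2 (Λ × Λ × Λ) →L[ℂ] Ell2 (Λ × Λ × Λ) :=
  rei (ee Λ).symm ∘L tens 1 (iv Λ * bar a * iv Λ) ∘L rei (ee Λ)

theorem Ro_apply (a : Ell2 Λ →L[ℂ] Ell2 Λ) (v : Ell2 (Λ × Λ × Λ)) :
    Ro a v = rei (ee Λ).symm (tens 1 (iv Λ * bar a * iv Λ) (rei (ee Λ) v)) := rfl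

theorem Ro_mul (a b : Ell2 Λ →L[ℂ] Ell2 Λ) : Ro (a * b) = Ro a * Ro b := by
  have h0 := tens_mul (1 : Ell2 (Λ × Λ) →L[ℂ] Ell2 (Λ × Λ)) 1 (iv Λ * bar b * iv Λ)
    (iv Λ * bar a * iv Λ)
  have h1 : iv Λ * bar (a * b) * iv Λ = (iv Λ * bar a * iv Λ) * (iv Λ * bar b * iv Λ) := by
    rw [bar_mul]
    calc iv Λ * (bar a * bar b) * iv Λ = iv Λ * bar a * 1 * (bar b * iv Λ) := by
          simp only [mul_assoc, one_mul, mul_one]
      _ = iv Λ * bar a * (iv Λ * iv Λ) * (bar b * iv Λ) := by rw [iv_iv]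
      _ = _ := by simp only [mul_assoc]
  rw [mul_one, ← h1] at h0
  ext1 v
  rw [mul_ap, Ro_apply, Ro_apply, Ro_apply, rei_rei (ee Λ).symm, Equiv.symm_trans_self, rei_refl,
    h0]
  rfl

theorem Ro_adj (a : Ell2 Λ →L[ℂ] Ell2 Λ) : adjoint (Ro a) = Ro (adjoint a) := by
  change adjoint (rei (ee Λ).symm ∘L tens 1 (iv Λ * bar a * iv Λ) ∘L rei (ee Λ)) = _
  have h : adjoint (iv Λ * bar a * iv Λ) = iv Λ * bar (adjoint a) * iv Λ := by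
    rw [← star_eq_adjoint, star_mul, star_mul, star_eq_adjoint, star_eq_adjoint,
      adjoint_iv, adjoint_bar, mul_assoc]
  rw [adjoint_comp, adjoint_comp, adjoint_rei, adjoint_rei, adjoint_tens, h,
    Equiv.symm_symm, ← star_eq_adjoint (1 : Ell2 (Λ × Λ) →L[ℂ] Ell2 (Λ × Λ)), star_one]
  rfl

theorem iv_lam {a : Ell2 Λ →L[ℂ] Ell2 Λ} (ha : Cmm rhoH a) (x : Λ) :
    (iv Λ * bar a * iv Λ) * lam x = lam x * (iv Λ * bar a * iv Λ) := by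
  rw [← iv_rho_iv]
  have h1 := bar_cmm ha x
  rw [rhoH_apply] at h1
  calc iv Λ * bar a * iv Λ * (iv Λ * rho x * iv Λ)
      = iv Λ * (bar a * (iv Λ * iv Λ) * rho x) * iv Λ := by simp only [mul_assoc]
    _ = iv Λ * (rho x * (iv Λ * iv Λ) * bar a) * iv Λ := by
        rw [iv_iv, mul_one, mul_one, h1]
    _ = iv Λ * rho x * iv Λ * (iv Λ * bar a * iv Λ) := by simp only [mul_assoc]

theorem Ro_lam {a : Ell2 Λ →L[ℂ] Ell2 Λ} (ha : Cmm rhoH a) : Cmm lamH (Ro a) := by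
  intro x
  rw [lamH_apply]
  ext1 v
  change Ro a (lam x v) = lam x (Ro a v)
  rw [lam_ee, lam_ee, Ro_apply, Ro_apply, rei_rei (ee Λ).symm, Equiv.symm_trans_self, rei_refl,
    rei_rei (ee Λ).symm, Equiv.symm_trans_self, rei_refl]
  congr 1
  have h1 : tens 1 (iv Λ * bar a * iv Λ) * tens (rei (mx x)) (lam x.1) =
      tens (rei (mx x)) (lam x.1) * tens 1 (iv Λ * bar a * iv Λ) := by
    rw [← tens_mul, ← tens_mul, one_mul, mul_one, iv_lam ha]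
  exact congrArg (fun L : Ell2 ((Λ × Λ) × Λ) →L[ℂ] Ell2 ((Λ × Λ) × Λ) => L (rei (ee Λ) v)) h1

theorem adj_coord {a : Ell2 Λ →L[ℂ] Ell2 Λ} (ha : Cmm rhoH a) (y : Λ) :
    (adjoint a (dl 1) : Ell2 Λ) y = (starRingEnd ℂ) ((a (dl 1) : Ell2 Λ) y⁻¹) := by
  have h1 : a (dl y) = rho y⁻¹ (a (dl 1)) := by
    have h2 := ha.apply y⁻¹ (dl 1)
    rw [rhoH_apply, ← dl_eq_rho] at h2
    exact h2
  rw [← inner_dl, adjoint_inner_right, h1, inner_dl_right, rho_apply, one_mul]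

theorem iv_dl_one {a : Ell2 Λ →L[ℂ] Ell2 Λ} (ha : Cmm rhoH a) :
    (iv Λ * bar a * iv Λ) (dl 1) = adjoint a (dl 1) := by
  apply ext_inner_dl
  intro y
  rw [adj_coord ha]
  have h1 : iv Λ (dl 1) = dl 1 := by
    rw [iv, rei_dl]
    change dl (1 : Λ)⁻¹ = dl 1
    rw [inv_one]
  change (iv Λ (bar a (iv Λ (dl 1)))) y = _
  rw [h1, iv_apply, bar_dl, cj_apply]

theorem Ro_dl {a : Ell2 Λ →L[ℂ] Ell2 Λ} (ha : Cmm rhoH a) :
    Ro a (dl 1) = Do (adjoint a) (dl 1) := by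
  rw [Do_dl, T0_eq, Ro_apply]
  congr 1
  have h1 : rei (ee Λ) (dl (1 : Λ × Λ × Λ)) = tv (dl (1, 1)) (dl 1) := by
    rw [rei_dl, ← dl_prod]
    change dl (((1 : Λ) * 1⁻¹, (1 : Λ) * 1⁻¹), (1 : Λ)) = _
    rw [inv_one, mul_one]
  rw [h1, tens_tv, iv_dl_one ha]
  rfl

/-- left and right multiplications commute -/
theorem comm_LR {G : Type} [Group G] {A B : Ell2 G →L[ℂ] Ell2 G} (hA : Cmm rhoH A)
    (hB : Cmm lamH B) : A * B = B * A := by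
  have hc : ∀ g s : G, lamH g * rhoH s = rhoH s * lamH g := fun g s => (rho_lam s g).symm
  exact RegRep.commute regRep_lam regRep_rho hc hA hB

/-! ### the representation -/

/-- a homomorphism from `Γ` into the unitary group of the corner `pL(Λ)p`, `p = α 1` -/
structure CF (α : Γ → (Ell2 Λ →L[ℂ] Ell2 Λ)) : Prop where
  mul : ∀ g h, α (g * h) = α g * α h
  adj : ∀ g, adjoint (α g) = α g⁻¹
  cmm : ∀ g, Cmm rhoH (α g)

noncomputable def pq (α : Γ → (Ell2 Λ →L[ℂ] Ell2 Λ)) (g : Γ) :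
    Ell2 (Λ × Λ × Λ) →L[ℂ] Ell2 (Λ × Λ × Λ) := A3o (α g) * Ro (α g)

variable {α : Γ → (Ell2 Λ →L[ℂ] Ell2 Λ)}

theorem pq_mul (hα : CF α) (g h : Γ) : pq α (g * h) = pq α g * pq α h := by
  have h1 := comm_LR (A3o_cmm (hα.cmm h)) (Ro_lam (hα.cmm g))
  calc pq α (g * h) = A3o (α g) * A3o (α h) * (Ro (α g) * Ro (α h)) := by
        rw [pq, hα.mul, A3o_mul, Ro_mul]
    _ = A3o (α g) * (A3o (α h) * Ro (α g)) * Ro (α h) := by simp only [mul_assoc]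
    _ = A3o (α g) * (Ro (α g) * A3o (α h)) * Ro (α h) := by rw [h1]
    _ = _ := by rw [pq, pq]; simp only [mul_assoc]

theorem pq_adj (hα : CF α) (g : Γ) : adjoint (pq α g) = pq α g⁻¹ := by
  have h1 := comm_LR (A3o_cmm (hα.cmm g⁻¹)) (Ro_lam (hα.cmm g⁻¹))
  rw [pq, ← star_eq_adjoint, star_mul, star_eq_adjoint, star_eq_adjoint, A3o_adj,
    Ro_adj, hα.adj, ← h1]
  rfl

/-- the unitary representation (trivial off the corner) -/
noncomputable def ph (hα : CF α) : Γ →* (Ell2 (Λ × Λ × Λ) →L[ℂ] Ell2 (Λ × Λ × Λ)) where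
  toFun g := pq α g + (1 - pq α 1)
  map_one' := by abel
  map_mul' g h := by
    have e1 : pq α g * pq α 1 = pq α g := by rw [← pq_mul hα, mul_one]
    have e2 : pq α 1 * pq α h = pq α h := by rw [← pq_mul hα, one_mul]
    have e3 : pq α 1 * pq α 1 = pq α 1 := by rw [← pq_mul hα, one_mul]
    rw [pq_mul hα]
    have : (pq α g + (1 - pq α 1)) * (pq α h + (1 - pq α 1)) =
        pq α g * pq α h + (pq α g - pq α g * pq α 1) + (pq α h - pq α 1 * pq α h) +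
          (1 - pq α 1 - pq α 1 + pq α 1 * pq α 1) := by noncomm_ring
    rw [this, e1, e2, e3]
    abel

theorem ph_apply (hα : CF α) (g : Γ) : ph hα g = pq α g + (1 - pq α 1) := rfl

theorem ph_adj (hα : CF α) (g : Γ) : adjoint (ph hα g) = ph hα g⁻¹ := by
  rw [ph_apply, ph_apply, ← star_eq_adjoint, star_add, star_sub, star_one, star_eq_adjoint,
    star_eq_adjoint, pq_adj hα, pq_adj hα, inv_one]

/-- the base vector -/
noncomputable def x0 (α : Γ → (Ell2 Λ →L[ℂ] Ell2 Λ)) : Ell2 (Λ × Λ × Λ) := pq α 1 (dl 1)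

theorem pq_one_ap (hα : CF α) (g : Γ) (v : Ell2 (Λ × Λ × Λ)) : pq α g (pq α 1 v) = pq α g v := by
  rw [← mul_ap, ← pq_mul hα, mul_one]

theorem ph_x0 (hα : CF α) (g : Γ) : ph hα g (x0 α) = pq α g (dl 1) := by
  rw [ph_apply]
  change pq α g (pq α 1 (dl 1)) + (pq α 1 (dl 1) - pq α 1 (pq α 1 (dl 1))) = _
  rw [pq_one_ap hα, pq_one_ap hα, sub_self, add_zero]

theorem pq_dl (hα : CF α) (g : Γ) :
    pq α g (dl 1) = A3o (α g) (T0 Λ (α g⁻¹ (dl 1))) := by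
  change A3o (α g) (Ro (α g) (dl 1)) = _
  rw [Ro_dl (hα.cmm g), hα.adj, Do_dl]

theorem inner_pq (hα : CF α) (g : Γ) :
    ⟪(dl 1 : Ell2 (Λ × Λ × Λ)), pq α g (dl 1)⟫_ℂ =
      ((∑' s, ‖(α g (dl 1) : Ell2 Λ) s‖ ^ 4 : ℝ) : ℂ) := by
  rw [pq_dl hα, ← adjoint_inner_left, A3o_adj, hα.adj, A3o_dl, ← adjoint_inner_left]
  have h1 : ⟪adjoint (T0 Λ) (tv (α g⁻¹ (dl 1)) (tv (cj (α g⁻¹ (dl 1))) (α g⁻¹ (dl 1)))),
      α g⁻¹ (dl 1)⟫_ℂ = ((∑' s, ‖(α g⁻¹ (dl 1) : Ell2 Λ) s‖ ^ 4 : ℝ) : ℂ) := by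
    rw [inner_eq, Complex.ofReal_tsum]
    congr 1
    funext s
    rw [T0_adj_apply, tv_apply, tv_apply, cj_apply]
    set z := (α g⁻¹ (dl 1) : Ell2 Λ) s
    rw [map_mul, map_mul, Complex.conj_conj]
    have h2 : z * (starRingEnd ℂ) z = ((‖z‖ ^ 2 : ℝ) : ℂ) := by
      rw [Complex.mul_conj, Complex.normSq_eq_norm_sq]
    calc z * ((starRingEnd ℂ) z * (z * (starRingEnd ℂ) z))
        = (z * (starRingEnd ℂ) z) * (z * (starRingEnd ℂ) z) := by ring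
      _ = ((‖z‖ ^ 4 : ℝ) : ℂ) := by
        rw [h2, ← Complex.ofReal_mul]; congr 1; ring
  rw [h1]
  congr 1
  rw [← (Equiv.inv Λ).tsum_eq]
  congr 1
  funext s
  rw [← hα.adj, adj_coord (hα.cmm g), Equiv.inv_apply, inv_inv, RCLike.norm_conj]

theorem inner_x0 (hα : CF α) (g : Γ) :
    ⟪x0 α, ph hα g (x0 α)⟫_ℂ = ((∑' s, ‖(α g (dl 1) : Ell2 Λ) s‖ ^ 4 : ℝ) : ℂ) := by
  rw [ph_x0, ← inner_pq hα, x0, ← adjoint_inner_right, pq_adj hα, inv_one, ← mul_ap,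
    ← pq_mul hα, one_mul]

end Vale.Agent.P092.H051
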