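import Vale.Agent.P092.H051.Min

/-!
Matrices over `L(G)`: operators `ℓ²(I × G) → ℓ²(J × G)` which commute with the right translations.
-/

set_option linter.all false

open scoped InnerProductSpace
open Filter Topology ContinuousLinearMap

namespace Vale.Agent.P092.H051

open Vale.Agent.P092.H160 Vale.Agent.P092.H885

section basic

variable {I J L X Y Z : Type}

theorem ampR_comp (S : Ell2 X →L[ℂ] Ell2 Y) (T : Ell2 Y →L[ℂ] Ell2 Z) :
    ampR I (T ∘L S) = ampR I T ∘L ampR I S := by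
  apply op_ext
  rintro ⟨i, x⟩
  rw [comp_apply, dl_prod, ampR_tv, ampR_tv, ampR_tv]
  rfl

theorem ampR_mul (S T : Ell2 X →L[ℂ] Ell2 X) : ampR I (T * S) = ampR I T * ampR I S :=
  ampR_comp S T

theorem ampR_one : ampR I (1 : Ell2 X →L[ℂ] Ell2 X) = 1 := by
  apply op_ext
  rintro ⟨i, x⟩
  rw [dl_prod, ampR_tv]
  rfl

theorem ampR_adj (S : Ell2 X →L[ℂ] Ell2 Y) : adjoint (ampR I S) = ampR I (adjoint S) := by
  rw [← tens_one_left, adjoint_tens, ← tens_one_left, ← star_eq_adjoint (1 : Ell2 I →L[ℂ] Ell2 I),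
    star_one]

theorem ampR_bar (S : Ell2 X →L[ℂ] Ell2 Y) : bar (ampR I S) = ampR I (bar S) := by
  apply op_ext
  rintro ⟨i, x⟩
  rw [bar_dl, dl_prod, ampR_tv, ampR_tv, cj_tv, cj_dl, bar_dl]

theorem slL_dl [DecidableEq I] (i j : I) (x : X) :
    slL X i (dl (j, x)) = (if i = j then (1 : ℂ) else 0) • dl x := by
  rw [slL_apply, dl_prod, sl_tv, dl_apply]

theorem adj_slL (i : I) : adjoint (slL X i) = tvr (dl i) := by
  classical
  apply op_ext
  intro y
  apply ext_inner_dl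
  rintro ⟨j, x⟩
  rw [← inner_dl, adjoint_inner_right, slL_dl, inner_smul_left, inner_dl, tvr_apply]
  change _ = (dl i : Ell2 I) j * (dl y : Ell2 X) x
  by_cases h : i = j
  · subst h; rw [if_pos rfl, dl_self, map_one]
  · rw [if_neg h, dl_ne (Ne.symm h), map_zero]

theorem adj_tvr (i : I) : adjoint (tvr (dl i) : Ell2 X →L[ℂ] Ell2 (I × X)) = slL X i := by
  rw [← adj_slL, adjoint_adjoint]

theorem inner_tvl (i : I) (u : Ell2 X) (g : Ell2 (I × X)) :
    ⟪tv (dl i) u, g⟫_ℂ = ⟪u, sl g i⟫_ℂ := by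
  have h := adjoint_inner_left (slL X i) g u
  rw [adj_slL] at h
  exact h

variable [Fintype I]

theorem eq_sum_sl (f : Ell2 (I × X)) : f = ∑ i, tv (dl i) (sl f i) := by
  classical
  apply ext_inner_dl
  rintro ⟨j, x⟩
  rw [lp.coeFn_sum, Finset.sum_apply, Finset.sum_eq_single j]
  · rw [tv_apply, dl_self, one_mul]; rfl
  · intro i _ hne
    rw [tv_apply, dl_ne (Ne.symm hne), zero_mul]
  · intro h; exact absurd (Finset.mem_univ j) h

theorem inner_sl (f g : Ell2 (I × X)) : ⟪f, g⟫_ℂ = ∑ i, ⟪sl f i, sl g i⟫_ℂ := by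
  conv_lhs => rw [eq_sum_sl f]
  rw [sum_inner]
  exact Finset.sum_congr rfl fun i _ => inner_tvl i _ g

theorem norm_sl (f : Ell2 (I × X)) : ‖f‖ ^ 2 = ∑ i, ‖sl f i‖ ^ 2 := by
  have h := hasSum_sl f
  exact (hasSum_fintype _).unique h |>.symm

end basic

section rect

variable {I J L : Type} {G : Type} [Group G]

/-- commutation with the right translations -/
def Hm (T : Ell2 (I × G) →L[ℂ] Ell2 (J × G)) : Prop :=
  ∀ s : G, T ∘L ampR I (rho s) = ampR J (rho s) ∘L T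

theorem Hm.ap {T : Ell2 (I × G) →L[ℂ] Ell2 (J × G)} (h : Hm T) (s : G) (v : Ell2 (I × G)) :
    T (ampR I (rho s) v) = ampR J (rho s) (T v) :=
  congrArg (fun L : Ell2 (I × G) →L[ℂ] Ell2 (J × G) => L v) (h s)

theorem rr_dl (s : G) (i : I) (x : G) : ampR I (rho s) (dl (i, x)) = dl (i, x * s⁻¹) := by
  rw [dl_prod, ampR_tv, rho_dl, dl_prod]

theorem rr_apply (s : G) (v : Ell2 (I × G)) (i : I) (x : G) :
    ampR I (rho s) v (i, x) = v (i, x * s) := by
  rw [ampR_apply, rho_apply]; rfl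

theorem dl_eq_rr (i : I) (x : G) : (dl (i, x) : Ell2 (I × G)) = ampR I (rho x⁻¹) (dl (i, 1)) := by
  rw [rr_dl, inv_inv, one_mul]

theorem Hm.ext {S T : Ell2 (I × G) →L[ℂ] Ell2 (J × G)} (hS : Hm S) (hT : Hm T)
    (h : ∀ i, S (dl (i, 1)) = T (dl (i, 1))) : S = T := by
  apply op_ext
  rintro ⟨i, x⟩
  rw [dl_eq_rr, hS.ap, hT.ap, h]

theorem Hm.comp {S : Ell2 (I × G) →L[ℂ] Ell2 (J × G)} {T : Ell2 (J × G) →L[ℂ] Ell2 (L × G)}
    (hT : Hm T) (hS : Hm S) : Hm (T ∘L S) := fun s => by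
  rw [ContinuousLinearMap.comp_assoc, hS s, ← ContinuousLinearMap.comp_assoc, hT s,
    ContinuousLinearMap.comp_assoc]

theorem Hm.add {S T : Ell2 (I × G) →L[ℂ] Ell2 (J × G)} (hS : Hm S) (hT : Hm T) : Hm (S + T) :=
  fun s => by rw [add_comp, comp_add, hS s, hT s]

theorem Hm.smul {T : Ell2 (I × G) →L[ℂ] Ell2 (J × G)} (c : ℂ) (hT : Hm T) : Hm (c • T) :=
  fun s => by rw [smul_comp, comp_smul, hT s]

theorem Hm.one : Hm (1 : Ell2 (I × G) →L[ℂ] Ell2 (I × G)) := fun s => rfl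

theorem Hm.adj {T : Ell2 (I × G) →L[ℂ] Ell2 (J × G)} (hT : Hm T) : Hm (adjoint T) := fun s => by
  have h := congrArg adjoint (hT s⁻¹)
  rw [adjoint_comp, adjoint_comp, ampR_adj, ampR_adj, adjoint_rho, inv_inv] at h
  exact h.symm

/-- matrix entries -/
noncomputable def blk (T : Ell2 (I × G) →L[ℂ] Ell2 (J × G)) (j : J) (i : I) :
    Ell2 G →L[ℂ] Ell2 G := slL G j ∘L T ∘L tvr (dl i)

theorem blk_apply (T : Ell2 (I × G) →L[ℂ] Ell2 (J × G)) (j : J) (i : I) (v : Ell2 G) :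
    blk T j i v = sl (T (tv (dl i) v)) j := rfl

theorem blk_dl (T : Ell2 (I × G) →L[ℂ] Ell2 (J × G)) (j : J) (i : I) (x : G) :
    blk T j i (dl x) = sl (T (dl (i, x))) j := by
  rw [blk_apply, ← dl_prod]

theorem blk_cmm {T : Ell2 (I × G) →L[ℂ] Ell2 (J × G)} (hT : Hm T) (j : J) (i : I) :
    Cmm rhoH (blk T j i) := by
  intro s
  rw [rhoH_apply]
  ext1 v
  change sl (T (tv (dl i) (rho s v))) j = rho s (sl (T (tv (dl i) v)) j)
  rw [← ampR_tv, hT.ap, sl_ampR]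

theorem blk_adj (T : Ell2 (I × G) →L[ℂ] Ell2 (J × G)) (j : J) (i : I) :
    adjoint (blk T j i) = blk (adjoint T) i j := by
  rw [blk, adjoint_comp, adjoint_comp, adj_slL, adj_tvr]
  rfl

/-- The trace identity. -/
theorem tr_swap [Fintype I] [Fintype J] {S T : Ell2 (I × G) →L[ℂ] Ell2 (J × G)}
    (hS : Hm S) (hT : Hm T) :
    ∑ j, ⟪adjoint S (dl (j, 1)), adjoint T (dl (j, 1))⟫_ℂ =
      ∑ i, ⟪T (dl (i, 1)), S (dl (i, 1))⟫_ℂ := by
  have h1 : ∀ j, ⟪adjoint S (dl (j, 1)), adjoint T (dl (j, 1))⟫_ℂ =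
      ∑ i, ⟪(dl 1 : Ell2 G), blk S j i (adjoint (blk T j i) (dl 1))⟫_ℂ := by
    intro j
    rw [inner_sl]
    refine Finset.sum_congr rfl fun i _ => ?_
    rw [← blk_dl, ← blk_dl, ← blk_adj, ← blk_adj, adjoint_inner_left]
  have h2 : ∀ i, ⟪T (dl (i, 1)), S (dl (i, 1))⟫_ℂ =
      ∑ j, ⟪(dl 1 : Ell2 G), adjoint (blk T j i) (blk S j i (dl 1))⟫_ℂ := by
    intro i
    rw [inner_sl]
    refine Finset.sum_congr rfl fun j _ => ?_
    rw [← blk_dl, ← blk_dl, adjoint_inner_right]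
  rw [Finset.sum_congr rfl fun j _ => h1 j, Finset.sum_congr rfl fun i _ => h2 i,
    Finset.sum_comm]
  refine Finset.sum_congr rfl fun i _ => Finset.sum_congr rfl fun j _ => ?_
  exact regRep_rho.trace_comm (blk_cmm hS j i) (regRep_rho.cmm_adjoint (blk_cmm hT j i))

/-- The vector of an operator. -/
noncomputable def hv [Fintype I] (T : Ell2 (I × G) →L[ℂ] Ell2 (J × G)) : Ell2 (I × (J × G)) :=
  ∑ i, tv (dl i) (T (dl (i, 1)))

theorem sl_hv [Fintype I] (T : Ell2 (I × G) →L[ℂ] Ell2 (J × G)) (i : I) :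
    sl (hv T) i = T (dl (i, 1)) := by
  classical
  apply ext_inner_dl
  intro x
  rw [sl_apply, hv, lp.coeFn_sum, Finset.sum_apply, Finset.sum_eq_single i]
  · rw [tv_apply, dl_self, one_mul]
  · intro j _ hne
    rw [tv_apply, dl_ne (Ne.symm hne), zero_mul]
  · intro h; exact absurd (Finset.mem_univ i) h

theorem ext_sl {X : Type} {f g : Ell2 (I × X)} (h : ∀ i, sl f i = sl g i) : f = g := by
  apply ext_inner_dl
  rintro ⟨i, x⟩
  exact congrArg (fun z : Ell2 X => z x) (h i)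

theorem hv_comp [Fintype I] (T : Ell2 (J × G) →L[ℂ] Ell2 (L × G))
    (A : Ell2 (I × G) →L[ℂ] Ell2 (J × G)) : hv (T ∘L A) = ampR I T (hv A) := by
  refine ext_sl fun i => ?_
  rw [sl_hv, sl_ampR, sl_hv]; rfl

theorem hv_inner [Fintype I] (S T : Ell2 (I × G) →L[ℂ] Ell2 (J × G)) :
    ⟪hv S, hv T⟫_ℂ = ∑ i, ⟪S (dl (i, 1)), T (dl (i, 1))⟫_ℂ := by
  rw [inner_sl]
  exact Finset.sum_congr rfl fun i _ => by rw [sl_hv, sl_hv]

theorem hv_ext [Fintype I] {S T : Ell2 (I × G) →L[ℂ] Ell2 (J × G)} (hS : Hm S) (hT : Hm T)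
    (h : hv S = hv T) : S = T :=
  hS.ext hT fun i => by rw [← sl_hv, ← sl_hv, h]

theorem hv_add [Fintype I] (S T : Ell2 (I × G) →L[ℂ] Ell2 (J × G)) :
    hv (S + T) = hv S + hv T := by
  refine ext_sl fun i => ?_
  rw [sl_hv, sl_add, sl_hv, sl_hv]; rfl

theorem hv_smul [Fintype I] (c : ℂ) (T : Ell2 (I × G) →L[ℂ] Ell2 (J × G)) :
    hv (c • T) = c • hv T := by
  refine ext_sl fun i => ?_
  rw [sl_hv, sl_smul, sl_hv]; rfl

theorem hv_swap [Fintype I] [Fintype J] {S T : Ell2 (I × G) →L[ℂ] Ell2 (J × G)}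
    (hS : Hm S) (hT : Hm T) : ⟪hv (adjoint S), hv (adjoint T)⟫_ℂ = ⟪hv T, hv S⟫_ℂ := by
  rw [hv_inner, hv_inner, tr_swap hS hT]

theorem hv_norm_adj [Fintype I] [Fintype J] {T : Ell2 (I × G) →L[ℂ] Ell2 (J × G)}
    (hT : Hm T) : ‖hv (adjoint T)‖ = ‖hv T‖ := by
  have h := hv_swap hT hT
  rw [inner_self_eq_norm_sq_to_K, inner_self_eq_norm_sq_to_K] at h
  have h3 : ‖hv (adjoint T)‖ ^ 2 = ‖hv T‖ ^ 2 := by exact_mod_cast h
  exact (pow_left_inj₀ (norm_nonneg _) (norm_nonneg _) two_ne_zero).mp h3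

/-! ### right multiplications -/

/-- `I × (J × G) ≃ J × (I × G)` -/
def sg (I J G : Type) : I × (J × G) ≃ J × (I × G) where
  toFun x := (x.2.1, (x.1, x.2.2))
  invFun x := (x.2.1, (x.1, x.2.2))
  left_inv _ := rfl
  right_inv _ := rfl

noncomputable def LB (J : Type) (B : Ell2 (I × G) →L[ℂ] Ell2 (I × G)) :
    Ell2 (I × (J × G)) →L[ℂ] Ell2 (I × (J × G)) :=
  rei (sg I J G).symm ∘L ampR J B ∘L rei (sg I J G)

theorem LB_apply (B : Ell2 (I × G) →L[ℂ] Ell2 (I × G)) (v : Ell2 (I × (J × G))) :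
    LB J B v = rei (sg I J G).symm (ampR J B (rei (sg I J G) v)) := rfl

theorem LB_mul (A B : Ell2 (I × G) →L[ℂ] Ell2 (I × G)) : LB J (A * B) = LB J A * LB J B := by
  ext1 v
  rw [mul_ap, LB_apply, LB_apply, LB_apply, rei_rei (sg I J G).symm, Equiv.symm_trans_self,
    rei_refl, ampR_mul]
  rfl

theorem LB_adj (A : Ell2 (I × G) →L[ℂ] Ell2 (I × G)) : adjoint (LB J A) = LB J (adjoint A) := by
  rw [LB, adjoint_comp, adjoint_comp, adjoint_rei, adjoint_rei, ampR_adj, Equiv.symm_symm]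
  rfl

/-- left and right multiplications commute -/
theorem LB_comm {T : Ell2 (J × G) →L[ℂ] Ell2 (L × G)} (hT : Hm T)
    {B : Ell2 (I × G) →L[ℂ] Ell2 (I × G)}
    (hB : ∀ s : G, B * ampR I (lam s) = ampR I (lam s) * B) (v : Ell2 (I × (J × G))) :
    ampR I T (LB J B v) = LB L B (ampR I T v) := by
  have key : ampR I T ∘L LB J B = LB L B ∘L ampR I T := by
    apply op_ext
    rintro ⟨i, j, x⟩
    refine ext_sl fun i' => ?_
    refine ext_sl fun j' => ?_
    rw [comp_apply, comp_apply]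
    -- left side
    have e1 : rei (sg I J G) (dl (i, j, x)) = tv (dl j) (dl (i, x)) := by
      rw [rei_dl, ← dl_prod]; rfl
    set z := B (dl (i, x)) with hz
    have e2 : sl (LB J B (dl (i, j, x))) i' = tv (dl j) (sl z i') := by
      apply ext_inner_dl
      rintro ⟨k, y⟩
      rw [sl_apply, LB_apply, e1, ampR_tv, rei_apply]
      rfl
    set w := T (dl (j, x)) with hw
    have e3 : ampR I T (dl (i, j, x)) = tv (dl i) w := by
      rw [dl_prod, ampR_tv]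
    have e4 : sl (sl (LB L B (tv (dl i) w)) i') j' = sl (B (tv (dl i) (sl w j'))) i' := by
      apply ext_inner_dl
      intro y
      change LB L B (tv (dl i) w) (i', (j', y)) = B (tv (dl i) (sl w j')) (i', y)
      rw [LB_apply]
      change ampR L B (rei (sg I L G) (tv (dl i) w)) (j', (i', y)) = _
      rw [ampR_apply]
      have e5 : sl (rei (sg I L G) (tv (dl i) w)) j' = tv (dl i) (sl w j') := by
        apply ext_inner_dl
        rintro ⟨k, y⟩
        rfl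
      rw [e5]
    rw [sl_ampR, e2, e3, e4]
    have hBc : Cmm lamH (blk B i' i) := by
      intro s
      rw [lamH_apply]
      ext1 v
      change sl (B (tv (dl i) (lam s v))) i' = lam s (sl (B (tv (dl i) v)) i')
      rw [← ampR_tv]
      have := congrArg (fun L : Ell2 (I × G) →L[ℂ] Ell2 (I × G) => L (tv (dl i) v)) (hB s)
      change B (ampR I (lam s) (tv (dl i) v)) = ampR I (lam s) (B (tv (dl i) v)) at this
      rw [this, sl_ampR]
    have h1 := comm_LR (blk_cmm hT j' j) hBc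
    have h2 := congrArg (fun L : Ell2 G →L[ℂ] Ell2 G => L (dl x)) h1
    change blk T j' j (blk B i' i (dl x)) = blk B i' i (blk T j' j (dl x)) at h2
    rw [blk_dl, blk_dl, blk_apply, blk_apply] at h2
    exact h2
  exact congrArg (fun L : Ell2 (I × (J × G)) →L[ℂ] Ell2 (I × (_ × G)) => L v) key

/-- the operator of right multiplication by `S*` -/
noncomputable def Rb (S : Ell2 (I × G) →L[ℂ] Ell2 (I × G)) : Ell2 (I × G) →L[ℂ] Ell2 (I × G) :=
  ampR I (iv G) * bar S * ampR I (iv G)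

theorem iv2 : ampR I (iv G) * ampR I (iv G) = 1 := by
  rw [← ampR_mul, iv_iv, ampR_one]

theorem Rb_mul (S T : Ell2 (I × G) →L[ℂ] Ell2 (I × G)) : Rb (S * T) = Rb S * Rb T := by
  rw [Rb, Rb, Rb, bar_mul]
  calc ampR I (iv G) * (bar S * bar T) * ampR I (iv G)
      = ampR I (iv G) * bar S * 1 * (bar T * ampR I (iv G)) := by
        simp only [mul_assoc, one_mul, mul_one]
    _ = ampR I (iv G) * bar S * (ampR I (iv G) * ampR I (iv G)) * (bar T * ampR I (iv G)) := by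
        rw [iv2]
    _ = _ := by simp only [mul_assoc]

theorem Rb_adj (S : Ell2 (I × G) →L[ℂ] Ell2 (I × G)) : adjoint (Rb S) = Rb (adjoint S) := by
  rw [Rb, ← star_eq_adjoint, star_mul, star_mul, star_eq_adjoint, star_eq_adjoint,
    ampR_adj, adjoint_iv, adjoint_bar, Rb, mul_assoc]

theorem Rb_lam {S : Ell2 (I × G) →L[ℂ] Ell2 (I × G)} (hS : Hm S) (s : G) :
    Rb S * ampR I (lam s) = ampR I (lam s) * Rb S := by
  have h1 : bar S * ampR I (rho s) = ampR I (rho s) * bar S := by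
    have h2 := congrArg bar (show S * ampR I (rho s) = ampR I (rho s) * S from hS s)
    rw [bar_mul, bar_mul, ampR_bar, bar_rho] at h2
    exact h2
  rw [← iv_rho_iv, ampR_mul, ampR_mul, Rb]
  calc ampR I (iv G) * bar S * ampR I (iv G) *
        (ampR I (iv G) * ampR I (rho s) * ampR I (iv G))
      = ampR I (iv G) * (bar S * (ampR I (iv G) * ampR I (iv G)) * ampR I (rho s)) *
          ampR I (iv G) := by simp only [mul_assoc]
    _ = ampR I (iv G) * (ampR I (rho s) * (ampR I (iv G) * ampR I (iv G)) * bar S) *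
          ampR I (iv G) := by rw [iv2, mul_one, mul_one, h1]
    _ = _ := by simp only [mul_assoc]

theorem adj_coordm {S : Ell2 (I × G) →L[ℂ] Ell2 (J × G)} (hS : Hm S) (i : I) (j : J) (y : G) :
    (adjoint S (dl (j, 1)) : Ell2 (I × G)) (i, y) =
      (starRingEnd ℂ) ((S (dl (i, 1)) : Ell2 (J × G)) (j, y⁻¹)) := by
  rw [← inner_dl, adjoint_inner_right, dl_eq_rr, hS.ap, inner_dl_right, rr_apply, one_mul]

/-- right multiplication by `S*` -/
noncomputable def Rt (J : Type) (S : Ell2 (I × G) →L[ℂ] Ell2 (I × G)) :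
    Ell2 (I × (J × G)) →L[ℂ] Ell2 (I × (J × G)) := LB J (Rb S)

theorem Rt_mul (S T : Ell2 (I × G) →L[ℂ] Ell2 (I × G)) : Rt J (S * T) = Rt J S * Rt J T := by
  rw [Rt, Rb_mul, LB_mul]; rfl

theorem Rt_adj (S : Ell2 (I × G) →L[ℂ] Ell2 (I × G)) : adjoint (Rt J S) = Rt J (adjoint S) := by
  rw [Rt, LB_adj, Rb_adj]; rfl

theorem Rt_hv_one [Fintype I] {S : Ell2 (I × G) →L[ℂ] Ell2 (I × G)} (hS : Hm S) :
    Rt I S (hv (1 : Ell2 (I × G) →L[ℂ] Ell2 (I × G))) = hv (adjoint S) := by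
  refine ext_sl fun i' => ?_
  rw [sl_hv]
  apply ext_inner_dl
  rintro ⟨i, x⟩
  rw [adj_coordm hS]
  have e1 : sl (rei (sg I I G) (hv (1 : Ell2 (I × G) →L[ℂ] Ell2 (I × G)))) i = dl (i, 1) := by
    apply ext_inner_dl
    rintro ⟨k, y⟩
    change hv (1 : Ell2 (I × G) →L[ℂ] Ell2 (I × G)) (k, (i, y)) = _
    have e2 := congrArg (fun z : Ell2 (I × G) => z (i, y))
      (sl_hv (1 : Ell2 (I × G) →L[ℂ] Ell2 (I × G)) k)
    change hv (1 : Ell2 (I × G) →L[ℂ] Ell2 (I × G)) (k, (i, y)) = (dl (k, 1) : Ell2 (I × G)) (i, y) at e2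
    rw [e2]
    classical
    rw [dl_apply, dl_apply]
    by_cases h : i = k
    · subst h; rfl
    · rw [if_neg, if_neg]
      · intro h2; exact h (Prod.ext_iff.mp h2).1.symm
      · intro h2; exact h (Prod.ext_iff.mp h2).1
  change LB I (Rb S) (hv 1) (i', (i, x)) = _
  rw [LB_apply]
  change ampR I (Rb S) (rei (sg I I G) (hv 1)) (i, (i', x)) = _
  rw [ampR_apply, e1]
  have e3 : ampR I (iv G) (dl (i, (1 : G))) = dl (i, 1) := by
    rw [dl_prod, ampR_tv, iv, rei_dl, ← dl_prod]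
    change dl (i, (1 : G)⁻¹) = _
    rw [inv_one]
    exact dl_prod _ _
  change ampR I (iv G) (bar S (ampR I (iv G) (dl (i, 1)))) (i', x) = _
  rw [e3, bar_dl, ampR_apply, iv_apply]
  rfl

theorem Rt_hv [Fintype I] {S : Ell2 (I × G) →L[ℂ] Ell2 (I × G)} (hS : Hm S)
    {T : Ell2 (I × G) →L[ℂ] Ell2 (J × G)} (hT : Hm T) :
    Rt J S (hv T) = hv (T ∘L adjoint S) := by
  have e1 : hv T = ampR I T (hv (1 : Ell2 (I × G) →L[ℂ] Ell2 (I × G))) := by
    rw [← hv_comp]; rfl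
  rw [e1, Rt, ← LB_comm hT (Rb_lam hS), hv_comp]
  congr 1
  exact Rt_hv_one hS

/-! ### bounded vectors -/

/-- the vectors of contractions -/
def BVm (I J G : Type) [Group G] [Fintype I] : Set (Ell2 (I × (J × G))) :=
  {v | ∃ T : Ell2 (I × G) →L[ℂ] Ell2 (J × G), ‖T‖ ≤ 1 ∧ Hm T ∧ hv T = v}

theorem BVm_cvx [Fintype I] : Cvx (BVm I J G) := by
  rintro _ ⟨T, hT1, hTc, rfl⟩ _ ⟨S, hS1, hSc, rfl⟩ x y hx hy hxy
  refine ⟨(x : ℂ) • T + (y : ℂ) • S, ?_, (hTc.smul _).add (hSc.smul _), ?_⟩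
  · calc ‖(x : ℂ) • T + (y : ℂ) • S‖ ≤ ‖(x : ℂ) • T‖ + ‖(y : ℂ) • S‖ := norm_add_le _ _
      _ = x * ‖T‖ + y * ‖S‖ := by
          rw [norm_smul, norm_smul, Complex.norm_real, Complex.norm_real, Real.norm_of_nonneg hx,
            Real.norm_of_nonneg hy]
      _ ≤ x * 1 + y * 1 := by gcongr
      _ = 1 := by linarith
  · rw [hv_add, hv_smul, hv_smul]

theorem BVm_closed [Fintype I] : IsClosed (BVm I J G) := by
  refine isClosed_of_closure_subset fun ω hω => ?_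
  rw [mem_closure_iff_seq_limit] at hω
  obtain ⟨x, hx, hlim⟩ := hω
  choose T hT1 hTc hTx using hx
  have hTs : ∀ (q : I × G) n, T n (dl q) = ampR J (rho q.2⁻¹) (sl (x n) q.1) := fun q n => by
    obtain ⟨i, s⟩ := q
    rw [dl_eq_rr, (hTc n).ap, ← hTx, sl_hv]
  have hlims : ∀ q : I × G, Tendsto (fun n => T n (dl q)) atTop
      (𝓝 (ampR J (rho q.2⁻¹) (sl ω q.1))) := by
    intro q
    simp only [hTs]
    exact ((ampR J (rho q.2⁻¹)).continuous.tendsto _).comp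
      (((slL (J × G) q.1).continuous.tendsto ω).comp hlim)
  have hb : Bes 1 (fun q : I × G => ampR J (rho q.2⁻¹) (sl ω q.1)) := by
    intro s v
    have h1 : Tendsto (fun n => ∑ t ∈ s, ‖⟪T n (dl t), v⟫_ℂ‖ ^ 2) atTop
        (𝓝 (∑ q ∈ s, ‖⟪ampR J (rho q.2⁻¹) (sl ω q.1), v⟫_ℂ‖ ^ 2)) :=
      tendsto_finsetSum s fun t _ => (((hlims t).inner tendsto_const_nhds).norm).pow 2
    refine le_of_tendsto h1 (Eventually.of_forall fun n => ?_)
    exact ((bes_of_op (T n)).mono (norm_nonneg _) (hT1 n)) s v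
  have hdl : ∀ q, opOf hb (dl q) = ampR J (rho q.2⁻¹) (sl ω q.1) := fun q => opOf_dl hb q
  refine ⟨opOf hb, ?_, fun s => ?_, ?_⟩
  · simpa using norm_opOf_le hb
  · apply op_ext
    rintro ⟨i, t⟩
    rw [comp_apply, comp_apply, rr_dl, hdl, hdl]
    change ampR J (rho (t * s⁻¹)⁻¹) (sl ω i) = ampR J (rho s) (ampR J (rho t⁻¹) (sl ω i))
    rw [mul_inv_rev, inv_inv, rho_mul, ampR_mul]
    rfl
  · refine ext_sl fun i => ?_
    rw [sl_hv, hdl]
    change ampR J (rho (1 : G)⁻¹) (sl ω i) = sl ω i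
    rw [inv_one, rho_one, ampR_one]
    rfl

end rect

end Vale.Agent.P092.H051
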