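import Vale.Agent.P092.H160.StDefs

/-!
Definitions used in the statements for P092: isomorphisms of `L(Γ)` onto a corner `pL(Λ)p`.
-/

namespace Vale.Agent.P092.H160.St

/-- A `*`-isomorphism from `L(Γ)` onto the corner `pL(Λ)p`, where `p ∈ L(Λ)` is a projection. -/
structure CornerIso (Γ Λ : Type) [Group Γ] [Group Λ] (p : Op Λ) where
  /-- the map (only its values on `L(Γ)` matter) -/
  toFun : Op Γ → Op Λ
  /-- the inverse map (only its values on `pL(Λ)p` matter) -/
  invFun : Op Λ → Op Γ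
  proj_mem : InL p
  proj_sq : mul p p = p
  proj_adj : IsAdj p p
  map_mem : ∀ T, InL T → InL (toFun T)
  map_corner : ∀ T, InL T → mul (mul p (toFun T)) p = toFun T
  inv_mem : ∀ T, InL T → mul (mul p T) p = T → InL (invFun T)
  left_inv : ∀ T, InL T → invFun (toFun T) = T
  right_inv : ∀ T, InL T → mul (mul p T) p = T → toFun (invFun T) = T
  map_add : ∀ S T, InL S → InL T → toFun (add S T) = add (toFun S) (toFun T)
  map_smul : ∀ c S T, InL S → InL T → IsSmul c S T → IsSmul c (toFun S) (toFun T)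
  map_mul : ∀ S T, InL S → InL T → toFun (mul S T) = mul (toFun S) (toFun T)
  map_adj : ∀ S T, InL S → InL T → IsAdj S T → IsAdj (toFun S) (toFun T)

/-- `θ : L(Γ) → pL(Λ)p` is canonical: `p = 1` and `θ(u_g) = χ(g) w v_{δ(g)} w*` for a group
isomorphism `δ : Γ → Λ`, a character `χ : Γ → 𝕋` and a unitary `w ∈ L(Λ)` (with inverse and
adjoint `w'`). -/
def CornerCanonical {Γ Λ : Type} [Group Γ] [Group Λ] {p : Op Λ} (θ : CornerIso Γ Λ p) : Prop :=
  p = u 1 ∧ ∃ (δ : Γ ≃* Λ) (χ : Γ →* Circle) (w w' : Op Λ), InL w ∧ IsAdj w w' ∧ mul w w' = u 1 ∧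
    mul w' w = u 1 ∧ ∀ g : Γ, IsSmul (χ g) (mul (mul w (u (δ g))) w') (θ.toFun (u g))

end Vale.Agent.P092.H160.St
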