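import Vale.Agent.P092.H160.StDefs

/-!
Definitions used in the statements for P092: matrices over `L(G)`, and isomorphisms of `L(Γ)` onto
a corner `p M_m(L(Λ)) p`.
-/

namespace Vale.Agent.P092.H160.St

/-- Right translation of the second coordinate: the unitary of `(i, x) ↦ (i, x s)`. -/
noncomputable def rtM (m : ℕ) {G : Type} [Group G] (s : G) : Op (Fin m × G) :=
  rei (Equiv.prodCongr (Equiv.refl (Fin m)) (Equiv.mulRight s))

/-- Membership in `M_m(L(G))`: the operators on `ℓ²(Fin m × G)` which commute with the right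
translations of the second coordinate. -/
def InM {m : ℕ} {G : Type} [Group G] (T : Op (Fin m × G)) : Prop :=
  ∀ s : G, mul T (rtM m s) = mul (rtM m s) T

/-- The unnormalized trace `(Tr ⊗ τ)(T)`. -/
noncomputable def trM {m : ℕ} {G : Type} [Group G] (T : Op (Fin m × G)) : ℂ :=
  ∑ i : Fin m, ip (dl (i, 1)) (ap T (dl (i, 1)))

/-- The fourth power sum of all the Fourier coefficients of all the entries of `T`:
`∑_j ∑_{(i,s)} |τ(T_{ij} u_s*)|⁴`, where `τ(T_{ij} u_s*) = ⟨δ_{(i,s)}, T δ_{(j,e)}⟩`. -/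
noncomputable def fourthM {m : ℕ} {G : Type} [Group G] (T : Op (Fin m × G)) : ℝ :=
  ∑ j : Fin m, ∑' x : Fin m × G, ‖ip (dl x) (ap T (dl (j, 1)))‖ ^ 4

/-- A `*`-isomorphism from `L(Γ)` onto the corner `p M_m(L(Λ)) p`, for a projection
`p ∈ M_m(L(Λ))`. -/
structure MCornerIso (Γ Λ : Type) [Group Γ] [Group Λ] (m : ℕ) (p : Op (Fin m × Λ)) where
  /-- the map (only its values on `L(Γ)` matter) -/
  toFun : Op Γ → Op (Fin m × Λ)
  /-- the inverse map (only its values on the corner matter) -/
  invFun : Op (Fin m × Λ) → Op Γ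
  proj_mem : InM p
  proj_sq : mul p p = p
  proj_adj : IsAdj p p
  map_mem : ∀ T, InL T → InM (toFun T)
  map_corner : ∀ T, InL T → mul (mul p (toFun T)) p = toFun T
  inv_mem : ∀ T, InM T → mul (mul p T) p = T → InL (invFun T)
  left_inv : ∀ T, InL T → invFun (toFun T) = T
  right_inv : ∀ T, InM T → mul (mul p T) p = T → toFun (invFun T) = T
  map_add : ∀ S T, InL S → InL T → toFun (add S T) = add (toFun S) (toFun T)
  map_smul : ∀ c S T, InL S → InL T → IsSmul c S T → IsSmul c (toFun S) (toFun T)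
  map_mul : ∀ S T, InL S → InL T → toFun (mul S T) = mul (toFun S) (toFun T)
  map_adj : ∀ S T, InL S → InL T → IsAdj S T → IsAdj (toFun S) (toFun T)

end Vale.Agent.P092.H160.St
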